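import Vale.Agent.P330.Core

/-!
P330: basic facts on fractions, means, balanced maps and gates.
-/

namespace Vale.Agent.P330

/-! ### Means -/

section Mean

variable {C : Type} [Fintype C]

theorem card_pos_real [Nonempty C] : (0 : ℝ) < Fintype.card C := by
  exact_mod_cast Fintype.card_pos

theorem mean_mono {f g : C → ℝ} (h : ∀ c, f c ≤ g c) : mean f ≤ mean g :=
  div_le_div_of_nonneg_right (Finset.sum_le_sum fun c _ => h c) (by positivity)

theorem mean_congr {f g : C → ℝ} (h : ∀ c, f c = g c) : mean f = mean g := by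
  rw [funext h]

theorem mean_nonneg {f : C → ℝ} (h : ∀ c, 0 ≤ f c) : 0 ≤ mean f :=
  div_nonneg (Finset.sum_nonneg fun c _ => h c) (by positivity)

@[simp] theorem mean_zero : mean (fun _ : C => (0 : ℝ)) = 0 := by simp [mean]

@[simp] theorem mean_const [Nonempty C] (a : ℝ) : mean (fun _ : C => a) = a := by
  have := card_pos_real (C := C)
  unfold mean
  rw [Finset.sum_const, Finset.card_univ, nsmul_eq_mul]
  field_simp

theorem mean_const_le {a : ℝ} (ha : 0 ≤ a) : mean (fun _ : C => a) ≤ a := by
  rcases isEmpty_or_nonempty C with h | h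
  · simp [mean, ha]
  · exact (mean_const a).le

theorem mean_add (f g : C → ℝ) : mean (fun c => f c + g c) = mean f + mean g := by
  unfold mean
  rw [Finset.sum_add_distrib, add_div]

theorem mean_sub (f g : C → ℝ) : mean (fun c => f c - g c) = mean f - mean g := by
  unfold mean
  rw [Finset.sum_sub_distrib, sub_div]

theorem mean_neg (f : C → ℝ) : mean (fun c => -f c) = -mean f := by
  unfold mean
  rw [Finset.sum_neg_distrib, neg_div]

theorem mean_const_mul (a : ℝ) (f : C → ℝ) : mean (fun c => a * f c) = a * mean f := by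
  unfold mean
  rw [← Finset.mul_sum, mul_div_assoc]

theorem mean_mul_const (a : ℝ) (f : C → ℝ) : mean (fun c => f c * a) = mean f * a := by
  unfold mean
  rw [← Finset.sum_mul, div_mul_eq_mul_div]

theorem mean_div_const (a : ℝ) (f : C → ℝ) : mean (fun c => f c / a) = mean f / a := by
  simp only [div_eq_mul_inv _ a, mean_mul_const]

theorem mean_sum {I : Type} (s : Finset I) (f : I → C → ℝ) :
    mean (fun c => ∑ i ∈ s, f i c) = ∑ i ∈ s, mean (f i) := by
  unfold mean
  rw [Finset.sum_comm, Finset.sum_div]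

theorem mean_le_of_le {f : C → ℝ} {a : ℝ} (ha : 0 ≤ a) (h : ∀ c, f c ≤ a) : mean f ≤ a :=
  (mean_mono h).trans (mean_const_le ha)

theorem mean_le_of_le' [Nonempty C] {f : C → ℝ} {a : ℝ} (h : ∀ c, f c ≤ a) : mean f ≤ a :=
  (mean_mono h).trans (mean_const a).le

theorem le_mean_of_le [Nonempty C] {f : C → ℝ} {a : ℝ} (h : ∀ c, a ≤ f c) : a ≤ mean f :=
  (mean_const (C := C) a).ge.trans (mean_mono h)

theorem mean_le_one {f : C → ℝ} (h : ∀ c, f c ≤ 1) : mean f ≤ 1 := mean_le_of_le zero_le_one h

theorem abs_mean_le (f : C → ℝ) : |mean f| ≤ mean fun c => |f c| := by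
  unfold mean
  rw [abs_div, Nat.abs_cast]
  exact div_le_div_of_nonneg_right (Finset.abs_sum_le_sum_abs _ _) (by positivity)

theorem abs_mean_sub_le {f g : C → ℝ} {a : ℝ} (ha : 0 ≤ a) (h : ∀ c, |f c - g c| ≤ a) :
    |mean f - mean g| ≤ a := by
  rw [← mean_sub]
  exact (abs_mean_le _).trans (mean_le_of_le ha h)

theorem exists_le_mean [Nonempty C] (f : C → ℝ) : ∃ c, f c ≤ mean f := by
  obtain ⟨c, -, hc⟩ := Finset.exists_min_image Finset.univ f Finset.univ_nonempty
  exact ⟨c, le_mean_of_le fun d => hc d (Finset.mem_univ d)⟩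

theorem exists_mean_le [Nonempty C] (f : C → ℝ) : ∃ c, mean f ≤ f c := by
  obtain ⟨c, -, hc⟩ := Finset.exists_max_image Finset.univ f Finset.univ_nonempty
  exact ⟨c, mean_le_of_le' fun d => hc d (Finset.mem_univ d)⟩

theorem mean_sq_le (f : C → ℝ) : mean f ^ 2 ≤ mean fun c => f c ^ 2 := by
  rcases isEmpty_or_nonempty C with h | h
  · simp [mean]
  · have hp := card_pos_real (C := C)
    have h1 : (∑ c, f c) ^ 2 ≤ (Finset.univ : Finset C).card * ∑ c, f c ^ 2 :=
      sq_sum_le_card_mul_sum_sq
    rw [Finset.card_univ] at h1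
    unfold mean
    rw [div_pow, div_le_div_iff₀ (by positivity) hp]
    nlinarith

variable {X Y : Type} [Fintype X] [Fintype Y]

theorem mean_equiv (e : X ≃ Y) (f : Y → ℝ) : mean (fun x => f (e x)) = mean f := by
  unfold mean
  rw [Fintype.card_congr e, Equiv.sum_comp e f]

theorem mean_bij {φ : X → Y} (h : Function.Bijective φ) (f : Y → ℝ) :
    mean (fun x => f (φ x)) = mean f := mean_equiv (Equiv.ofBijective φ h) f

theorem mean_prod (f : X × Y → ℝ) : mean f = mean fun x => mean fun y => f (x, y) := by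
  unfold mean
  rw [Fintype.sum_prod_type, Fintype.card_prod, ← Finset.sum_div, div_div, Nat.cast_mul, mul_comm]

theorem mean_prod' (f : X × Y → ℝ) : mean f = mean fun y => mean fun x => f (x, y) := by
  rw [← mean_equiv (Equiv.prodComm Y X) f, mean_prod]
  rfl

theorem mean_comm (f : X → Y → ℝ) :
    mean (fun x => mean fun y => f x y) = mean fun y => mean fun x => f x y :=
  (mean_prod fun p : X × Y => f p.1 p.2).symm.trans (mean_prod' _)

theorem mean_fst [Nonempty Y] (f : X → ℝ) : mean (fun p : X × Y => f p.1) = mean f := by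
  rw [mean_prod]
  simp only [mean_const]

theorem mean_snd [Nonempty X] (f : Y → ℝ) : mean (fun p : X × Y => f p.2) = mean f := by
  rw [mean_prod']
  simp only [mean_const]

theorem mean_mul_mean (f : X → ℝ) (g : Y → ℝ) :
    mean (fun p : X × Y => f p.1 * g p.2) = mean f * mean g := by
  rw [mean_prod]
  simp only [mean_const_mul, mean_mul_const]

end Mean

/-! ### Fractions -/

section Frac

variable {C : Type} [Fintype C]

theorem frac_eq (p : C → Prop) [DecidablePred p] :
    frac p = ((Finset.univ.filter p).card : ℝ) / Fintype.card C := by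
  unfold frac
  congr

theorem frac_eq_mean (p : C → Prop) [DecidablePred p] :
    frac p = mean fun c => if p c then 1 else 0 := by
  rw [frac_eq, mean, Finset.sum_boole]

theorem frac_eq_mean_bv (u : C → Bool) : frac (fun c => u c = true) = mean fun c => bv (u c) :=
  frac_eq_mean _

theorem frac_nonneg (p : C → Prop) : 0 ≤ frac p := by
  unfold frac; positivity

theorem frac_le_one (p : C → Prop) : frac p ≤ 1 := by
  classical
  rw [frac_eq_mean]
  exact mean_le_one fun c => by split_ifs <;> norm_num

theorem frac_mono {p q : C → Prop} (h : ∀ c, p c → q c) : frac p ≤ frac q := by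
  classical
  rw [frac_eq_mean, frac_eq_mean]
  refine mean_mono fun c => ?_
  by_cases hp : p c
  · simp [hp, h c hp]
  · simp only [hp, if_false]
    split_ifs <;> norm_num

theorem frac_congr {p q : C → Prop} (h : ∀ c, p c ↔ q c) : frac p = frac q := by
  rw [show p = q from funext fun c => propext (h c)]

theorem frac_eq_zero {p : C → Prop} (h : ∀ c, ¬ p c) : frac p = 0 := by
  classical
  rw [frac_eq_mean]
  simp [h]

@[simp] theorem frac_false : frac (fun _ : C => False) = 0 := frac_eq_zero fun _ => id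

theorem frac_eq_one [Nonempty C] {p : C → Prop} (h : ∀ c, p c) : frac p = 1 := by
  classical
  rw [frac_eq_mean]
  simp [h]

@[simp] theorem frac_true [Nonempty C] : frac (fun _ : C => True) = 1 :=
  frac_eq_one fun _ => trivial

theorem frac_const [Nonempty C] (p : Prop) [Decidable p] :
    frac (fun _ : C => p) = if p then 1 else 0 := by
  by_cases hp : p <;> simp [hp]

theorem frac_not [Nonempty C] (p : C → Prop) : frac (fun c => ¬ p c) = 1 - frac p := by
  classical
  rw [frac_eq_mean, frac_eq_mean, ← mean_const (C := C) 1, ← mean_sub]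
  refine mean_congr fun c => ?_
  by_cases hp : p c <;> simp [hp]

theorem frac_or_le (p q : C → Prop) : frac (fun c => p c ∨ q c) ≤ frac p + frac q := by
  classical
  rw [frac_eq_mean, frac_eq_mean, frac_eq_mean, ← mean_add]
  refine mean_mono fun c => ?_
  by_cases hp : p c <;> by_cases hq : q c <;> simp [hp, hq]

theorem frac_or_of_disjoint {p q : C → Prop} (h : ∀ c, p c → ¬ q c) :
    frac (fun c => p c ∨ q c) = frac p + frac q := by
  classical
  rw [frac_eq_mean, frac_eq_mean, frac_eq_mean, ← mean_add]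
  refine mean_congr fun c => ?_
  by_cases hp : p c
  · simp [hp, h c hp]
  · simp [hp]

theorem frac_split (p q : C → Prop) :
    frac p = frac (fun c => p c ∧ q c) + frac fun c => p c ∧ ¬ q c := by
  rw [← frac_or_of_disjoint fun c h1 h2 => h2.2 h1.2]
  exact frac_congr fun c => by tauto

/-- union bound, two events -/
theorem frac_le_add {p q r : C → Prop} (h : ∀ c, p c → q c ∨ r c) : frac p ≤ frac q + frac r :=
  (frac_mono h).trans (frac_or_le q r)

/-- union bound, three events -/
theorem frac_le_add3 {p q r s : C → Prop} (h : ∀ c, p c → q c ∨ r c ∨ s c) :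
    frac p ≤ frac q + frac r + frac s := by
  have h1 := frac_le_add h
  have h2 := frac_or_le r s
  linarith

theorem frac_sub_le_and_not (p q : C → Prop) : frac p - frac q ≤ frac fun c => p c ∧ ¬ q c := by
  have := frac_le_add (p := p) (q := q) (r := fun c => p c ∧ ¬ q c) fun c hc => by tauto
  linarith

theorem frac_and_ge [Nonempty C] (p q : C → Prop) :
    frac p + frac q - 1 ≤ frac fun c => p c ∧ q c := by
  have h1 := frac_sub_le_and_not p fun c => ¬ q c
  rw [frac_not] at h1
  have h2 : frac (fun c => p c ∧ ¬ ¬ q c) = frac fun c => p c ∧ q c :=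
    frac_congr fun c => by rw [not_not]
  linarith

/-- union bound over a finite set -/
theorem frac_exists_mem_le {I : Type} (s : Finset I) (p : I → C → Prop) :
    frac (fun c => ∃ i ∈ s, p i c) ≤ ∑ i ∈ s, frac (p i) := by
  classical
  simp only [frac_eq_mean]
  rw [← mean_sum]
  refine mean_mono fun c => ?_
  have h0 : ∀ i ∈ s, (0 : ℝ) ≤ if p i c then 1 else 0 := fun i _ => by split_ifs <;> norm_num
  split_ifs with h
  · obtain ⟨i, hi, hp⟩ := h
    have := Finset.single_le_sum h0 hi
    rwa [if_pos hp] at this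
  · exact Finset.sum_nonneg h0

/-- union bound over a finite type -/
theorem frac_exists_le {I : Type} [Fintype I] (p : I → C → Prop) :
    frac (fun c => ∃ i, p i c) ≤ ∑ i, frac (p i) :=
  (frac_mono fun _ ⟨i, hi⟩ => ⟨i, Finset.mem_univ i, hi⟩).trans (frac_exists_mem_le _ p)

/-- union bound with a common bound -/
theorem frac_exists_le_card {I : Type} [Fintype I] {p : I → C → Prop} {a : ℝ}
    (h : ∀ i, frac (p i) ≤ a) : frac (fun c => ∃ i, p i c) ≤ Fintype.card I * a := by
  refine (frac_exists_le p).trans ((Finset.sum_le_sum fun i _ => h i).trans (le_of_eq ?_))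
  rw [Finset.sum_const, Finset.card_univ, nsmul_eq_mul]

theorem frac_exists_fin_le {k : ℕ} {p : Fin k → C → Prop} {a : ℝ}
    (h : ∀ i, frac (p i) ≤ a) : frac (fun c => ∃ i, p i c) ≤ k * a := by
  simpa using frac_exists_le_card h

theorem frac_mul_le_mean {p : C → Prop} {f : C → ℝ} {t : ℝ} (h0 : ∀ c, 0 ≤ f c)
    (h : ∀ c, p c → t ≤ f c) : t * frac p ≤ mean f := by
  classical
  rw [frac_eq_mean, ← mean_const_mul]
  refine mean_mono fun c => ?_
  split_ifs with hp
  · simpa using h c hp
  · simpa using h0 c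

/-- Markov inequality -/
theorem frac_le_markov {p : C → Prop} {f : C → ℝ} {t a : ℝ} (h0 : ∀ c, 0 ≤ f c) (ht : 0 < t)
    (h : ∀ c, p c → t ≤ f c) (ha : mean f ≤ a) : frac p ≤ a / t := by
  rw [le_div_iff₀ ht, mul_comm]
  exact (frac_mul_le_mean h0 h).trans ha

theorem markov {f : C → ℝ} {t a : ℝ} (h0 : ∀ c, 0 ≤ f c) (ht : 0 < t) (ha : mean f ≤ a) :
    frac (fun c => t ≤ f c) ≤ a / t := frac_le_markov h0 ht (fun _ h => h) ha

theorem markov_lt {f : C → ℝ} {t a : ℝ} (h0 : ∀ c, 0 ≤ f c) (ht : 0 < t) (ha : mean f ≤ a) :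
    frac (fun c => t < f c) ≤ a / t := frac_le_markov h0 ht (fun _ h => h.le) ha

/-- A function which is at most `a` outside an event and at most `b` everywhere. -/
theorem mean_le_add_frac {p : C → Prop} {f : C → ℝ} {a b : ℝ} (ha : 0 ≤ a)
    (h : ∀ c, ¬ p c → f c ≤ a) (hb : ∀ c, p c → f c ≤ a + b) : mean f ≤ a + b * frac p := by
  classical
  have h1 : mean f ≤ mean fun c => a + b * if p c then 1 else 0 := by
    refine mean_mono fun c => ?_
    split_ifs with hp
    · simpa using hb c hp
    · simpa using h c hp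
  rw [mean_add, mean_const_mul, ← frac_eq_mean] at h1
  have := mean_const_le (C := C) ha
  linarith

/-- Two functions with values in `[0, 1]` which are close outside an event. -/
theorem abs_mean_sub_le_frac {p : C → Prop} {f g : C → ℝ} {a : ℝ} (ha : 0 ≤ a)
    (hf : Unit01 f) (hg : Unit01 g) (h : ∀ c, ¬ p c → |f c - g c| ≤ a) :
    |mean f - mean g| ≤ a + frac p := by
  rw [← mean_sub]
  refine (abs_mean_le _).trans ?_
  have := mean_le_add_frac (p := p) (f := fun c => |f c - g c|) (b := 1) ha h fun c _ => by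
    have h1 := hf c
    have h2 := hg c
    rw [abs_le]
    constructor <;> linarith [h1.1, h1.2, h2.1, h2.2]
  linarith

theorem inv_card_le_frac {p : C → Prop} {c : C} (h : p c) : 1 / (Fintype.card C : ℝ) ≤ frac p := by
  classical
  rw [frac_eq]
  refine div_le_div_of_nonneg_right ?_ (by positivity)
  exact_mod_cast Finset.card_pos.2 ⟨c, by simpa using h⟩

theorem not_of_frac_lt {p : C → Prop} (h : frac p < 1 / (Fintype.card C : ℝ)) (c : C) : ¬ p c :=
  fun hc => absurd (inv_card_le_frac hc) (not_le.2 h)

theorem exists_of_frac_pos {p : C → Prop} (h : 0 < frac p) : ∃ c, p c := by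
  by_contra hn
  rw [frac_eq_zero fun c hc => hn ⟨c, hc⟩] at h
  exact lt_irrefl _ h

theorem frac_pos {p : C → Prop} {c : C} (h : p c) : 0 < frac p := by
  have : Nonempty C := ⟨c⟩
  have := card_pos_real (C := C)
  exact lt_of_lt_of_le (by positivity) (inv_card_le_frac h)

theorem not_of_frac_le_zero {p : C → Prop} (h : frac p ≤ 0) (c : C) : ¬ p c :=
  fun hc => absurd (frac_pos hc) (not_lt.2 h)

theorem exists_not_of_frac_lt_one [Nonempty C] {p : C → Prop} (h : frac p < 1) : ∃ c, ¬ p c :=
  exists_of_frac_pos (by rw [frac_not]; linarith)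

theorem exists_not_and_not [Nonempty C] {p q : C → Prop} (h : frac p + frac q < 1) :
    ∃ c, ¬ p c ∧ ¬ q c := by
  obtain ⟨c, hc⟩ := exists_not_of_frac_lt_one ((frac_or_le p q).trans_lt h)
  exact ⟨c, not_or.1 hc⟩

theorem frac_eq_single (a : C) : frac (fun c => c = a) = 1 / (Fintype.card C : ℝ) := by
  classical
  rw [frac_eq, Finset.filter_eq' Finset.univ a]
  simp

variable {X Y : Type} [Fintype X] [Fintype Y]

theorem frac_equiv (e : X ≃ Y) (p : Y → Prop) : frac (fun x => p (e x)) = frac p := by
  classical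
  rw [frac_eq_mean, frac_eq_mean]
  exact mean_equiv e fun y => if p y then 1 else 0

theorem frac_bij {φ : X → Y} (h : Function.Bijective φ) (p : Y → Prop) :
    frac (fun x => p (φ x)) = frac p := frac_equiv (Equiv.ofBijective φ h) p

theorem frac_prod (p : X × Y → Prop) : frac p = mean fun x => frac fun y => p (x, y) := by
  classical
  rw [frac_eq_mean, mean_prod]
  simp only [frac_eq_mean]

theorem frac_prod' (p : X × Y → Prop) : frac p = mean fun y => frac fun x => p (x, y) := by
  classical
  rw [frac_eq_mean, mean_prod']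
  simp only [frac_eq_mean]

theorem mean_frac_comm (p : X → Y → Prop) :
    mean (fun x => frac fun y => p x y) = mean fun y => frac fun x => p x y :=
  (frac_prod fun q : X × Y => p q.1 q.2).symm.trans (frac_prod' _)

theorem frac_fst [Nonempty Y] (p : X → Prop) : frac (fun q : X × Y => p q.1) = frac p := by
  classical
  rw [frac_eq_mean, frac_eq_mean]
  exact mean_fst fun x => if p x then 1 else 0

theorem frac_snd [Nonempty X] (p : Y → Prop) : frac (fun q : X × Y => p q.2) = frac p := by
  classical
  rw [frac_eq_mean, frac_eq_mean]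
  exact mean_snd fun x => if p x then 1 else 0

theorem frac_swap (p : X × Y → Prop) : frac (fun q : Y × X => p (q.2, q.1)) = frac p :=
  frac_equiv (Equiv.prodComm Y X) p

theorem frac_and_prod (p : X → Prop) (q : Y → Prop) :
    frac (fun z : X × Y => p z.1 ∧ q z.2) = frac p * frac q := by
  classical
  rw [frac_eq_mean, frac_eq_mean, frac_eq_mean, ← mean_mul_mean]
  refine mean_congr fun z => ?_
  by_cases hp : p z.1 <;> by_cases hq : q z.2 <;> simp [hp, hq]

theorem frac_prod_le {p : X × Y → Prop} {a : ℝ} (ha : 0 ≤ a)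
    (h : ∀ x, frac (fun y => p (x, y)) ≤ a) : frac p ≤ a := by
  rw [frac_prod]
  exact mean_le_of_le ha h

theorem frac_prod_le' {p : X × Y → Prop} {a : ℝ} (ha : 0 ≤ a)
    (h : ∀ y, frac (fun x => p (x, y)) ≤ a) : frac p ≤ a := by
  rw [frac_prod']
  exact mean_le_of_le ha h

/-- Markov inequality for the rows -/
theorem frac_rows_le (p : X × Y → Prop) {t : ℝ} (ht : 0 < t) :
    frac (fun x => t ≤ frac fun y => p (x, y)) ≤ frac p / t :=
  markov (fun _ => frac_nonneg _) ht (frac_prod p).ge

/-- Markov inequality for the columns -/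
theorem frac_cols_le (p : X × Y → Prop) {t : ℝ} (ht : 0 < t) :
    frac (fun y => t ≤ frac fun x => p (x, y)) ≤ frac p / t :=
  markov (fun _ => frac_nonneg _) ht (frac_prod' p).ge

/-- Good rows contribute at most `a`. -/
theorem frac_prod_le_add {p : X × Y → Prop} {B : X → Prop} {a : ℝ} (ha : 0 ≤ a)
    (h : ∀ x, ¬ B x → frac (fun y => p (x, y)) ≤ a) : frac p ≤ a + frac B := by
  rw [frac_prod]
  have := mean_le_add_frac (p := B) (f := fun x => frac fun y => p (x, y)) (b := 1) ha h
    fun x _ => (frac_le_one _).trans (by linarith)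
  linarith

end Frac

/-! ### Balanced maps -/

section Bal

variable {X Y Z W : Type} [Fintype X] [Fintype Y] [Fintype Z] [Fintype W]

theorem Bal.mono {K K' : ℝ} {f : X → Y} (h : Bal K f) (hK : K ≤ K') : Bal K' f :=
  fun B => (h B).trans (mul_le_mul_of_nonneg_right hK (frac_nonneg B))

theorem Bal.congr {K : ℝ} {f g : X → Y} (h : Bal K f) (e : ∀ x, f x = g x) : Bal K g := by
  rwa [← funext e]

theorem Bal.id : Bal 1 fun x : X => x := fun B => by simp

theorem Bal.of_bijective {f : X → Y} (h : Function.Bijective f) : Bal 1 f :=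
  fun B => by rw [frac_bij h, one_mul]

theorem Bal.equiv (e : X ≃ Y) : Bal 1 e := Bal.of_bijective e.bijective

theorem Bal.fst : Bal 1 (Prod.fst : X × Y → X) := fun B => by
  rcases isEmpty_or_nonempty Y with h | h
  · rw [frac_eq_zero fun c => isEmptyElim c.2, one_mul]
    exact frac_nonneg _
  · rw [frac_fst, one_mul]

theorem Bal.snd : Bal 1 (Prod.snd : X × Y → Y) := fun B => by
  rcases isEmpty_or_nonempty X with h | h
  · rw [frac_eq_zero fun c => isEmptyElim c.1, one_mul]
    exact frac_nonneg _
  · rw [frac_snd, one_mul]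

theorem Bal.comp {K K' : ℝ} {g : Y → Z} {f : X → Y} (hg : Bal K' g) (hf : Bal K f) (hK : 0 ≤ K) :
    Bal (K * K') fun x => g (f x) := fun B =>
  (hf fun y => B (g y)).trans (by rw [mul_assoc]; exact mul_le_mul_of_nonneg_left (hg B) hK)

theorem Bal.comp_one {K : ℝ} {g : Y → Z} {f : X → Y} (hg : Bal K g) (hf : Bal 1 f) :
    Bal K fun x => g (f x) := by
  simpa using hg.comp hf zero_le_one

theorem Bal.one_comp {K : ℝ} {g : Y → Z} {f : X → Y} (hg : Bal 1 g) (hf : Bal K f) (hK : 0 ≤ K) :
    Bal K fun x => g (f x) := by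
  simpa using hg.comp hf hK

theorem Bal.one_le [Nonempty X] {K : ℝ} {f : X → Y} (h : Bal K f) : 1 ≤ K := by
  have : Nonempty Y := ⟨f (Classical.arbitrary X)⟩
  simpa using h fun _ => True

/-- It suffices to bound the probabilities of the points. -/
theorem Bal.of_point {K : ℝ} {f : X → Y}
    (h : ∀ y, frac (fun x => f x = y) ≤ K / Fintype.card Y) : Bal K f := by
  classical
  intro B
  have h1 : frac (fun x => B (f x)) ≤ frac fun x => ∃ y ∈ Finset.univ.filter B, f x = y :=
    frac_mono fun x hx => ⟨f x, by simpa using hx, rfl⟩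
  refine h1.trans ((frac_exists_mem_le _ _).trans
    ((Finset.sum_le_sum fun y _ => h y).trans (le_of_eq ?_)))
  rw [Finset.sum_const, nsmul_eq_mul, frac_eq]
  ring

theorem Bal.point {K : ℝ} {f : X → Y} (h : Bal K f) (y : Y) :
    frac (fun x => f x = y) ≤ K / Fintype.card Y := by
  have := h fun z => z = y
  rwa [frac_eq_single, mul_one_div] at this

/-- An injective map into a set which is at most `K` times larger. -/
theorem Bal.of_injective {K : ℝ} {f : X → Y} (hf : Function.Injective f)
    (h : (Fintype.card Y : ℝ) ≤ K * Fintype.card X) : Bal K f := by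
  refine Bal.of_point fun y => ?_
  have hY : (0 : ℝ) < Fintype.card Y := by
    have : Nonempty Y := ⟨y⟩
    exact card_pos_real
  by_cases hy : ∃ x, f x = y
  · obtain ⟨x, rfl⟩ := hy
    have hX : (0 : ℝ) < Fintype.card X := by
      have : Nonempty X := ⟨x⟩
      exact card_pos_real
    rw [frac_congr fun z => hf.eq_iff, frac_eq_single, div_le_div_iff₀ hX hY, one_mul]
    exact h
  · rw [frac_eq_zero fun x hx => hy ⟨x, hx⟩]
    have hK : 0 ≤ K := by
      by_contra hn
      have : K * Fintype.card X ≤ 0 :=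
        mul_nonpos_of_nonpos_of_nonneg (not_le.1 hn).le (by positivity)
      linarith
    positivity

/-- A map whose fibres have at most `m` elements. -/
theorem Bal.of_fibre [DecidableEq Y] {K : ℝ} {f : X → Y} {m : ℝ} [Nonempty X]
    (hf : ∀ y, ((Finset.univ.filter fun x => f x = y).card : ℝ) ≤ m)
    (h : m * Fintype.card Y ≤ K * Fintype.card X) : Bal K f := by
  refine Bal.of_point fun y => ?_
  have hY : (0 : ℝ) < Fintype.card Y := by
    have : Nonempty Y := ⟨y⟩
    exact card_pos_real
  rw [frac_eq, div_le_div_iff₀ card_pos_real hY]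
  exact (mul_le_mul_of_nonneg_right (hf y) hY.le).trans h

theorem mean_comp_eq_sum (f : X → Y) (g : Y → ℝ) :
    mean (fun x => g (f x)) = ∑ y, g y * frac fun x => f x = y := by
  classical
  simp only [frac_eq_mean, ← mean_const_mul]
  rw [← mean_sum]
  refine mean_congr fun x => ?_
  simp

/-- Means of nonnegative functions grow at most by the factor `K`. -/
theorem Bal.mean_le {K : ℝ} {f : X → Y} (h : Bal K f) {g : Y → ℝ} (hg : ∀ y, 0 ≤ g y) :
    mean (fun x => g (f x)) ≤ K * mean g := by
  rw [mean_comp_eq_sum]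
  refine (Finset.sum_le_sum fun y _ => mul_le_mul_of_nonneg_left (h.point y) (hg y)).trans
    (le_of_eq ?_)
  rw [← Finset.sum_mul, mean]
  ring

/-- A map which is balanced for every value of the first coordinate. -/
theorem Bal.of_rows {K : ℝ} {f : X × Y → Z} (hK : 0 ≤ K) (h : ∀ x, Bal K fun y => f (x, y)) :
    Bal K f :=
  fun B => frac_prod_le (mul_nonneg hK (frac_nonneg B)) fun x => h x B

/-- A map which is balanced for every value of the second coordinate. -/
theorem Bal.of_cols {K : ℝ} {f : X × Y → Z} (hK : 0 ≤ K) (h : ∀ y, Bal K fun x => f (x, y)) :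
    Bal K f :=
  fun B => frac_prod_le' (mul_nonneg hK (frac_nonneg B)) fun y => h y B

/-- The second map may depend on the first coordinate. -/
theorem Bal.prod_dep {K K' : ℝ} {f : X → Z} {g : Z → Y → W} (hf : Bal K f)
    (hg : ∀ z, Bal K' (g z)) (hK : 0 ≤ K) (hK' : 0 ≤ K') :
    Bal (K * K') fun p : X × Y => (f p.1, g (f p.1) p.2) := by
  intro B
  rw [frac_prod, frac_prod B]
  have h1 : mean (fun x => frac fun y => B (f x, g (f x) y)) ≤
      mean fun x => K' * frac fun w => B (f x, w) :=
    mean_mono fun x => hg (f x) fun w => B (f x, w)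
  have h2 := hf.mean_le (g := fun z => frac fun w => B (z, w)) fun _ => frac_nonneg _
  rw [mean_const_mul] at h1
  calc _ ≤ _ := h1
    _ ≤ K' * (K * mean fun z => frac fun w => B (z, w)) := mul_le_mul_of_nonneg_left h2 hK'
    _ = _ := by have := hK; ring

theorem Bal.prodMap {K K' : ℝ} {f : X → Z} {g : Y → W} (hf : Bal K f) (hg : Bal K' g)
    (hK : 0 ≤ K) (hK' : 0 ≤ K') : Bal (K * K') fun p : X × Y => (f p.1, g p.2) :=
  Bal.prod_dep (g := fun _ => g) hf (fun _ => hg) hK hK'

theorem Bal.prodMap_left {K : ℝ} {f : X → Z} (hf : Bal K f) (hK : 0 ≤ K) :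
    Bal K fun p : X × Y => (f p.1, p.2) := by
  simpa using hf.prodMap (Bal.id (X := Y)) hK zero_le_one

theorem Bal.prodMap_right {K : ℝ} {g : Y → W} (hg : Bal K g) (hK : 0 ≤ K) :
    Bal K fun p : X × Y => (p.1, g p.2) := by
  simpa using (Bal.id (X := X)).prodMap hg zero_le_one hK

/-- The first coordinate is kept, the second is mapped by a map depending on the first. -/
theorem Bal.fibrewise {K : ℝ} {g : X → Y → W} (hg : ∀ x, Bal K (g x)) (hK : 0 ≤ K) :
    Bal K fun p : X × Y => (p.1, g p.1 p.2) := by
  simpa using Bal.prod_dep (Bal.id (X := X)) hg zero_le_one hK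

/-- Any map is balanced with the size of the target as the factor. -/
theorem Bal.card (f : X → Y) : Bal (Fintype.card Y) f := by
  refine Bal.of_point fun y => ?_
  have : Nonempty Y := ⟨y⟩
  rw [div_self (card_pos_real (C := Y)).ne']
  exact frac_le_one _

/-- A choice among finitely many balanced maps. -/
theorem Bal.choice {I : Type} [Fintype I] {K : ℝ} {f : I → X → Y} (h : ∀ i, Bal K (f i))
    (t : X → I) : Bal (Fintype.card I * K) fun x => f (t x) x := by
  intro B
  rw [mul_assoc]
  exact (frac_mono (q := fun x => ∃ i, B (f i x)) fun x hx => ⟨t x, hx⟩).trans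
    (frac_exists_le_card fun i => h i B)

/-- A map with exactly uniform distribution preserves fractions. -/
theorem Bal.frac_eq [Nonempty X] {f : X → Y} (h : Bal 1 f) (B : Y → Prop) :
    frac (fun x => B (f x)) = frac B := by
  have : Nonempty Y := ⟨f (Classical.arbitrary X)⟩
  have h1 := h B
  have h2 := h fun y => ¬ B y
  rw [frac_not, frac_not] at h2
  linarith

theorem Bal.mean_eq [Nonempty X] {f : X → Y} (h : Bal 1 f) (g : Y → ℝ) :
    mean (fun x => g (f x)) = mean g := by
  rw [mean_comp_eq_sum]
  have : ∀ y, frac (fun x => f x = y) = 1 / (Fintype.card Y : ℝ) := fun y => by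
    rw [h.frac_eq fun z => z = y, frac_eq_single]
  simp only [this]
  rw [← Finset.sum_mul, mean]
  ring

/-- translations in a finite group -/
theorem Bal.add_left {G : Type} [Fintype G] [AddGroup G] (a : G) : Bal 1 fun x => a + x :=
  Bal.equiv (Equiv.addLeft a)

theorem Bal.add_right {G : Type} [Fintype G] [AddGroup G] (a : G) : Bal 1 fun x => x + a :=
  Bal.equiv (Equiv.addRight a)

/-- A surjective homomorphism of finite groups is balanced. -/
theorem Bal.of_surj_hom {G H : Type} [Fintype G] [Fintype H] [AddGroup G] [AddGroup H]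
    (f : G →+ H) (hf : Function.Surjective f) : Bal 1 f := by
  have key : ∀ y, frac (fun x => f x = y) = frac fun x => f x = 0 := fun y => by
    obtain ⟨a, rfl⟩ := hf y
    rw [← frac_equiv (Equiv.addLeft a)]
    exact frac_congr fun x => by simp
  have h1 := mean_comp_eq_sum f fun _ => 1
  simp only [key, mean_const, one_mul, Finset.sum_const, Finset.card_univ, nsmul_eq_mul] at h1
  refine Bal.of_point fun y => ?_
  rw [key, le_div_iff₀ card_pos_real, h1, mul_comm]

/-- evaluation of a uniform function at a point -/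
theorem Bal.eval {I : Type} [Fintype I] [DecidableEq I] (i : I) :
    Bal 1 fun f : I → X => f i :=
  (Bal.comp_one (g := Prod.fst) Bal.fst (Bal.equiv (Equiv.funSplitAt i X))).congr fun _ => rfl

/-- evaluation of a uniform function at two different points -/
theorem Bal.eval₂ {I : Type} [Fintype I] [DecidableEq I] {i j : I} (h : j ≠ i) :
    Bal 1 fun f : I → X => (f i, f j) := by
  have h1 : Bal 1 fun p : X × ({k // k ≠ i} → X) => (p.1, p.2 ⟨j, h⟩) :=
    Bal.prodMap_right (g := fun f : {k // k ≠ i} → X => f ⟨j, h⟩) (Bal.eval _) zero_le_one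
  exact (Bal.comp_one h1 (Bal.equiv (Equiv.funSplitAt i X))).congr fun _ => rfl

end Bal

/-! ### Bits and distances -/

@[simp] theorem bv_true : bv true = 1 := rfl
@[simp] theorem bv_false : bv false = 0 := rfl

theorem bv_nonneg (b : Bool) : 0 ≤ bv b := by cases b <;> simp
theorem bv_le_one (b : Bool) : bv b ≤ 1 := by cases b <;> simp

theorem bv_injective : Function.Injective bv := by
  intro a b h
  cases a <;> cases b <;> simp_all

@[simp] theorem bv_inj {a b : Bool} : bv a = bv b ↔ a = b := bv_injective.eq_iff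

theorem bv_not (b : Bool) : bv (!b) = 1 - bv b := by cases b <;> simp

theorem bv_decide (p : Prop) [Decidable p] : bv (decide p) = if p then 1 else 0 := by
  by_cases h : p <;> simp [h]

theorem abs_bv_sub {a b : Bool} (h : a ≠ b) : |bv a - bv b| = 1 := by
  cases a <;> cases b <;> simp_all

theorem unit01_bv {V : Type} (u : V → Bool) : Unit01 fun v => bv (u v) :=
  fun _ => ⟨bv_nonneg _, bv_le_one _⟩

theorem Unit01.comp {V W : Type} {x : V → ℝ} (h : Unit01 x) (φ : W → V) :
    Unit01 fun w => x (φ w) := fun _ => h _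

theorem Unit01.mean_nonneg {V : Type} [Fintype V] {x : V → ℝ} (h : Unit01 x) : 0 ≤ mean x :=
  Vale.Agent.P330.mean_nonneg fun v => (h v).1

theorem Unit01.mean_le_one {V : Type} [Fintype V] {x : V → ℝ} (h : Unit01 x) : mean x ≤ 1 :=
  Vale.Agent.P330.mean_le_one fun v => (h v).2

section Dist

variable {C : Type} [Fintype C]

theorem pd_nonneg (w : C → ℝ) (u : C → Bool) : 0 ≤ pd w u := frac_nonneg _
theorem tvd_nonneg (w : C → ℝ) (u : C → Bool) : 0 ≤ tvd w u := frac_nonneg _
theorem pd_le_one (w : C → ℝ) (u : C → Bool) : pd w u ≤ 1 := frac_le_one _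
theorem tvd_le_one (w : C → ℝ) (u : C → Bool) : tvd w u ≤ 1 := frac_le_one _

theorem tvd_le_pd (w : C → ℝ) (u : C → Bool) : tvd w u ≤ pd w u :=
  frac_mono fun c hc h => by rw [h] at hc; norm_num at hc

theorem pd_bv (u u' : C → Bool) : pd (fun c => bv (u c)) u' = frac fun c => u c ≠ u' c :=
  frac_congr fun _ => bv_injective.ne_iff

theorem pd_triangle (w : C → ℝ) (u u' : C → Bool) :
    pd w u' ≤ pd w u + frac fun c => u c ≠ u' c :=
  frac_le_add fun c hc => by
    by_cases h : u c = u' c
    · exact Or.inl (h ▸ hc)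
    · exact Or.inr h

theorem tvd_triangle (w : C → ℝ) (u u' : C → Bool) :
    tvd w u' ≤ tvd w u + frac fun c => u c ≠ u' c :=
  frac_le_add fun c hc => by
    by_cases h : u c = u' c
    · exact Or.inl (h ▸ hc)
    · exact Or.inr h

theorem ham_le_tvd (w : C → ℝ) (u u' : C → Bool) :
    frac (fun c => u c ≠ u' c) ≤ tvd w u + tvd w u' :=
  frac_le_add fun c hc => by
    by_contra hn
    rw [not_or, not_lt, not_lt] at hn
    have h1 := abs_bv_sub hc
    have h2 := abs_sub_le (bv (u c)) (w c) (bv (u' c))
    rw [abs_sub_comm (bv (u c)) (w c)] at h2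
    linarith [hn.1, hn.2]

theorem ham_le_pd (w : C → ℝ) (u u' : C → Bool) :
    frac (fun c => u c ≠ u' c) ≤ pd w u + pd w u' :=
  (ham_le_tvd w u u').trans (add_le_add (tvd_le_pd w u) (tvd_le_pd w u'))

theorem ham_triangle {A : Type} (u v w : C → A) :
    frac (fun c => u c ≠ w c) ≤ frac (fun c => u c ≠ v c) + frac fun c => v c ≠ w c :=
  frac_le_add fun c hc => by
    by_cases h : u c = v c
    · exact Or.inr (h ▸ hc)
    · exact Or.inl h

theorem ham_comm {A : Type} (u v : C → A) :
    frac (fun c => u c ≠ v c) = frac fun c => v c ≠ u c := frac_congr fun _ => ne_comm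

theorem ham_self {A : Type} (u : C → A) : frac (fun c => u c ≠ u c) = 0 :=
  frac_eq_zero fun _ h => h rfl

theorem pd_triangle' (w w' : C → ℝ) (u : C → Bool) :
    pd w u ≤ frac (fun c => w c ≠ w' c) + pd w' u := by
  unfold pd
  exact ham_triangle w w' fun c => bv (u c)

theorem abs_mean_sub_le_pd {w : C → ℝ} (hw : Unit01 w) (u : C → Bool) :
    |mean w - frac fun c => u c = true| ≤ pd w u := by
  rw [frac_eq_mean_bv]
  have := abs_mean_sub_le_frac (p := fun c => w c ≠ bv (u c)) le_rfl hw (unit01_bv u)
    fun c hc => by rw [not_not.1 hc]; simp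
  rwa [zero_add] at this

end Dist

/-! ### Enumerated types -/

theorem mem_elems {V : Type} [En V] (v : V) : v ∈ elems V := En.complete v

theorem nodup_elems (V : Type) [En V] : (elems V).Nodup := En.nodup

theorem toFinset_elems (V : Type) [En V] [Fintype V] [DecidableEq V] :
    (elems V).toFinset = Finset.univ :=
  Finset.eq_univ_of_forall fun v => List.mem_toFinset.2 (mem_elems v)

theorem length_elems (V : Type) [En V] [Fintype V] : (elems V).length = Fintype.card V := by
  classical
  rw [← List.toFinset_card_of_nodup (nodup_elems V), toFinset_elems, Finset.card_univ]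

theorem idxOf_lt {V : Type} [En V] [DecidableEq V] (v : V) :
    (elems V).idxOf v < (elems V).length := List.idxOf_lt_length_iff.2 (mem_elems v)

theorem getD_idxOf {V : Type} [En V] [DecidableEq V] (v d : V) :
    (elems V).getD ((elems V).idxOf v) d = v := by
  rw [List.getD_eq_getElem _ _ (idxOf_lt v)]
  exact List.getElem_idxOf _

theorem getD_map_idxOf {V T : Type} [En V] [DecidableEq V] (f : V → T) (v : V) (d : T) :
    ((elems V).map f).getD ((elems V).idxOf v) d = f v := by
  rw [List.getD_eq_getElem _ _ (by simpa using idxOf_lt v), List.getElem_map, List.getElem_idxOf]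

theorem idxOf_getD {V : Type} [En V] [DecidableEq V] {i : ℕ} (h : i < (elems V).length) (d : V) :
    (elems V).idxOf ((elems V).getD i d) = i := by
  rw [List.getD_eq_getElem _ _ h]
  exact (nodup_elems V).idxOf_getElem _ _

theorem idxOf_injective {V : Type} [En V] [DecidableEq V] :
    Function.Injective fun v : V => (elems V).idxOf v := fun v w h => by
  have h1 := getD_idxOf v v
  have h2 := getD_idxOf w v
  simp only [] at h
  rw [← h1, h, h2]

theorem sum_elems {V M : Type} [En V] [Fintype V] [AddCommMonoid M] (f : V → M) :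
    ((elems V).map f).sum = ∑ v, f v := by
  classical
  rw [← List.sum_toFinset f (nodup_elems V), toFinset_elems]

theorem prod_elems {V M : Type} [En V] [Fintype V] [CommMonoid M] (f : V → M) :
    ((elems V).map f).prod = ∏ v, f v := by
  classical
  rw [← List.prod_toFinset f (nodup_elems V), toFinset_elems]

theorem length_filter_elems {V : Type} [En V] [Fintype V] (p : V → Prop) [DecidablePred p] :
    ((elems V).filter fun v => decide (p v)).length = (Finset.univ.filter p).card := by
  classical
  rw [← List.toFinset_card_of_nodup ((nodup_elems V).filter _), List.toFinset_filter,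
    toFinset_elems]
  simp

/-! ### Gates -/

section Gate

variable {V W : Type}

theorem Gate.sat_map (φ : V → W) (g : Gate V) (η : ℝ) (x : W → ℝ) (o : ℝ) :
    (g.map φ).Sat η x o ↔ g.Sat η (fun v => x (φ v)) o := by
  unfold Gate.Sat Gate.map
  simp only [List.forall₂_map_left_iff]

theorem Gate.Sat.mono {g : Gate V} {η η' : ℝ} {x : V → ℝ} {o : ℝ} (hs : g.Sat η x o)
    (h : η ≤ η') : g.Sat η' x o :=
  fun b hb => hs b fun y hy => hb y (hy.imp fun _ _ ht => ht.trans h)

theorem Gate.map_mk' {D : Type} [En D] [DecidableEq D] (φ : V → W) (src : D → V)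
    (F : (D → ℝ) → Bool) : (Gate.mk' src F).map φ = Gate.mk' (fun d => φ (src d)) F := by
  simp [Gate.map, Gate.mk']

theorem Gate.map_map {U : Type} (φ : V → W) (ψ : W → U) (g : Gate V) :
    (g.map φ).map ψ = g.map fun v => ψ (φ v) := by
  simp [Gate.map]

theorem Gate.sat_mk' {D : Type} [En D] [DecidableEq D] (src : D → V) (F : (D → ℝ) → Bool) (η : ℝ)
    (x : V → ℝ) (o : ℝ) : (Gate.mk' src F).Sat η x o ↔
      ∀ b, (∀ y : D → ℝ, (∀ d, |y d - x (src d)| ≤ η) → F y = b) → o = bv b := by
  unfold Gate.Sat Gate.mk'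
  refine forall_congr' fun b => imp_congr_left ⟨fun h y hy => ?_, fun h l hl => h _ fun d => ?_⟩
  · have := h ((elems D).map y) (by
      simp only [List.forall₂_map_left_iff, List.forall₂_map_right_iff, List.forall₂_same]
      exact fun d _ => hy d)
    simpa only [getD_map_idxOf] using this
  · rw [List.forall₂_map_left_iff, List.forall₂_iff_get] at hl
    have h1 := idxOf_lt d
    have h2 := hl.2 _ h1 (hl.1 ▸ h1)
    simp only [List.get_eq_getElem, List.getElem_idxOf] at h2
    rwa [List.getD_eq_getElem _ _ (hl.1 ▸ h1)]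

/-- The output of a gate which is in order. -/
theorem Gate.Sat.out {D : Type} [En D] [DecidableEq D] {src : D → V} {F : (D → ℝ) → Bool} {η : ℝ}
    {x : V → ℝ} {o : ℝ} (h : (Gate.mk' src F).Sat η x o) {b : Bool}
    (hb : ∀ y : D → ℝ, (∀ d, |y d - x (src d)| ≤ η) → F y = b) : o = bv b :=
  (Gate.sat_mk' src F η x o).1 h b hb

theorem Mod.Ok.mono {C R J : Type} [Fintype C] {m : Mod C R J} {η η' : ℝ} {x : C × (R ⊕ J) → ℝ}
    (hs : m.Ok η x) (h : η ≤ η') : m.Ok η' x :=
  fun r => ((frac_mono fun _ hc h' => hc (h'.mono h)).trans (hs r)).trans h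

/-- If the gates of the register `r` are forced to `u` outside `B`, then the register is close
to `u`. -/
theorem Mod.Ok.pd_le {C R J : Type} [Fintype C] {m : Mod C R J} {η : ℝ} {x : C × (R ⊕ J) → ℝ}
    (hs : m.Ok η x) (r : R) (u : C → Bool) (B : C → Prop)
    (h : ∀ c, ¬ B c → (m c r).Sat η x (x (c, Sum.inl r)) → x (c, Sum.inl r) = bv (u c)) :
    pd (reg x r) u ≤ η + frac B := by
  have h1 : pd (reg x r) u ≤ frac (fun c => ¬ (m c r).Sat η x (x (c, Sum.inl r))) + frac B :=
    frac_le_add fun c hc => by
      by_contra hn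
      rw [not_or, not_not] at hn
      exact hc (h c hn.2 hn.1)
  linarith [hs r]

end Gate

/-! ### Rules -/

section Rule

variable {c k : ℕ} {P S A B : Type}

theorem Rule.eval_congr (r : Rule c k P A B) {inp inp' : Fin c → P → A} {W W' : P → A}
    (h : ∀ j, W (r.rd j).2 = W' (r.rd j).2) (hi : ∀ j i, inp i (r.rd j).2 = inp' i (r.rd j).2) :
    r.eval inp W = r.eval inp' W' := by
  unfold Rule.eval
  congr 1
  funext j
  have h1 := h j
  have h2 := hi j
  rcases hr : (r.rd j).1 with _ | i
  · exact h1
  · exact h2 i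

theorem Rule.eval_noInp (r : Rule 0 k P A B) (W : P → A) :
    r.eval noInp W = r.fn fun j => W (r.rd j).2 := by
  unfold Rule.eval
  congr 1
  funext j
  rcases hr : (r.rd j).1 with _ | i
  · rfl
  · exact i.elim0

theorem Rule.safe_of_reads (r : Rule 0 k P A A) (W : P → A) {B : P → Prop}
    (h : ∀ j, ¬ B (r.rd j).2) : r.Safe W B (r.eval noInp W) :=
  fun _ hW => r.eval_congr (fun j => hW _ (h j)) fun _ _ => rfl

theorem Rule.Safe.mono {r : Rule 0 k P A A} {W : P → A} {B B' : P → Prop} {v : A}
    (h : r.Safe W B v) (hB : ∀ p, B' p → B p) : r.Safe W B' v :=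
  fun W' hW => h W' fun p hp => hW p fun h' => hp (hB p h')

theorem RuleBal.mono [Fintype P] [Fintype S] {K K' : ℝ} {r : P → S → Rule c k P A B}
    (h : RuleBal K r) (hK : K ≤ K') : RuleBal K' r := fun j => (h j).mono hK

/-- The probability that a balanced rule reads a position in `E`. -/
theorem RuleBal.reads_le [Fintype P] [Fintype S] {K : ℝ} {r : P → S → Rule c k P A B}
    (h : RuleBal K r) (E : P → Prop) :
    frac (fun x : P × S => ∃ j, E ((r x.1 x.2).rd j).2) ≤ k * (K * frac E) :=
  frac_exists_fin_le fun j => h j E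

/-- A balanced rule gives mostly the same values on close words. -/
theorem RuleBal.eval_ne_le [Fintype P] [Fintype S] {K : ℝ} {r : P → S → Rule c k P A B}
    (h : RuleBal K r) {inp inp' : Fin c → P → A} {W W' : P → A} (E : P → Prop)
    (hW : ∀ p, ¬ E p → W p = W' p) (hi : ∀ p, ¬ E p → ∀ i, inp i p = inp' i p) :
    frac (fun x : P × S => (r x.1 x.2).eval inp W ≠ (r x.1 x.2).eval inp' W') ≤
      k * (K * frac E) := by
  refine (frac_mono fun x hx => ?_).trans (h.reads_le E)
  by_contra hn
  rw [not_exists] at hn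
  exact hx (Rule.eval_congr _ (fun j => hW _ (hn j)) fun j => hi _ (hn j))

end Rule

end Vale.Agent.P330
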