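import Vale.Agent.P330.Basic

/-!
P330: polynomial time lemmas on enumerated types, vectors, sums, options, finite selections,
gates and rules; constructors of families of finite types.
-/

set_option linter.unusedSectionVars false

namespace Vale.Agent.P330

open Vale.Agent.Lib.PolyTime hiding C P
open Vale.Agent.Lib.Dep

/-! ### All lists of a given length, enumeration of vectors and of subtypes -/

/-- all lists of length `n` with entries in `l` -/
def allL {T : Type} (l : List T) : ℕ → List (List T)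
  | 0 => [[]]
  | n + 1 => l.flatMap fun x => (allL l n).map (List.cons x)

theorem mem_allL {T : Type} {l : List T} {n : ℕ} {t : List T} :
    t ∈ allL l n ↔ t.length = n ∧ ∀ x ∈ t, x ∈ l := by
  induction n generalizing t with
  | zero =>
    simp only [allL, List.mem_singleton, List.length_eq_zero_iff]
    exact ⟨fun h => ⟨h, by simp [h]⟩, fun h => h.1⟩
  | succ n ih =>
    simp only [allL, List.mem_flatMap, List.mem_map, ih]
    constructor
    · rintro ⟨x, hx, s, ⟨h1, h2⟩, rfl⟩
      exact ⟨by simp [h1], by simpa using ⟨hx, h2⟩⟩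
    · rintro ⟨h1, h2⟩
      cases t with
      | nil => simp at h1
      | cons x s =>
        exact ⟨x, h2 x (by simp), s, ⟨by simpa using h1, fun y hy => h2 y (by simp [hy])⟩, rfl⟩

theorem nodup_allL {T : Type} {l : List T} (hl : l.Nodup) (n : ℕ) : (allL l n).Nodup := by
  induction n with
  | zero => simp [allL]
  | succ n ih =>
    have h : allL l (n + 1) = (l ×ˢ allL l n).map fun p => p.1 :: p.2 := by
      show _ = (l.flatMap fun x => (allL l n).map (Prod.mk x)).map _
      simp only [allL, List.map_flatMap, List.map_map]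
      rfl
    rw [h]
    refine (hl.product ih).map fun p q e => ?_
    exact Prod.ext (List.cons.inj e).1 (List.cons.inj e).2

theorem length_allL {T : Type} (l : List T) (n : ℕ) : (allL l n).length = l.length ^ n := by
  induction n with
  | zero => simp [allL]
  | succ n ih => simp [allL, List.length_flatMap, ih, pow_succ, mul_comm]

/-- the list of the values of a vector -/
def Vec.toL {V T : Type} [En V] (f : Vec V T) : List T := (elems V).map f

theorem Vec.toL_injective {V T : Type} [En V] : Function.Injective (Vec.toL : Vec V T → List T) :=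
  fun _ _ h => funext fun s => List.map_inj_left.1 h s (mem_elems s)

theorem Vec.length_toL {V T : Type} [En V] (f : Vec V T) : f.toL.length = (elems V).length :=
  List.length_map _

theorem Vec.enc_eq {V T : Type} [En V] [Enc T] (f : Vec V T) : enc f = enc f.toL := rfl

theorem Vec.exists_toL {V T : Type} [En V] {t : List T} (h : t.length = (elems V).length) :
    ∃ f : Vec V T, f.toL = t := by
  classical
  refine ⟨fun v => t[(elems V).idxOf v]'(h ▸ idxOf_lt v), ?_⟩
  refine List.ext_getElem ((Vec.length_toL _).trans h.symm) fun i h1 h2 => ?_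
  simp [Vec.toL, (nodup_elems V).idxOf_getElem]

theorem exists_vec_list (V T : Type) [En V] [En T] :
    ∃ L : List (Vec V T), L.map Vec.toL = allL (elems T) (elems V).length := by
  have key : ∀ M : List (List T), (∀ t ∈ M, t.length = (elems V).length) →
      ∃ L : List (Vec V T), L.map Vec.toL = M := by
    intro M
    induction M with
    | nil => exact fun _ => ⟨[], rfl⟩
    | cons t M ih =>
      intro h
      obtain ⟨L, hL⟩ := ih fun s hs => h s (List.mem_cons_of_mem _ hs)
      obtain ⟨f, hf⟩ := Vec.exists_toL (h t List.mem_cons_self)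
      exact ⟨f :: L, by rw [List.map_cons, hf, hL]⟩
  exact key _ fun t ht => (mem_allL.1 ht).1

noncomputable instance instEnVec {V T : Type} [En V] [En T] : En (Vec V T) where
  elems := (exists_vec_list V T).choose
  nodup := List.Nodup.of_map Vec.toL (by
    rw [(exists_vec_list V T).choose_spec]
    exact nodup_allL (nodup_elems T) _)
  complete f := by
    have h : f.toL ∈ (exists_vec_list V T).choose.map Vec.toL := by
      rw [(exists_vec_list V T).choose_spec]
      exact mem_allL.2 ⟨f.length_toL, fun x _ => mem_elems x⟩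
    obtain ⟨g, hg, e⟩ := List.mem_map.1 h
    rwa [← Vec.toL_injective e]

theorem map_toL_elems (V T : Type) [En V] [En T] :
    (elems (Vec V T)).map Vec.toL = allL (elems T) (elems V).length :=
  (exists_vec_list V T).choose_spec

theorem enc_map_of_enc {A B : Type} [Enc A] [Enc B] {f : A → B} (h : ∀ x, enc (f x) = enc x)
    (l : List A) : enc (l.map f) = enc l := by
  induction l with
  | nil => rfl
  | cons a l ih => rw [List.map_cons, enc_cons, enc_cons, ih, h]

theorem card_vec (V T : Type) [DecidableEq V] [Fintype V] [Fintype T] :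
    Fintype.card (Vec V T) = Fintype.card T ^ Fintype.card V := Fintype.card_fun

open Classical in
noncomputable instance instEnSubtype {V : Type} [En V] {p : V → Prop} : En (Subtype p) where
  elems := ((elems V).filter fun v => decide (p v)).attachWith p fun _ h => by
    simpa using (List.mem_filter.1 h).2
  nodup := List.Nodup.of_map Subtype.val (by
    rw [List.attachWith_map_subtype_val]
    exact (nodup_elems V).filter _)
  complete x := by
    rw [List.mem_attachWith]
    exact List.mem_filter.2 ⟨mem_elems _, by simpa using x.2⟩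

open Classical in
theorem map_val_elems {V : Type} [En V] (p : V → Prop) :
    (elems (Subtype p)).map Subtype.val = (elems V).filter fun v => decide (p v) :=
  List.attachWith_map_subtype_val _

/-- the entry of a vector, as a constant for `fun_prop` -/
def Vec.get {V T : Type} (f : Vec V T) (v : V) : T := f v

/-- a function as a vector, as a constant for `fun_prop` -/
def Vec.of {V T : Type} (f : V → T) : Vec V T := f

@[simp] theorem Vec.get_eq {V T : Type} (f : Vec V T) (v : V) : f.get v = f v := rfl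

@[simp] theorem Vec.of_apply {V T : Type} (f : V → T) (v : V) : Vec.of f v = f v := rfl

/-- the position of an element in the enumeration -/
noncomputable def eidx {V : Type} [En V] (v : V) : ℕ := by
  classical exact (elems V).idxOf v

/-- the element at a position of the enumeration -/
noncomputable def enth (V : Type) [En V] [Nonempty V] (i : ℕ) : V :=
  (elems V).getD i ((elems V).head (List.ne_nil_of_mem (mem_elems (Classical.arbitrary V))))

theorem eidx_lt {V : Type} [En V] [Fintype V] (v : V) : eidx v < Fintype.card V := by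
  classical
  rw [← length_elems]
  exact idxOf_lt v

@[simp] theorem enth_eidx {V : Type} [En V] [Nonempty V] (v : V) : enth V (eidx v) = v := by
  classical
  exact getD_idxOf v _

theorem eidx_enth {V : Type} [En V] [Nonempty V] [Fintype V] {i : ℕ} (h : i < Fintype.card V) :
    eidx (enth V i) = i := by
  classical
  exact idxOf_getD (by rwa [length_elems]) _

theorem eidx_injective {V : Type} [En V] : Function.Injective (eidx : V → ℕ) := by
  classical
  exact idxOf_injective

/-- the enumeration as a bijection -/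
noncomputable def enEquiv (V : Type) [En V] [Nonempty V] [Fintype V] :
    V ≃ Fin (Fintype.card V) where
  toFun v := ⟨eidx v, eidx_lt v⟩
  invFun i := enth V i
  left_inv v := enth_eidx v
  right_inv i := Fin.ext (eidx_enth i.2)

section PT

variable {α : Type} [Enc α] {V W T : α → Type} [∀ a, Enc (V a)] [∀ a, Enc (W a)] [∀ a, Enc (T a)]

/-! ### Lists -/

/-- restriction of a function of an element to the elements of a list -/
theorem dpt_mem {l : ∀ a, List (V a)} {f : ∀ a, V a → T a}
    (hf : DPT fun p : Σ a, V a => f p.1 p.2) :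
    DPT fun p : Σ a, {x // x ∈ l a} => f p.1 p.2.1 :=
  DPT.comp (f := fun p : Σ a, {x // x ∈ l a} => (⟨p.1, p.2.1⟩ : Σ a, V a)) hf
    (DPT.smk DPT.id.sfst DPT.ssnd.val)

theorem dpr_mem {l : ∀ a, List (V a)} {q : ∀ a, V a → Prop}
    (hq : DPr fun p : Σ a, V a => q p.1 p.2) :
    DPr fun p : Σ a, {x // x ∈ l a} => q p.1 p.2.1 :=
  DPr.comp (f := fun p : Σ a, {x // x ∈ l a} => (⟨p.1, p.2.1⟩ : Σ a, V a)) hq
    (DPT.smk DPT.id.sfst DPT.ssnd.val)

@[fun_prop]
theorem dpt_takeWhile {l : ∀ a, List (V a)} {f : ∀ a, V a → Bool} (hl : DPT l)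
    (hf : DPT fun p : Σ a, {x // x ∈ l a} => f p.1 p.2.1) : DPT fun a => (l a).takeWhile (f a) := by
  obtain ⟨F, hF, hF'⟩ := hf.liftBool
  refine DPT.of_listPT (PT.takeWhile hl.listPT hF) fun a => ?_
  have key : ∀ t : List (V a), (∀ x ∈ t, x ∈ l a) →
      (t.map raw).takeWhile (F a) = (t.takeWhile (f a)).map raw := by
    intro t
    induction t with
    | nil => intro _; rfl
    | cons x t ih =>
      intro h
      rw [List.map_cons, List.takeWhile_cons, List.takeWhile_cons, hF' a x (h x (by simp)),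
        ih fun y hy => h y (by simp [hy])]
      split_ifs <;> rfl
  exact key _ fun _ h => h

@[fun_prop]
theorem dpt_idxOf [∀ a, EncInj (V a)] [∀ a, BEq (V a)] [∀ a, LawfulBEq (V a)]
    {l : ∀ a, List (V a)} {x : ∀ a, V a} (hl : DPT l) (hx : DPT x) :
    DPT fun a => (l a).idxOf (x a) := by
  classical
  have h1 : DPT fun a => ((l a).takeWhile fun y => decide (y ≠ x a)).length :=
    (dpt_takeWhile hl (DPT.decide (DPr.ne DPT.ssnd.val (hx.comp DPT.id.sfst)))).length
  refine h1.congr fun a => ?_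
  induction l a with
  | nil => simp
  | cons y l ih =>
    rw [List.takeWhile_cons, List.idxOf_cons]
    by_cases e : y = x a
    · simp [e]
    · simp only [ne_eq, e, not_false_eq_true, decide_true, if_true, List.length_cons,
        beq_eq_false_iff_ne.2 e, cond_false]
      rw [← ih]

@[fun_prop]
theorem dpt_product {l : ∀ a, List (V a)} {m : ∀ a, List (W a)} (hl : DPT l) (hm : DPT m) :
    DPT fun a => l a ×ˢ m a := by
  have h : DPT fun a => (l a).flatMap fun v => (m a).map fun w => (v, w) := by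
    refine DPT.flatMap hl (DPT.map (hm.comp (DPT.sfst DPT.id)) ?_)
    exact DPT.pair (DPT.val (DPT.ssnd.comp (DPT.sfst DPT.id))) (DPT.val DPT.ssnd)
  exact h

/-- an entry of a list at a valid position -/
theorem dpt_getElem {l : ∀ a, List (V a)} {i : α → ℕ} (hl : DPT l) (hi : DPT i)
    (h : ∀ a, i a < (l a).length) : DPT fun a => (l a)[i a]'(h a) :=
  DPT.of_rawPT (PT.getD hl.listPT hi.toPT (PT.const (⟨[]⟩ : Raw))) fun a => by
    rw [List.getD_eq_getElem _ _ (by simpa using h a), List.getElem_map]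

theorem dpt_head {l : ∀ a, List (V a)} (hl : DPT l) (h : ∀ a, l a ≠ []) :
    DPT fun a => (l a).head (h a) :=
  (dpt_getElem hl (DPT.const 0) fun a => List.length_pos_iff.2 (h a)).congr fun _ =>
    (List.head_eq_getElem _).symm

@[fun_prop]
theorem dpt_countP {l : ∀ a, List (V a)} {f : ∀ a, V a → Bool} (hl : DPT l)
    (hf : DPT fun p : Σ a, {x // x ∈ l a} => f p.1 p.2.1) : DPT fun a => (l a).countP (f a) :=
  (DPT.filter hl hf).length.congr fun _ => List.countP_eq_length_filter.symm

theorem dpt_mapConst {κ : Type} (l : List κ) {f : κ → ∀ a, V a} (hf : ∀ x ∈ l, DPT (f x)) :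
    DPT fun a => l.map fun x => f x a := by
  induction l with
  | nil => exact DPT.nil
  | cons y l ih => exact DPT.cons (hf y (by simp)) (ih fun x hx => hf x (by simp [hx]))

theorem dpt_allL {l : ∀ a, List (V a)} {n : α → ℕ} (hl : DPT l) (hn : DPT n) (hb : PBd n)
    (hp : PBd fun a => (l a).length ^ n a) : DPT fun a => allL (l a) (n a) := by
  have hit : ∀ a k, (fun M : List (List (V a)) => (l a).flatMap fun x => M.map (List.cons x))^[k]
      [[]] = allL (l a) k := by
    intro a k
    induction k with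
    | zero => rfl
    | succ k ih => rw [Function.iterate_succ_apply', ih]; rfl
  refine (DPT.iterate (β := fun a => List (List (V a)))
    (f := fun a M => (l a).flatMap fun x => M.map (List.cons x)) (s := fun _ => [[]]) hn hb
    (by fun_prop) (by fun_prop)
    (b := fun a => ((l a).length ^ n a + 1) * (2 * (n a * (2 * esize (l a) + 1)) + 1))
    (by fun_prop) fun a j hj => ?_).congr fun a => hit a _
  rw [hit]
  refine (esize_list_le (B := n a * (2 * esize (l a) + 1)) fun t ht => ?_).trans
    (Nat.mul_le_mul_right _ ?_)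
  · obtain ⟨h1, h2⟩ := mem_allL.1 ht
    exact (esize_list_le fun x hx => esize_le_of_mem (h2 x hx)).trans
      (Nat.mul_le_mul_right _ (h1 ▸ hj))
  · rw [length_allL]
    rcases Nat.eq_zero_or_pos (l a).length with h | h
    · rw [h]
      exact ((Nat.pow_le_pow_left (Nat.zero_le 1) j).trans (one_pow j).le).trans
        (Nat.le_add_left _ _)
    · exact (Nat.pow_le_pow_right h hj).trans (Nat.le_succ _)

/-! ### Numbers below a bound, sums, options -/

@[fun_prop]
theorem dpt_finVal {n : α → ℕ} {f : ∀ a, Fin (n a)} (hf : DPT f) : DPT fun a => (f a : ℕ) :=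
  hf.of_enc fun _ => rfl

@[fun_prop]
theorem dpt_finMk {n f : α → ℕ} {h : ∀ a, f a < n a} (hf : DPT f) :
    DPT fun a => (⟨f a, h a⟩ : Fin (n a)) := hf.of_enc fun _ => rfl

theorem dpt_fin_of_val {n : α → ℕ} {f : ∀ a, Fin (n a)} (hf : DPT fun a => (f a : ℕ)) : DPT f :=
  hf.of_enc fun _ => rfl

@[fun_prop]
theorem pbd_finVal {n : α → ℕ} {f : ∀ a, Fin (n a)} (hn : PBd n) : PBd fun a => (f a : ℕ) :=
  hn.mono fun a => (f a).2.le

@[fun_prop]
theorem dpt_finRange {n : α → ℕ} (hn : DPT n) (hb : PBd n) : DPT fun a => List.finRange (n a) :=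
  (hn.range hb).of_enc fun a => by
    rw [← List.map_coe_finRange_eq_range]
    exact enc_map_of_enc (f := (Fin.val : Fin (n a) → ℕ)) (fun _ => rfl) _

@[fun_prop]
theorem dpt_inl {f : ∀ a, V a} (hf : DPT f) : DPT fun a => (Sum.inl (f a) : V a ⊕ W a) :=
  (DPT.ofPT (PT.inl (γ := Unit) hf.rawPT)).of_enc fun _ => rfl

@[fun_prop]
theorem dpt_inr {f : ∀ a, W a} (hf : DPT f) : DPT fun a => (Sum.inr (f a) : V a ⊕ W a) :=
  (DPT.ofPT (PT.inr (β := Unit) hf.rawPT)).of_enc fun _ => rfl

@[fun_prop]
theorem dpt_isRight {s : ∀ a, V a ⊕ W a} (hs : DPT s) : DPT fun a => (s a).isRight :=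
  (DPT.ofPT (PT.rawHd hs.rawPT)).congr fun a => by cases s a <;> rfl

@[fun_prop]
theorem dpt_isLeft {s : ∀ a, V a ⊕ W a} (hs : DPT s) : DPT fun a => (s a).isLeft :=
  (dpt_isRight hs).not.congr fun a => by cases s a <;> rfl

theorem pt_rawTail {f : α → Raw} (hf : PT ∅ f) : PT ∅ fun a => (⟨(f a).w.tail⟩ : Raw) := by
  obtain ⟨g, hg, h⟩ := hf
  exact ⟨fun w => (g w).tail, FP.tail.comp hg, fun a => congrArg List.tail (h a)⟩

/-- case distinction on a sum -/
@[fun_prop]
theorem dpt_sumElim {s : ∀ a, V a ⊕ W a} {f : ∀ a, V a → T a} {g : ∀ a, W a → T a} (hs : DPT s)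
    (hf : DPT fun p : Σ a, V a => f p.1 p.2) (hg : DPT fun p : Σ a, W a => g p.1 p.2) :
    DPT fun a => Sum.elim (f a) (g a) (s a) := by
  obtain ⟨F, hF, hF'⟩ := hf
  obtain ⟨G, hG, hG'⟩ := hg
  have h1 : PT ∅ fun p : α × Raw => (⟨F (pr (enc p.1) p.2.w)⟩ : Raw) := ⟨F, hF, fun _ => rfl⟩
  have h2 : PT ∅ fun p : α × Raw => (⟨G (pr (enc p.1) p.2.w)⟩ : Raw) := ⟨G, hG, fun _ => rfl⟩
  have h3 := PT.id.pair (pt_rawTail hs.rawPT)
  refine DPT.of_rawPT (PT.cond (dpt_isRight hs).toPT (h2.comp h3) (h1.comp h3)) fun a => ?_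
  rcases s a with v | w
  · exact congrArg Raw.mk (hF' ⟨a, v⟩)
  · exact congrArg Raw.mk (hG' ⟨a, w⟩)

/-- case distinction on an option -/
@[fun_prop]
theorem dpt_optElim {o : ∀ a, Option (V a)} {d : ∀ a, T a} {f : ∀ a, V a → T a} (ho : DPT o)
    (hd : DPT d) (hf : DPT fun p : Σ a, V a => f p.1 p.2) :
    DPT fun a => (o a).elim (d a) (f a) := by
  obtain ⟨F, hF, hF'⟩ := hf
  have h1 : PT ∅ fun p : α × Raw => (⟨F (pr (enc p.1) p.2.w)⟩ : Raw) := ⟨F, hF, fun _ => rfl⟩
  have h3 := PT.id.pair (pt_rawTail ho.rawPT)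
  refine DPT.of_rawPT (PT.cond ho.isSome.toPT (h1.comp h3) hd.rawPT) fun a => ?_
  rcases o a with _ | v
  · rfl
  · exact congrArg Raw.mk (hF' ⟨a, v⟩)

@[fun_prop]
theorem dpt_optMap {o : ∀ a, Option (V a)} {f : ∀ a, V a → T a} (ho : DPT o)
    (hf : DPT fun p : Σ a, V a => f p.1 p.2) : DPT fun a => (o a).map (f a) :=
  (dpt_optElim (f := fun a v => some (f a v)) ho DPT.none hf.some).congr fun a => by
    cases o a <;> rfl

@[fun_prop]
theorem dpt_sumMap {U : α → Type} [∀ a, Enc (U a)] {s : ∀ a, V a ⊕ W a} {f : ∀ a, V a → T a}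
    {g : ∀ a, W a → U a} (hs : DPT s) (hf : DPT fun p : Σ a, V a => f p.1 p.2)
    (hg : DPT fun p : Σ a, W a => g p.1 p.2) : DPT fun a => Sum.map (f a) (g a) (s a) :=
  (dpt_sumElim (T := fun a => T a ⊕ U a) (f := fun a v => Sum.inl (f a v))
    (g := fun a w => Sum.inr (g a w)) hs (dpt_inl hf) (dpt_inr hg)).congr fun a => by
    cases s a <;> rfl

/-- A function on a family of sums is given by its two parts. -/
theorem dpt_sumCases {U : ∀ a, V a ⊕ W a → Type} [∀ a s, Enc (U a s)] {F : ∀ a s, U a s}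
    (h1 : DPT fun p : Σ a, V a => F p.1 (Sum.inl p.2))
    (h2 : DPT fun p : Σ a, W a => F p.1 (Sum.inr p.2)) : DPT fun p : Σ a, V a ⊕ W a => F p.1 p.2 := by
  have h := dpt_sumElim (α := Σ a, V a ⊕ W a) (V := fun p => V p.1) (W := fun p => W p.1)
    (T := fun _ => Raw) (f := fun p v => raw (F p.1 (Sum.inl v)))
    (g := fun p w => raw (F p.1 (Sum.inr w))) DPT.ssnd
    (DPT.comp (f := fun q : Σ p : Σ a, V a ⊕ W a, V p.1 => (⟨q.1.1, q.2⟩ : Σ a, V a))
      (DPT.ofPT h1.rawPT) (DPT.smk DPT.id.sfst.sfst DPT.ssnd))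
    (DPT.comp (f := fun q : Σ p : Σ a, V a ⊕ W a, W p.1 => (⟨q.1.1, q.2⟩ : Σ a, W a))
      (DPT.ofPT h2.rawPT) (DPT.smk DPT.id.sfst.sfst DPT.ssnd))
  exact h.of_enc fun ⟨a, s⟩ => by cases s <;> rfl

/-- A function on a family of options is given by its two parts. -/
theorem dpt_optCases {U : ∀ a, Option (V a) → Type} [∀ a s, Enc (U a s)] {F : ∀ a s, U a s}
    (h1 : DPT fun a => F a none) (h2 : DPT fun p : Σ a, V a => F p.1 (some p.2)) :
    DPT fun p : Σ a, Option (V a) => F p.1 p.2 := by
  have h := dpt_optElim (α := Σ a, Option (V a)) (V := fun p => V p.1) (T := fun _ => Raw)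
    (d := fun p => raw (F p.1 none)) (f := fun p v => raw (F p.1 (some v))) DPT.ssnd
    ((DPT.ofPT h1.rawPT).comp DPT.id.sfst)
    (DPT.comp (f := fun q : Σ p : Σ a, Option (V a), V p.1 => (⟨q.1.1, q.2⟩ : Σ a, V a))
      (DPT.ofPT h2.rawPT) (DPT.smk DPT.id.sfst.sfst DPT.ssnd))
  exact h.of_enc fun ⟨a, s⟩ => by cases s <;> rfl

/-- dependent case distinction by a predicate -/
theorem dpt_dite {p : α → Prop} [∀ a, Decidable (p a)] {f : ∀ a, p a → T a}
    {g : ∀ a, ¬ p a → T a} (hp : DPr p) (hf : DPT fun x : {a // p a} => f x.1 x.2)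
    (hg : DPT fun x : {a // ¬ p a} => g x.1 x.2) : DPT fun a => if h : p a then f a h else g a h := by
  obtain ⟨F, hF, hF'⟩ := hf
  obtain ⟨G, hG, hG'⟩ := hg
  have h1 : DPT fun a : α => (⟨F (enc a)⟩ : Raw) := ⟨F, hF, fun _ => rfl⟩
  have h2 : DPT fun a : α => (⟨G (enc a)⟩ : Raw) := ⟨G, hG, fun _ => rfl⟩
  refine (DPT.ite hp h1 h2).of_enc fun a => ?_
  by_cases h : p a
  · rw [if_pos h, dif_pos h]
    exact hF' ⟨a, h⟩
  · rw [if_neg h, dif_neg h]
    exact hG' ⟨a, h⟩

@[fun_prop]
theorem dpr_iff {p q : α → Prop} (hp : DPr p) (hq : DPr q) : DPr fun a => p a ↔ q a :=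
  ((hp.and hq).or (hp.not.and hq.not)).congr fun a => by tauto

theorem dpr_imp {p q : α → Prop} (hp : DPr p) (hq : DPr q) : DPr fun a => p a → q a :=
  (hp.not.or hq).congr fun a => by tauto

@[fun_prop]
theorem dpt_xor {f g : α → Bool} (hf : DPT f) (hg : DPT g) : DPT fun a => xor (f a) (g a) :=
  dpt_finComp (fun p : Bool × Bool => xor p.1 p.2) (hf.pair hg)

/-! ### Finite case distinctions and functions on constant finite types -/

/-- case distinction on a computed element of a constant finite type -/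
theorem dpt_cases {γ : Type} [Enc γ] [Finite γ] [EncInj γ] {c : α → γ} (hc : DPT c)
    {f : γ → ∀ a, V a} (hf : ∀ j, DPT (f j)) : DPT fun a => f (c a) a :=
  DPT.of_rawPT (PT.finCase (f := fun j a => raw (f j a)) hc.toPT fun j => (hf j).rawPT)
    fun _ => rfl

theorem dpr_cases {γ : Type} [Enc γ] [Finite γ] [EncInj γ] {c : α → γ} (hc : DPT c)
    {q : γ → α → Prop} (hq : ∀ j, DPr (q j)) : DPr fun a => q (c a) a := by
  classical
  exact DPr.of_decide (dpt_finCase (f := fun j a => decide (q j a)) hc fun j => DPT.decide (hq j))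

theorem dpr_finComp {γ : Type} [Enc γ] [Finite γ] [EncInj γ] (q : γ → Prop) {c : α → γ}
    (hc : DPT c) : DPr fun a => q (c a) :=
  dpr_cases (q := fun j _ => q j) hc fun _ => DPr.const _

section Fun

variable {S : Type} [Fintype S]

/-- a function on a constant finite type, given pointwise -/
theorem dpt_piMk {g : ∀ a, S → T a} (h : ∀ s, DPT fun a => g a s) : DPT g :=
  (dpt_mapConst (Finset.univ.toList : List S) (f := fun s a => g a s) fun s _ => h s).of_enc
    fun _ => rfl

theorem dpt_piAt {g : ∀ a, S → T a} (h : DPT g) (s : S) : DPT fun a => g a s := by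
  classical
  have h0 : DPT fun a => (Finset.univ.toList : List S).map (g a) := h.of_enc fun _ => rfl
  have h1 : (Finset.univ.toList : List S).idxOf s < (Finset.univ.toList : List S).length :=
    List.idxOf_lt_length_iff.2 (Finset.mem_toList.2 (Finset.mem_univ s))
  refine (dpt_getElem h0 (DPT.const _) fun a => by simpa using h1).congr fun a => ?_
  simp

theorem dpt_piApp [Enc S] [EncInj S] {g : ∀ a, S → T a} {s : α → S} (h : DPT g) (hs : DPT s) :
    DPT fun a => g a (s a) := dpt_cases (f := fun s a => g a s) hs fun s => dpt_piAt h s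

theorem dpt_piIff {g : ∀ a, S → T a} : DPT g ↔ ∀ s, DPT fun a => g a s :=
  ⟨dpt_piAt, dpt_piMk⟩

theorem dpr_forall_const {q : S → α → Prop} (h : ∀ s, DPr (q s)) : DPr fun a => ∀ s, q s a := by
  classical
  have h1 : DPT fun a (s : S) => decide (q s a) := dpt_piMk fun s => DPT.decide (h s)
  exact (dpr_finComp (fun f : S → Bool => ∀ s, f s = true) h1).congr fun a => by simp

theorem dpr_exists_const {q : S → α → Prop} (h : ∀ s, DPr (q s)) : DPr fun a => ∃ s, q s a :=
  (dpr_forall_const fun s => (h s).not).not.congr fun a => by simp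

theorem esize_pi_le {A : Type} [Enc A] {f : S → A} {B : ℕ} (h : ∀ s, esize (f s) ≤ B) :
    esize f ≤ Fintype.card S * (2 * B + 1) := by
  have := esize_list_le (l := (Finset.univ.toList : List S).map f) (B := B) (by simpa using h)
  rwa [List.length_map, Finset.length_toList, Finset.card_univ] at this

end Fun

@[fun_prop]
theorem dpt_ofFn {k : ℕ} {g : ∀ a, Fin k → T a} (h : DPT g) : DPT fun a => List.ofFn (g a) :=
  (dpt_mapConst (List.finRange k) (f := fun s a => g a s) fun s _ => dpt_piAt h s).congr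
    fun _ => List.ofFn_eq_map.symm

theorem dpt_finCons {k : ℕ} {x : ∀ a, T a} {g : ∀ a, Fin k → T a} (hx : DPT x) (h : DPT g) :
    DPT fun a => (Fin.cons (x a) (g a) : Fin (k + 1) → T a) :=
  dpt_piMk fun s => Fin.cases (by simpa using hx) (fun i => by simpa using dpt_piAt h i) s

/-! ### Enumerations -/

section En

@[fun_prop]
theorem dpt_elems_fin {n : α → ℕ} (hn : DPT n) (hb : PBd n) : DPT fun a => elems (Fin (n a)) :=
  dpt_finRange hn hb

@[fun_prop]
theorem dpt_elems_zmod {n : α → ℕ} [∀ a, NeZero (n a)] (hn : DPT n) (hb : PBd n) :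
    DPT fun a => elems (ZMod (n a)) :=
  DPT.map (hn.range hb) (DPT.natCast (PTRing.zmod (hn.comp DPT.id.sfst)) DPT.ssnd.val)

variable [∀ a, En (V a)] [∀ a, En (W a)]

@[fun_prop]
theorem dpt_elems_prod (hV : DPT fun a => elems (V a)) (hW : DPT fun a => elems (W a)) :
    DPT fun a => elems (V a × W a) := dpt_product hV hW

@[fun_prop]
theorem dpt_elems_sum (hV : DPT fun a => elems (V a)) (hW : DPT fun a => elems (W a)) :
    DPT fun a => elems (V a ⊕ W a) :=
  DPT.append (DPT.map hV (dpt_inl DPT.ssnd.val)) (DPT.map hW (dpt_inr DPT.ssnd.val))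

@[fun_prop]
theorem dpt_elems_option (hV : DPT fun a => elems (V a)) : DPT fun a => elems (Option (V a)) :=
  DPT.cons DPT.none (DPT.map hV (DPT.some DPT.ssnd.val))

theorem dpt_elems_subtype {p : ∀ a, V a → Prop} (hV : DPT fun a => elems (V a))
    (hp : DPr fun x : Σ a, V a => p x.1 x.2) : DPT fun a => elems (Subtype (p a)) := by
  classical
  refine (DPT.filter (f := fun a v => decide (p a v)) hV (DPT.decide (dpr_mem hp))).of_enc fun a => ?_
  have h := map_val_elems (p a)
  rw [← enc_map_of_enc (f := Subtype.val) (fun _ => rfl) (elems (Subtype (p a))), h]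

theorem dpt_elems_vec (hV : DPT fun a => elems (V a)) (hW : DPT fun a => elems (W a))
    (hb : PBd fun a => (elems (W a)).length ^ (elems (V a)).length) :
    DPT fun a => elems (Vec (V a) (W a)) :=
  (dpt_allL hW hV.length (pbd_length hV) hb).of_enc fun a => by
    rw [← map_toL_elems]
    exact enc_map_of_enc (f := (Vec.toL : Vec (V a) (W a) → List (W a))) (fun _ => rfl) _

theorem dpt_elems_comp {κ : Type} [Enc κ] {c : κ → α} (hV : DPT fun a => elems (V a))
    (hc : DPT c) : DPT fun x => elems (V (c x)) := hV.comp hc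

@[fun_prop]
theorem dpt_card [∀ a, Fintype (V a)] (hV : DPT fun a => elems (V a)) :
    DPT fun a => Fintype.card (V a) := hV.length.congr fun _ => length_elems _

@[fun_prop]
theorem pbd_card [∀ a, Fintype (V a)] (hV : DPT fun a => elems (V a)) :
    PBd fun a => Fintype.card (V a) := (pbd_length hV).mono fun _ => (length_elems _).ge

/-- The codes of all elements are polynomially bounded. -/
theorem exists_esize_le (hV : DPT fun a => elems (V a)) :
    ∃ b : α → ℕ, PBd b ∧ ∀ a (v : V a), esize v ≤ b a :=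
  ⟨fun a => esize (elems (V a)), pbd_esize hV, fun _ v => esize_le_of_mem (mem_elems v)⟩

@[fun_prop]
theorem dpt_eidx [∀ a, EncInj (V a)] {v : ∀ a, V a} (hV : DPT fun a => elems (V a)) (hv : DPT v) :
    DPT fun a => eidx (v a) := by
  classical
  exact dpt_idxOf hV hv

@[fun_prop]
theorem pbd_eidx {v : ∀ a, V a} (hV : DPT fun a => elems (V a)) : PBd fun a => eidx (v a) := by
  classical
  exact (pbd_length hV).mono fun a => (idxOf_lt (v a)).le

@[fun_prop]
theorem dpt_enth [∀ a, Nonempty (V a)] {i : α → ℕ} (hV : DPT fun a => elems (V a)) (hi : DPT i) :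
    DPT fun a => enth (V a) (i a) := DPT.getD hV hi (dpt_head hV _)

/-- quantification over an enumerated family -/
theorem dpr_forall {q : ∀ a, V a → Prop} (hV : DPT fun a => elems (V a))
    (hq : DPr fun x : Σ a, V a => q x.1 x.2) : DPr fun a => ∀ v, q a v :=
  (DPr.forall_mem hV (dpr_mem hq)).congr fun _ => ⟨fun h v => h v (mem_elems v), fun h v _ => h v⟩

@[fun_prop]
theorem dpr_exists {q : ∀ a, V a → Prop} (hV : DPT fun a => elems (V a))
    (hq : DPr fun x : Σ a, V a => q x.1 x.2) : DPr fun a => ∃ v, q a v :=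
  (DPr.exists_mem hV (dpr_mem hq)).congr fun _ =>
    ⟨fun ⟨v, _, h⟩ => ⟨v, h⟩, fun ⟨v, h⟩ => ⟨v, mem_elems v, h⟩⟩

/-- the number of elements with a property -/
theorem dpt_cardFilter [∀ a, Fintype (V a)] {q : ∀ a, V a → Prop} [∀ a, DecidablePred (q a)]
    (hV : DPT fun a => elems (V a)) (hq : DPr fun x : Σ a, V a => q x.1 x.2) :
    DPT fun a => (Finset.univ.filter (q a)).card :=
  (DPT.filter (f := fun a v => decide (q a v)) hV (DPT.decide (dpr_mem hq))).length.congr
    fun _ => length_filter_elems _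

theorem frac_le_div_iff {C : Type} [Fintype C] [Nonempty C] (p : C → Prop) [DecidablePred p]
    (m : ℕ) {n : ℕ} (hn : 0 < n) :
    frac p ≤ (m : ℝ) / n ↔ (Finset.univ.filter p).card * n ≤ m * Fintype.card C := by
  rw [frac_eq, div_le_div_iff₀ card_pos_real (by exact_mod_cast hn)]
  exact_mod_cast Iff.rfl

theorem div_le_frac_iff {C : Type} [Fintype C] [Nonempty C] (p : C → Prop) [DecidablePred p]
    (m : ℕ) {n : ℕ} (hn : 0 < n) :
    (m : ℝ) / n ≤ frac p ↔ m * Fintype.card C ≤ (Finset.univ.filter p).card * n := by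
  rw [frac_eq, div_le_div_iff₀ (by exact_mod_cast hn) card_pos_real]
  exact_mod_cast Iff.rfl

/-- comparison of a fraction with a constant -/
theorem dpr_frac_le [∀ a, Fintype (V a)] [∀ a, Nonempty (V a)] {q : ∀ a, V a → Prop}
    (hV : DPT fun a => elems (V a)) (hq : DPr fun x : Σ a, V a => q x.1 x.2) (m : ℕ) {n : ℕ}
    (hn : 0 < n) : DPr fun a => frac (q a) ≤ (m : ℝ) / n := by
  classical
  exact (DPr.le ((dpt_cardFilter hV hq).natMul (DPT.const n))
    ((DPT.const m).natMul (dpt_card hV))).congr fun a => (frac_le_div_iff _ m hn).symm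

theorem dpr_le_frac [∀ a, Fintype (V a)] [∀ a, Nonempty (V a)] {q : ∀ a, V a → Prop}
    (hV : DPT fun a => elems (V a)) (hq : DPr fun x : Σ a, V a => q x.1 x.2) (m : ℕ) {n : ℕ}
    (hn : 0 < n) : DPr fun a => (m : ℝ) / n ≤ frac (q a) := by
  classical
  exact (DPr.le ((DPT.const m).natMul (dpt_card hV))
    ((dpt_cardFilter hV hq).natMul (DPT.const n))).congr fun a => (div_le_frac_iff _ m hn).symm

theorem dpt_natSum [∀ a, Fintype (V a)] {f : ∀ a, V a → ℕ} (hV : DPT fun a => elems (V a))
    (hf : DPT fun x : Σ a, V a => f x.1 x.2) : DPT fun a => ∑ v, f a v :=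
  (DPT.natSum (DPT.map (β := fun _ => ℕ) hV (dpt_mem (f := f) hf))).congr fun _ => sum_elems _

@[fun_prop]
theorem dpt_sum {R : α → Type} [∀ a, CommRing (R a)] [∀ a, Code (R a)] [∀ a, Fintype (V a)]
    {f : ∀ a, V a → R a} (hR : PTRing R) (hV : DPT fun a => elems (V a))
    (hf : DPT fun x : Σ a, V a => f x.1 x.2) : DPT fun a => ∑ v, f a v :=
  (DPT.sum hR (DPT.map hV (dpt_mem (f := f) hf))).congr fun _ => sum_elems _

@[fun_prop]
theorem dpt_prod {R : α → Type} [∀ a, CommRing (R a)] [∀ a, Code (R a)] [∀ a, Fintype (V a)]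
    {f : ∀ a, V a → R a} (hR : PTRing R) (hV : DPT fun a => elems (V a))
    (hf : DPT fun x : Σ a, V a => f x.1 x.2) : DPT fun a => ∏ v, f a v :=
  (DPT.prod hR (DPT.map hV (dpt_mem (f := f) hf))).congr fun _ => prod_elems _

open Classical in
/-- the first element with the property `q`, or the default value -/
noncomputable def firstD {V : Type} [En V] (q : V → Prop) (d : V) : V :=
  ((elems V).find? fun v => decide (q v)).getD d

theorem firstD_spec {V : Type} [En V] {q : V → Prop} (h : ∃ v, q v) (d : V) : q (firstD q d) := by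
  classical
  unfold firstD
  obtain ⟨v, hv⟩ := h
  rcases e : (elems V).find? fun v => decide (q v) with _ | w
  · exact absurd (List.find?_eq_none.1 e v (mem_elems v)) (by simpa using hv)
  · simpa using List.find?_some e

theorem firstD_of_not {V : Type} [En V] {q : V → Prop} (h : ∀ v, ¬ q v) (d : V) :
    firstD q d = d := by
  classical
  unfold firstD
  rw [List.find?_eq_none.2 fun v _ => by simpa using h v]
  rfl

theorem firstD_eq {V : Type} [En V] {q : V → Prop} {v : V} (hv : q v) (hu : ∀ w, q w → w = v)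
    (d : V) : firstD q d = v := hu _ (firstD_spec ⟨v, hv⟩ d)

@[fun_prop]
theorem dpt_firstD {q : ∀ a, V a → Prop} {d : ∀ a, V a} (hV : DPT fun a => elems (V a))
    (hq : DPr fun x : Σ a, V a => q x.1 x.2) (hd : DPT d) : DPT fun a => firstD (q a) (d a) := by
  classical
  exact (DPT.find? (f := fun a v => decide (q a v)) hV (DPT.decide (dpr_mem hq))).optGetD hd

/-! ### Vectors -/

@[fun_prop]
theorem dpt_toL {f : ∀ a, Vec (V a) (T a)} (hf : DPT f) : DPT fun a => (f a).toL :=
  hf.of_enc fun _ => rfl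

/-- a vector from its entries -/
theorem dpt_vecMk {f : ∀ a, Vec (V a) (T a)} (hV : DPT fun a => elems (V a))
    (hf : DPT fun x : Σ a, V a => f x.1 x.2) : DPT f :=
  (DPT.map (f := fun a v => f a v) hV (dpt_mem hf)).of_enc fun _ => rfl

@[fun_prop]
theorem dpt_vecOf {f : ∀ a, V a → T a} (hV : DPT fun a => elems (V a))
    (hf : DPT fun x : Σ a, V a => f x.1 x.2) : DPT fun a => Vec.of (f a) := dpt_vecMk hV hf

/-- the entry of a vector -/
theorem dpt_vecAt [∀ a, EncInj (V a)] {f : ∀ a, Vec (V a) (T a)} {v : ∀ a, V a}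
    (hV : DPT fun a => elems (V a)) (hf : DPT f) (hv : DPT v) : DPT fun a => f a (v a) := by
  classical
  refine (dpt_getElem (dpt_toL hf) (dpt_idxOf hV hv) fun a => ?_).congr fun a => ?_
  · rw [Vec.length_toL]
    exact idxOf_lt _
  · exact (List.getElem_map _).trans (congrArg (f a) (List.getElem_idxOf _))

@[fun_prop]
theorem dpt_vecGet [∀ a, EncInj (V a)] {f : ∀ a, Vec (V a) (T a)} {v : ∀ a, V a}
    (hV : DPT fun a => elems (V a)) (hf : DPT f) (hv : DPT v) : DPT fun a => (f a).get (v a) :=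
  dpt_vecAt hV hf hv

/-- the entries of a vector as a function of instance and index -/
theorem dpt_vecEnt [∀ a, EncInj (V a)] {f : ∀ a, Vec (V a) (T a)} (hV : DPT fun a => elems (V a))
    (hf : DPT f) : DPT fun x : Σ a, V a => f x.1 x.2 :=
  dpt_vecAt (V := fun x : Σ a, V a => V x.1) (f := fun x => f x.1) (hV.comp DPT.id.sfst)
    (hf.comp DPT.id.sfst) DPT.ssnd

theorem esize_vec_le {V T : Type} [En V] [Enc T] {f : Vec V T} {B : ℕ}
    (h : ∀ v, esize (f v) ≤ B) : esize f ≤ (elems V).length * (2 * B + 1) := by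
  have := esize_list_le (l := f.toL) (B := B) fun x hx => by
    obtain ⟨v, -, rfl⟩ := List.mem_map.1 hx
    exact h v
  rwa [Vec.length_toL] at this

theorem exists_esize_vec_le (hV : DPT fun a => elems (V a))
    (hT : ∃ b : α → ℕ, PBd b ∧ ∀ a (y : T a), esize y ≤ b a) :
    ∃ b : α → ℕ, PBd b ∧ ∀ a (f : Vec (V a) (T a)), esize f ≤ b a := by
  obtain ⟨b, hb, h⟩ := hT
  exact ⟨fun a => (elems (V a)).length * (2 * b a + 1), by fun_prop,
    fun a f => esize_vec_le fun v => h a _⟩

/-- iteration of a map on a family of types with codes of bounded length -/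
theorem dpt_iterate_bdd {k : α → ℕ} {s : ∀ a, T a} {f : ∀ a, T a → T a}
    (hT : ∃ b : α → ℕ, PBd b ∧ ∀ a (y : T a), esize y ≤ b a) (hk : DPT k) (hkb : PBd k)
    (hs : DPT s) (hf : DPT fun p : Σ a, T a => f p.1 p.2) : DPT fun a => (f a)^[k a] (s a) := by
  obtain ⟨b, hb, h⟩ := hT
  exact DPT.iterate hk hkb hs hf hb fun a _ _ => h a _

theorem dpt_foldl_bdd {l : ∀ a, List (W a)} {s : ∀ a, T a} {f : ∀ a, T a → W a → T a}
    (hT : ∃ b : α → ℕ, PBd b ∧ ∀ a (y : T a), esize y ≤ b a) (hl : DPT l) (hs : DPT s)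
    (hf : DPT fun p : Σ a, T a × {x // x ∈ l a} => f p.1 p.2.1 p.2.2.1) :
    DPT fun a => (l a).foldl (f a) (s a) := by
  obtain ⟨b, hb, h⟩ := hT
  exact DPT.foldl hl hs hf hb fun a _ => h a _

end En

theorem toL_sym {ℓ : ℕ} (σ : Vec (Fin ℓ) Bool) : σ.toL = List.ofFn σ := List.ofFn_eq_map.symm

/-- a string as a list -/
theorem dpt_symL {n : α → ℕ} {f : ∀ a, Vec (Fin (n a)) (T a)} (hf : DPT f) :
    DPT fun a => List.ofFn (f a) := (dpt_toL hf).congr fun _ => List.ofFn_eq_map.symm

@[fun_prop]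
theorem dpt_zsym {n : α → ℕ} (hn : DPT n) (hb : PBd n) : DPT fun a => zsym (n a) :=
  dpt_vecMk (dpt_elems_fin hn hb) (DPT.const false)

theorem esize_sym {n : ℕ} (σ : Sym n) : esize σ = 3 * n := by
  have := esize_boolList σ.toL
  rwa [Vec.length_toL, length_elems, Fintype.card_fin] at this

@[fun_prop]
theorem dpt_appF {F : List (List Bool) → List Bool} {c : ℕ} {n : α → ℕ}
    {σ : ∀ a, Fin c → Sym (n a)} (hF : DPT F) (hn : DPT n) (hb : PBd n) (hσ : DPT σ) :
    DPT fun a => appF F (σ a) := by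
  have h1 : DPT fun a => F (List.ofFn fun j => List.ofFn (σ a j)) :=
    hF.comp (dpt_ofFn (T := fun _ => List Bool) (dpt_piMk fun j => dpt_symL (dpt_piAt hσ j)))
  exact dpt_vecMk (dpt_elems_fin hn hb)
    (DPT.getD (h1.comp DPT.id.sfst) (dpt_finVal DPT.ssnd) (DPT.const false))

end PT

/-! ### Constructors of constant types and of families -/

/-- the type with one element -/
@[reducible] def CT.unit : CT := ⟨Unit⟩
/-- bits -/
@[reducible] def CT.bool : CT := ⟨Bool⟩
/-- the type with `n + 1` elements -/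
@[reducible] def CT.finS (n : ℕ) : CT := ⟨Fin (n + 1)⟩
/-- residues -/
@[reducible] def CT.zmod (n : ℕ) [NeZero n] : CT := ⟨ZMod n⟩
/-- sum -/
@[reducible] def CT.sum (A B : CT) : CT := ⟨A.T ⊕ B.T⟩
/-- product -/
@[reducible] def CT.prod (A B : CT) : CT := ⟨A.T × B.T⟩
/-- one more element -/
@[reducible] def CT.option (A : CT) : CT := ⟨Option A.T⟩
/-- vectors -/
@[reducible] noncomputable def CT.vec (A B : CT) : CT := ⟨Vec A.T B.T⟩
/-- vectors of length `n` -/
@[reducible] noncomputable def CT.pow (B : CT) (n : ℕ) : CT := ⟨Vec (Fin n) B.T⟩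

namespace TF

variable {α : Type} [Enc α]

@[fun_prop]
theorem pt' (V : TF α) {κ : Type} [Enc κ] {c : κ → α} (hc : DPT c) :
    DPT fun x => elems (V.T (c x)) := V.pt.comp hc

theorem dpt_card (V : TF α) : DPT fun a => Fintype.card (V.T a) := Vale.Agent.P330.dpt_card V.pt

theorem pbd_card (V : TF α) : PBd fun a => Fintype.card (V.T a) := Vale.Agent.P330.pbd_card V.pt

theorem esize_le (V : TF α) : ∃ b : α → ℕ, PBd b ∧ ∀ a (v : V.T a), esize v ≤ b a :=
  exists_esize_le V.pt

theorem card_pos (V : TF α) (a : α) : 0 < Fintype.card (V.T a) := Fintype.card_pos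

/-- a constant family -/
@[reducible] def const (α : Type) [Enc α] (A : CT) : TF α where
  T _ := A.T
  pt := DPT.const _

/-- product -/
@[reducible] def prod (V W : TF α) : TF α where
  T a := V.T a × W.T a
  pt := dpt_elems_prod V.pt W.pt

/-- sum -/
@[reducible] def sum (V W : TF α) : TF α where
  T a := V.T a ⊕ W.T a
  pt := dpt_elems_sum V.pt W.pt

/-- one more element -/
@[reducible] def option (V : TF α) : TF α where
  T a := Option (V.T a)
  pt := dpt_elems_option V.pt

/-- the numbers up to `n a` -/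
@[reducible] def finS (n : α → ℕ) (hn : DPT n) (hb : PBd n) : TF α where
  T a := Fin (n a + 1)
  pt := dpt_elems_fin (hn.natAdd (DPT.const 1)) (hb.add (PBd.const 1))

/-- the numbers below `n a` -/
@[reducible] def finP (n : α → ℕ) (hn : DPT n) (hb : PBd n) (h0 : ∀ a, 0 < n a) : TF α where
  T a := Fin (n a)
  ne a := ⟨⟨0, h0 a⟩⟩
  pt := dpt_elems_fin hn hb

/-- residues -/
@[reducible] def zmod (n : α → ℕ) [∀ a, NeZero (n a)] (hn : DPT n) (hb : PBd n) : TF α where
  T a := ZMod (n a)
  pt := dpt_elems_zmod hn hb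

/-- vectors -/
@[reducible] noncomputable def vec (V W : TF α)
    (hb : PBd fun a => Fintype.card (W.T a) ^ Fintype.card (V.T a)) : TF α where
  T a := Vec (V.T a) (W.T a)
  pt := dpt_elems_vec V.pt W.pt (by simpa only [length_elems] using hb)

/-- vectors of length `n a` -/
@[reducible] noncomputable def pow (W : TF α) (n : α → ℕ) (hn : DPT n) (hnb : PBd n)
    (hb : PBd fun a => Fintype.card (W.T a) ^ n a) : TF α where
  T a := Vec (Fin (n a)) (W.T a)
  pt := dpt_elems_vec (dpt_elems_fin hn hnb) W.pt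
    (by simpa only [length_elems, Fintype.card_fin] using hb)

/-- vectors with a constant index set -/
@[reducible] noncomputable def powC (W : TF α) (A : CT) : TF α where
  T a := Vec A.T (W.T a)
  pt := dpt_elems_vec (DPT.const _) W.pt ((pbd_length W.pt).pow _)

/-- vectors of constant length -/
@[reducible] noncomputable def powN (W : TF α) (n : ℕ) : TF α where
  T a := Vec (Fin n) (W.T a)
  pt := dpt_elems_vec (DPT.const _) W.pt ((pbd_length W.pt).pow _)

open Classical in
/-- the elements with a decidable property -/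
@[reducible] noncomputable def sub (V : TF α) (p : ∀ a, V.T a → Prop)
    (hp : DPr fun x : Σ a, V.T a => p x.1 x.2) (h0 : ∀ a, ∃ v, p a v) : TF α where
  T a := Subtype (p a)
  ne a := nonempty_subtype.2 (h0 a)
  pt := dpt_elems_subtype V.pt hp

/-- change of the instances -/
@[reducible] def comap (V : TF α) {κ : Type} [Enc κ] (c : κ → α) (hc : DPT c) : TF κ where
  T x := V.T (c x)
  pt := V.pt.comp hc

/-- the family of the cells -/
@[reducible] def cell (P : TF α) (A : CT) (S : TF α) (G : CT) : TF α where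
  T a := Cell (P.T a) A.T (S.T a) G.T
  pt := dpt_elems_prod P.pt (dpt_elems_prod (DPT.const _) (dpt_elems_prod S.pt (DPT.const _)))

end TF

/-! ### Finite selections -/

section FinSel

variable {α : Type} [Enc α] {Z Z' : Type}

theorem FinSel.of_dpt {γ : Type} [Enc γ] [Finite γ] [EncInj γ] (k : γ → Z) {c : α → γ}
    (hc : DPT c) : FinSel fun a => k (c a) := by
  have := Fintype.ofFinite γ
  exact ⟨Fintype.card γ, fun a => Fintype.equivFin γ (c a),
    fun i => k ((Fintype.equivFin γ).symm i), dpt_finComp _ hc, fun a => by simp⟩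

theorem FinSel.of_dpt' [Enc Z] [Finite Z] [EncInj Z] {c : α → Z} (hc : DPT c) : FinSel c :=
  FinSel.of_dpt id hc

theorem FinSel.const (z : Z) : FinSel fun _ : α => z :=
  FinSel.of_dpt (γ := Unit) (fun _ => z) (DPT.const ())

theorem FinSel.congr {f g : α → Z} (hf : FinSel f) (h : ∀ a, f a = g a) : FinSel g := by
  rwa [← funext h]

theorem FinSel.comap {κ : Type} [Enc κ] {f : α → Z} {c : κ → α} (hf : FinSel f) (hc : DPT c) :
    FinSel fun x => f (c x) := by
  obtain ⟨n, t, k, ht, h⟩ := hf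
  exact ⟨n, fun x => t (c x), k, ht.comp hc, fun x => h _⟩

theorem FinSel.map {f : α → Z} (hf : FinSel f) (F : Z → Z') : FinSel fun a => F (f a) := by
  obtain ⟨n, t, k, ht, h⟩ := hf
  exact ⟨n, t, fun i => F (k i), ht, fun x => congrArg F (h x)⟩

theorem FinSel.pair {f : α → Z} {g : α → Z'} (hf : FinSel f) (hg : FinSel g) :
    FinSel fun a => (f a, g a) := by
  obtain ⟨n, t, k, ht, h⟩ := hf
  obtain ⟨n', t', k', ht', h'⟩ := hg
  exact (FinSel.of_dpt (fun p : Fin n × Fin n' => (k p.1, k' p.2)) (ht.pair ht')).congr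
    fun a => by rw [h, h']

theorem FinSel.map₂ {Z'' : Type} {f : α → Z} {g : α → Z'} (hf : FinSel f) (hg : FinSel g)
    (F : Z → Z' → Z'') : FinSel fun a => F (f a) (g a) :=
  (hf.pair hg).map fun p => F p.1 p.2

theorem FinSel.pi {S : Type} [Finite S] {f : α → S → Z} (hf : ∀ s, FinSel fun a => f a s) :
    FinSel f := by
  classical
  have := Fintype.ofFinite S
  choose n t k ht h using hf
  let N := Finset.univ.sup n
  have hN : ∀ s, n s ≤ N := fun s => Finset.le_sup (f := n) (Finset.mem_univ s)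
  have h1 : DPT fun a (s : S) => (t s a).castLE (hN s) :=
    dpt_piMk fun s => dpt_finComp _ (ht s)
  rcases isEmpty_or_nonempty α with h0 | ⟨⟨a₀⟩⟩
  · exact ⟨0, isEmptyElim, Fin.elim0, DPT.ofPT (PT.of_isEmpty _), isEmptyElim⟩
  refine (FinSel.of_dpt (fun (y : S → Fin N) (s : S) =>
    if hy : (y s : ℕ) < n s then k s ⟨y s, hy⟩ else f a₀ s) h1).congr fun a => ?_
  funext s
  simp [h]

theorem FinSel.cases {γ : Type} [Enc γ] [Finite γ] [EncInj γ] {c : α → γ} (hc : DPT c)
    {f : γ → α → Z} (hf : ∀ j, FinSel (f j)) : FinSel fun a => f (c a) a :=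
  (FinSel.of_dpt' hc).map₂ (FinSel.pi (f := fun a j => f j a) hf) fun j F => F j

theorem FinSel.ite {p : α → Prop} [∀ a, Decidable (p a)] {f g : α → Z} (hp : DPr p)
    (hf : FinSel f) (hg : FinSel g) : FinSel fun a => if p a then f a else g a :=
  ((FinSel.of_dpt' (DPT.decide hp)).map₂ (hf.pair hg) fun b z => bif b then z.1 else z.2).congr
    fun a => by by_cases h : p a <;> simp [h]

theorem FinSel.dpt [Enc Z] {f : α → Z} (hf : FinSel f) : DPT f := by
  obtain ⟨n, t, k, ht, h⟩ := hf
  exact (dpt_finComp k ht).congr fun a => (h a).symm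

/-- Application of a selected function to a computed argument in a finite type. -/
theorem FinSel.app {γ β : Type} [Enc γ] [Finite γ] [EncInj γ] [Enc β] {f : α → γ → β}
    {c : α → γ} (hf : FinSel f) (hc : DPT c) : DPT fun a => f a (c a) :=
  (hf.map₂ (FinSel.of_dpt' hc) fun F y => F y).dpt

/-- A computed function between constant finite types is a finite selection. -/
theorem FinSel.of_fun {γ β : Type} [Finite γ] [Enc β] [Finite β] [EncInj β] {f : α → γ → β}
    (hf : ∀ y, DPT fun a => f a y) : FinSel f := FinSel.pi fun y => FinSel.of_dpt' (hf y)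

theorem FinSel.sumCases {V W : α → Type} [∀ a, Enc (V a)] [∀ a, Enc (W a)]
    {F : ∀ a, V a ⊕ W a → Z} (h1 : FinSel fun p : Σ a, V a => F p.1 (Sum.inl p.2))
    (h2 : FinSel fun p : Σ a, W a => F p.1 (Sum.inr p.2)) :
    FinSel fun p : Σ a, V a ⊕ W a => F p.1 p.2 := by
  obtain ⟨n, t, k, ht, h⟩ := h1
  obtain ⟨n', t', k', ht', h'⟩ := h2
  have h3 : DPT fun p : Σ a, V a ⊕ W a => (Sum.map (fun v => t ⟨p.1, v⟩) (fun w => t' ⟨p.1, w⟩)
      p.2 : Fin n ⊕ Fin n') :=
    dpt_sumCases (U := fun _ _ => Fin n ⊕ Fin n')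
      (F := fun a s => Sum.map (fun v => t ⟨a, v⟩) (fun w => t' ⟨a, w⟩) s) (dpt_inl ht) (dpt_inr ht')
  refine (FinSel.of_dpt (Sum.elim k k') h3).congr fun ⟨a, s⟩ => ?_
  cases s with
  | inl v => exact (h ⟨a, v⟩).symm
  | inr w => exact (h' ⟨a, w⟩).symm

end FinSel

/-! ### Gates and modules -/

section GatePT

variable {α : Type} [Enc α] {V W : α → Type} [∀ a, Enc (V a)] [∀ a, Enc (W a)]

theorem GatePT.congr {g g' : ∀ a, Gate (V a)} (hg : GatePT g) (h : ∀ a, g a = g' a) :
    GatePT g' := by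
  rwa [← funext h]

theorem GatePT.map {g : ∀ a, Gate (V a)} (hg : GatePT g) (φ : ∀ a, V a → W a)
    (hφ : DPT fun p : Σ a, V a => φ p.1 p.2) : GatePT fun a => (g a).map (φ a) where
  src := DPT.map (f := φ) hg.src (dpt_mem hφ)
  fn := hg.fn
  len := by
    obtain ⟨n, hn⟩ := hg.len
    exact ⟨n, fun a => by simpa [Gate.map] using hn a⟩

theorem GatePT.comap {κ : Type} [Enc κ] {g : ∀ a, Gate (V a)} (hg : GatePT g) {c : κ → α}
    (hc : DPT c) : GatePT fun x => g (c x) where
  src := hg.src.comp hc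
  fn := hg.fn.comap hc
  len := hg.len.imp fun _ hn _ => hn _

theorem GatePT.mk' {D : Type} [En D] [DecidableEq D] {src : ∀ a, D → V a}
    {F : α → (D → ℝ) → Bool} (hs : ∀ d, DPT fun a => src a d) (hF : FinSel F) :
    GatePT fun a => Gate.mk' (src a) (F a) where
  src := dpt_mapConst (elems D) (f := fun d a => src a d) fun d _ => hs d
  fn := hF.map fun G (l : List ℝ) => G fun d => l.getD ((elems D).idxOf d) 0
  len := ⟨(elems D).length, fun a => by simp [Gate.mk']⟩

theorem GatePT.cases {γ : Type} [Enc γ] [Finite γ] [EncInj γ] {c : α → γ} (hc : DPT c)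
    {g : γ → ∀ a, Gate (V a)} (hg : ∀ j, GatePT (g j)) : GatePT fun a => g (c a) a where
  src := dpt_cases hc (f := fun j a => (g j a).src) fun j => (hg j).src
  fn := FinSel.cases hc (f := fun j a => (g j a).fn) fun j => (hg j).fn
  len := by
    have := Fintype.ofFinite γ
    choose n hn using fun j => (hg j).len
    exact ⟨Finset.univ.sup n, fun a =>
      (hn _ a).trans (Finset.le_sup (f := n) (Finset.mem_univ _))⟩

theorem GatePT.ite {p : α → Prop} [∀ a, Decidable (p a)] {g g' : ∀ a, Gate (V a)} (hp : DPr p)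
    (hg : GatePT g) (hg' : GatePT g') : GatePT fun a => if p a then g a else g' a :=
  (GatePT.cases (g := fun b a => bif b then g a else g' a) (DPT.decide hp)
    fun b => by cases b; exacts [hg', hg]).congr fun a => by by_cases h : p a <;> simp [h]

theorem GatePT.sumCases {U : α → Type} [∀ a, Enc (U a)] {g : ∀ a, V a ⊕ W a → Gate (U a)}
    (h1 : GatePT fun p : Σ a, V a => g p.1 (Sum.inl p.2))
    (h2 : GatePT fun p : Σ a, W a => g p.1 (Sum.inr p.2)) :
    GatePT fun p : Σ a, V a ⊕ W a => g p.1 p.2 where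
  src := dpt_sumCases (F := fun a s => (g a s).src) h1.src h2.src
  fn := FinSel.sumCases (F := fun a s => (g a s).fn) h1.fn h2.fn
  len := by
    obtain ⟨n, hn⟩ := h1.len
    obtain ⟨n', hn'⟩ := h2.len
    refine ⟨max n n', fun ⟨a, s⟩ => ?_⟩
    cases s with
    | inl v => exact (hn ⟨a, v⟩).trans (le_max_left _ _)
    | inr w => exact (hn' ⟨a, w⟩).trans (le_max_right _ _)

theorem ModPT.comap {C : α → Type} [∀ a, Enc (C a)] {R J : Type} [Enc R] [Enc J]
    {m : ∀ a, Mod (C a) R J} (hm : ModPT m) {κ : Type} [Enc κ] {c : κ → α} (hc : DPT c) :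
    ModPT fun x => m (c x) := fun r =>
  (hm r).comap (c := fun x : Σ y, C (c y) => (⟨c x.1, x.2⟩ : Σ a, C a))
    (DPT.smk (hc.comp DPT.id.sfst) DPT.ssnd)

/-- all gates of a module -/
theorem ModPT.gate {C : α → Type} [∀ a, Enc (C a)] {R J : Type} [Enc R] [Finite R] [EncInj R]
    [Enc J] {m : ∀ a, Mod (C a) R J} (hm : ModPT m) {κ : Type} [Enc κ] {c : κ → α}
    {y : ∀ x, C (c x)} {r : κ → R} (hc : DPT c) (hy : DPT y) (hr : DPT r) :
    GatePT fun x => m (c x) (y x) (r x) :=
  GatePT.cases (g := fun r x => m (c x) (y x) r) hr fun r =>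
    (hm r).comap (c := fun x => (⟨c x, y x⟩ : Σ a, C a)) (DPT.smk hc hy)

end GatePT

/-! ### Rules -/

section RulePT

variable {α : Type} [Enc α] {c k : ℕ} {P S A B : α → Type} [∀ a, Enc (P a)] [∀ a, Enc (S a)]
  [∀ a, Enc (A a)] [∀ a, Enc (B a)] {r : ∀ a, P a → S a → Rule c k (P a) (A a) (B a)}
  {κ : Type} [Enc κ] {e : κ → α} {p : ∀ x, P (e x)} {s : ∀ x, S (e x)}

theorem RulePT.rd' (hr : RulePT r) (he : DPT e) (hp : DPT p) (hs : DPT s) (j : Fin k) :
    DPT fun x => (r (e x) (p x) (s x)).rd j :=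
  DPT.comp (f := fun x => (⟨e x, p x, s x⟩ : Σ a, P a × S a)) (hr.rd j) (DPT.smk he (hp.pair hs))

theorem RulePT.fn' (hr : RulePT r) (he : DPT e) (hp : DPT p) (hs : DPT s)
    {y : ∀ x, Fin k → A (e x)} (hy : DPT y) : DPT fun x => (r (e x) (p x) (s x)).fn (y x) :=
  DPT.comp (f := fun x => (⟨e x, (p x, s x), y x⟩ : Σ a, (P a × S a) × (Fin k → A a))) hr.fn
    (DPT.smk he ((hp.pair hs).pair hy))

theorem RulePT.comap (hr : RulePT r) (he : DPT e) :
    RulePT (P := fun x => P (e x)) (S := fun x => S (e x)) (A := fun x => A (e x))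
      (B := fun x => B (e x)) fun x => r (e x) where
  rd j := hr.rd' (he.comp DPT.id.sfst) DPT.ssnd.fst DPT.ssnd.snd j
  fn := hr.fn' (he.comp DPT.id.sfst) DPT.ssnd.fst.fst DPT.ssnd.fst.snd DPT.ssnd.snd

/-- the value of a rule on words given by computable functions -/
theorem RulePT.eval (hr : RulePT r) (he : DPT e) (hp : DPT p) (hs : DPT s)
    {inp : ∀ x, Fin c → P (e x) → A (e x)} {W : ∀ x, P (e x) → A (e x)}
    (hi : ∀ i, DPT fun z : Σ x, P (e x) => inp z.1 i z.2)
    (hW : DPT fun z : Σ x, P (e x) => W z.1 z.2) :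
    DPT fun x => (r (e x) (p x) (s x)).eval (inp x) (W x) := by
  refine hr.fn' he hp hs (dpt_piMk fun j => ?_)
  have h := hr.rd' he hp hs j
  refine dpt_cases (f := fun (o : Option (Fin c)) x =>
    o.elim (W x) (inp x) ((r (e x) (p x) (s x)).rd j).2) h.fst fun o => ?_
  cases o with
  | none => exact DPT.app hW h.snd
  | some i => exact DPT.app (hi i) h.snd

/-- the value of a rule without inputs on a computed vector -/
theorem RulePT.eval0 {r : ∀ a, P a → S a → Rule 0 k (P a) (A a) (B a)} [∀ a, En (P a)]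
    [∀ a, EncInj (P a)] (hr : RulePT r) (hP : DPT fun a => elems (P a)) (he : DPT e) (hp : DPT p)
    (hs : DPT s) {W : ∀ x, Vec (P (e x)) (A (e x))} (hW : DPT W) :
    DPT fun x => (r (e x) (p x) (s x)).eval noInp (W x) :=
  hr.eval he hp hs (fun i => i.elim0) (dpt_vecEnt (hP.comp he) hW)

/-- For constant finite alphabets the function of a rule is a finite selection. -/
theorem RulePT.finSel {A B : Type} [Enc A] [Enc B] [Finite A] [Finite B] [EncInj B]
    {r : ∀ a, P a → S a → Rule c k (P a) A B}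
    (hr : RulePT (A := fun _ => A) (B := fun _ => B) r) (he : DPT e) (hp : DPT p) (hs : DPT s) :
    FinSel fun x => (r (e x) (p x) (s x)).fn :=
  FinSel.of_fun fun y => hr.fn' he hp hs (DPT.const y)

theorem LCode.IsPT.comap {L : ∀ a, LCode c k (P a) (S a) (A a)} (hL : LCode.IsPT L) (he : DPT e) :
    LCode.IsPT (P := fun x => P (e x)) (S := fun x => S (e x)) (A := fun x => A (e x))
      fun x => L (e x) :=
  ⟨hL.tst.comap he, hL.cor.comap he⟩

theorem LRLS.IsPT.comap {L : ∀ a, LRLS c k (P a) (S a) (A a)} (hL : LRLS.IsPT L) (he : DPT e) :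
    LRLS.IsPT (P := fun x => P (e x)) (S := fun x => S (e x)) (A := fun x => A (e x))
      fun x => L (e x) :=
  ⟨hL.code.comap he, hL.suc.comap he, hL.pre.comap he, hL.out.comap he,
    DPT.comp (f := fun x : Σ y, P (e y) => (⟨e x.1, x.2⟩ : Σ a, P a)) hL.st
      (DPT.smk (he.comp DPT.id.sfst) DPT.ssnd)⟩

theorem LBL.IsPT.comap {D : ℕ} {ℓ : α → ℕ} {X : α → Type} [∀ a, Enc (X a)]
    {M : ∀ a, LBL c (ℓ a) D (X a)} (hM : LBL.IsPT M) (he : DPT e) :
    LBL.IsPT (ℓ := fun x => ℓ (e x)) (X := fun x => X (e x)) fun x => M (e x) :=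
  ⟨hM.val.comap he, hM.suc.comap he, hM.pre.comap he,
    fun j => DPT.comp (f := fun x : Σ y, Fin (ℓ (e y)) => (⟨e x.1, x.2⟩ : Σ a, Fin (ℓ a)))
      (hM.inp j) (DPT.smk (he.comp DPT.id.sfst) DPT.ssnd),
    DPT.comp (f := fun x : Σ y, Fin (ℓ (e y)) => (⟨e x.1, x.2⟩ : Σ a, Fin (ℓ a))) hM.out
      (DPT.smk (he.comp DPT.id.sfst) DPT.ssnd),
    hM.first.comp he, hM.last.comp he⟩

end RulePT

end Vale.Agent.P330
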