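import Vale.Agent.P330.Core

/-!
P330: the statements of the parts of the construction.
-/

namespace Vale.Agent.P330

open Vale.Agent.Lib.PolyTime hiding C P
open Vale.Agent.Lib.Dep

/-- the rounded values -/
noncomputable def rnd {V : Type} (x : V → ℝ) : Vec V Bool := fun v => decide (1 / 2 < x v)

/-- A robust family of circuits with noisy gates. -/
structure TCOk (V : TF EOL) (g : ∀ I, V.T I → Gate (V.T I)) (dec : ∀ I, Vec (V.T I) Bool → List Bool)
    (η : ℝ) : Prop where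
  pos : 0 < η
  gate : GatePT fun x : Σ I, V.T I => g x.1 x.2
  decPT : DPT fun x : Σ I, Vec (V.T I) Bool => dec x.1 x.2
  sol : ∀ I (x : V.T I → ℝ), Unit01 x → frac (fun v => ¬ (g I v).Sat η x (x v)) ≤ η →
    I.Solution (dec I (rnd x))

/-- T0: from circuits with noisy gates to the final statements. -/
def TCStmt : Prop :=
  ∀ (V : TF EOL) (g : ∀ I, V.T I → Gate (V.T I)) (dec : ∀ I, Vec (V.T I) Bool → List Bool) (η : ℝ),
    TCOk V g dec η → GoalPoly ∧ (QL (fun I => Fintype.card (V.T I)) → Goal)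

/-- T3: samplers on every family of finite types. -/
def SampStmt : Prop :=
  ∀ η : ℝ, 0 < η → ∃ K : ℕ, 0 < K ∧ ∀ (α : Type) [Enc α] (C : TF α),
    ∃ nb : ∀ a, C.T a → Fin K → C.T a, (∀ i, DPT fun x : Σ a, C.T a => nb x.1 x.2 i) ∧
      ∀ a, Sampler η (nb a) ∧ ∀ i, Function.Bijective fun c => nb a c i

/-- The hypotheses of the Brouwer block on the external registers `t` (test), `k` (correction)
of the register `w`. -/
structure BHyp {C : Type} [Fintype C] (Valid : (C → Bool) → Prop) (h0 θ Cc h2 : ℝ)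
    (w k t : C → ℝ) : Prop where
  sound : mean t ≤ θ → ∃ u, Valid u ∧ tvd w u ≤ h0
  cor : ∀ u, Valid u → tvd w u ≤ h0 → tvd k u ≤ h2
  compl : ∀ u, Valid u → mean t ≤ Cc * pd w u + h2

/-- T4: the Brouwer block. -/
def BStmt : Prop :=
  ∀ Δ : ℝ, 0 < Δ → ∃ h1 : ℝ, 0 < h1 ∧ ∀ h0 θ Cc : ℝ, 0 < h0 → h0 ≤ h1 → 0 < θ → 0 ≤ Cc →
    ∃ (h2 η : ℝ) (T : BT), 0 < h2 ∧ 0 < η ∧
      ∀ (C : Type) [Fintype C] [Nonempty C] (K : ℕ) (nb : C → Fin K → C)
        (th : C → Fin (T.g + 1)) (st : C → Bool) (Valid : (C → Bool) → Prop)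
        (E : (C → Bool) → (C → Bool) → Prop) (x : C × (Fin (T.ρ + 2) ⊕ Fin 6) → ℝ),
        Sampler η nb → (∀ j, frac (fun c => th c = j) = 1 / (T.g + 1)) →
        (∀ u v, Valid u → Valid v → u ≠ v → ∀ j,
          Δ / (T.g + 1) ≤ frac fun c => th c = j ∧ u c ≠ v c) →
        (∀ u v, E u v → Valid u ∧ Valid v) → (∀ u v v', E u v → E u v' → v = v') →
        (∀ u u' v, E u v → E u' v → u = u') →
        Valid st → (∃ v, E st v) → (¬ ∃ u, E u st) →
        Unit01 x → (T.mod nb th st).Ok η x →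
        BHyp Valid h0 θ Cc h2 (reg x 0) (ext x 0) (ext x 2) →
        BHyp Valid h0 θ Cc h2 (reg x 1) (ext x 3) (ext x 5) →
        (∀ u v, E u v → tvd (reg x 0) u ≤ h0 → tvd (ext x 1) v ≤ h2) →
        (∀ u v, E u v → tvd (reg x 1) v ≤ h0 → tvd (ext x 4) u ≤ h2) →
        (∃ u, Valid u ∧ tvd (reg x 0) u ≤ h0 ∧ ¬ ∃ v, E u v) ∨
          ∃ v, Valid v ∧ v ≠ st ∧ tvd (reg x 1) v ≤ h0 ∧ ¬ ∃ u, E u v

/-- T5a: the physical realisation of test and correction of a code. The external register `none`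
holds the word, `some j` the input words. -/
def PhysCodeStmt : Prop :=
  ∀ (A : CT) (c k : ℕ) (K θ h : ℝ), 0 < θ → 0 < h →
    ∃ θ' Cc h1 : ℝ, 0 < θ' ∧ 0 ≤ Cc ∧ 0 < h1 ∧ ∀ (h2 : ℝ) (G : CT), 0 < h2 →
      ∃ (η : ℝ) (R : CT) (rk rt : R.T), 0 < η ∧
        ∀ (α : Type) [Enc α] (P S : TF α) (L : ∀ a, LCode c k (P.T a) (S.T a) A.T),
          LCode.IsPT L →
          ∃ m : ∀ a, Mod (Cell (P.T a) A.T (S.T a) G.T) R.T (Option (Fin c)), ModPT m ∧
            ∀ a (inp : Fin c → P.T a → A.T) (Δ : ℝ), (L a).Bal K → (L a).Good inp Δ θ h →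
              ∀ x, Unit01 x → (m a).Ok η x →
                (∀ j, tvd (ext x (some j)) (encb (S.T a) G.T (inp j)) ≤ η) →
                (mean (reg x rt) ≤ θ' → ∃ W, (L a).Valid inp W ∧
                  tvd (ext x none) (encb (S.T a) G.T W) ≤ 2 * mean (reg x rt) + h2) ∧
                (∀ W, (L a).Valid inp W → tvd (ext x none) (encb (S.T a) G.T W) ≤ h1 →
                  pd (reg x rk) (encb (S.T a) G.T W) ≤ h2) ∧
                ∀ W, (L a).Valid inp W →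
                  mean (reg x rt) ≤ Cc * pd (ext x none) (encb (S.T a) G.T W) + h2

/-- T5b: the physical realisation of a family of rules; the result is in the register `ro`. -/
def PhysRuleStmt : Prop :=
  ∀ (A : CT) (c k : ℕ) (K h2 : ℝ) (G : CT), 0 < h2 →
    ∃ (η : ℝ) (R : CT) (ro : R.T), 0 < η ∧
      ∀ (α : Type) [Enc α] (P S : TF α) (r : ∀ a, P.T a → S.T a → Rule c k (P.T a) A.T A.T),
        RulePT r →
        ∃ m : ∀ a, Mod (Cell (P.T a) A.T (S.T a) G.T) R.T (Option (Fin c)), ModPT m ∧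
          ∀ a (inp : Fin c → P.T a → A.T) (W W' : P.T a → A.T), RuleBal K (r a) →
            (∀ p s, (r a p s).eval inp W = W' p) →
            ∀ x, Unit01 x → (m a).Ok η x →
              (∀ j, tvd (ext x (some j)) (encb (S.T a) G.T (inp j)) ≤ η) →
              tvd (ext x none) (encb (S.T a) G.T W) ≤ η →
              pd (reg x ro) (encb (S.T a) G.T W') ≤ h2

/-- T5c: the gadget of a line system (Brouwer block with test, correction, successor,
predecessor and output). -/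
def GadgetStmt : Prop :=
  ∀ (A : CT) (c k : ℕ) (K Δ θ h : ℝ), 0 < Δ → 0 < θ → 0 < h → ∀ (h0 ho : ℝ) (G' : CT), 0 < h0 →
    0 < ho → ∃ (g : ℕ) (η : ℝ) (R : CT) (rX rY rO : R.T), 0 < η ∧
      ∀ (α : Type) [Enc α] (P S : TF α) (L : ∀ a, LRLS c k (P.T a) (S.T a) A.T), LRLS.IsPT L →
        ∃ m : ∀ a, Mod (Cell (P.T a) A.T (S.T a) (Fin (g + 1) × G'.T)) R.T (Fin c), ModPT m ∧
          ∀ a (inp : Fin c → P.T a → A.T), (L a).Bal K → (L a).Good inp Δ θ h →
            (L a).Start inp → ∀ x, Unit01 x → (m a).Ok η x →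
              (∀ j, tvd (ext x j) (encb (S.T a) (Fin (g + 1) × G'.T) (inp j)) ≤ η) →
              (∃ W, (L a).Valid inp W ∧ (¬ ∃ W', (L a).Step inp W W') ∧
                tvd (reg x rX) (encb (S.T a) (Fin (g + 1) × G'.T) W) ≤ h0 ∧
                ∀ U, (∀ p s, ((L a).out p s).eval inp W = U p) →
                  pd (reg x rO) (encb (S.T a) (Fin (g + 1) × G'.T) U) ≤ ho) ∨
              ∃ W, (L a).Valid inp W ∧ W ≠ (L a).st ∧ (¬ ∃ W', (L a).Step inp W' W) ∧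
                tvd (reg x rY) (encb (S.T a) (Fin (g + 1) × G'.T) W) ≤ h0

/-- T6a: exact decoding by iterated correction. -/
def ExactStmt : Prop :=
  ∀ (c k : ℕ) (α : Type) [Enc α] (P S : TF α) (A : α → Type) [∀ a, Enc (A a)]
    [∀ a, EncInj (A a)] (L : ∀ a, LCode c k (P.T a) (S.T a) (A a)), LCode.IsPT L →
    (∃ b : α → ℕ, PBd b ∧ ∀ a (y : A a), esize y ≤ b a) →
    ∃ ex : ∀ a, Vec (P.T a) (A a) → Vec (P.T a) (A a),
      DPT (fun x : Σ a, Vec (P.T a) (A a) => ex x.1 x.2) ∧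
      ∀ a inp (Δ θ h : ℝ) (W W0 : P.T a → A a), (L a).Good inp Δ θ h → (L a).Valid inp W →
        frac (fun p => W0 p ≠ W p) ≤ h → ex a W0 = W

/-- T7a: End-of-Line as a local Boolean line system of quasi-linear size. -/
def EolStmt : Prop :=
  ∃ (D : ℕ) (X : TF EOL) (M : ∀ I, LBL 0 0 D (X.T I)) (dec : ∀ I, Vec (X.T I) Bool → List Bool),
    LBL.IsPT (ℓ := fun _ => 0) M ∧ QL (fun I => Fintype.card (X.T I)) ∧
    DPT (fun x : Σ I, Vec (X.T I) Bool => dec x.1 x.2) ∧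
    ∀ I, (M I).WF noSym ∧ (∀ x, (M I).Valid noSym x → x (M I).last = false) ∧
      ∀ x, (M I).End noSym x → I.Solution (dec I x)

/-- T7b: evaluation of a polynomial time function as a local Boolean line system. -/
def EvalStmt : Prop :=
  ∀ (c : ℕ) (F : List (List Bool) → List Bool), DPT F →
    ∃ (D : ℕ) (X : TF Un) (M : ∀ a : Un, LBL c a.v D (X.T a)), LBL.IsPT (ℓ := Un.v) M ∧
      ∀ a, (M a).WF0 ∧ ∀ σ, (M a).WF σ ∧ (M a).Evals σ (appF F σ)

/-- What the inner construction gives for a family of local Boolean line systems. -/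
structure BohrOk {α : Type} [Enc α] {c D k : ℕ} {ℓ : α → ℕ} {X : TF α}
    (M : ∀ a, LBL c (ℓ a) D (X.T a)) (A : CT) (K Δ θ h : ℝ) (P S : TF α)
    (L : ∀ a, LRLS c k (P.T a) (S.T a) A.T) (E : ∀ a, LCode 0 k (P.T a) (S.T a) A.T)
    (sym : ∀ a, Sym (ℓ a) → P.T a → A.T) (dec : ∀ a, Vec (P.T a) A.T → Vec (X.T a) Bool)
    (decE : ∀ a, Vec (P.T a) A.T → Sym (ℓ a)) : Prop where
  ptL : LRLS.IsPT L
  ptE : LCode.IsPT E
  ptSym : DPT fun x : Σ a, Sym (ℓ a) × P.T a => sym x.1 x.2.1 x.2.2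
  ptDec : DPT fun x : Σ a, Vec (P.T a) A.T => dec x.1 x.2
  ptDecE : DPT fun x : Σ a, Vec (P.T a) A.T => decE x.1 x.2
  balL : ∀ a, (L a).Bal K
  balE : ∀ a, (E a).Bal K
  goodE : ∀ a, (E a).Good noInp Δ θ h
  validE : ∀ a W, (E a).Valid noInp W ↔ ∃ σ, W = sym a σ
  decE_sym : ∀ a σ, decE a (sym a σ) = σ
  good : ∀ a σ, (M a).WF σ → (L a).Good (fun j => sym a (σ j)) Δ θ h
  start : ∀ a σ, (M a).WF σ → (L a).Start fun j => sym a (σ j)
  ends : ∀ a σ, (M a).WF σ → ∀ W, (L a).End (fun j => sym a (σ j)) W → (M a).End σ (dec a W)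
  evals : ∀ a σ, (M a).WF σ → ∀ τ, (M a).Evals σ τ →
    (L a).Evals (fun j => sym a (σ j)) (sym a τ)

/-- T8: the inner robust line system of polynomial size. -/
def BohrStmt : Prop :=
  ∀ c D : ℕ, ∃ (A : CT) (k : ℕ) (K Δ θ h : ℝ), 0 < Δ ∧ 0 < θ ∧ 0 < h ∧
    ∀ (α : Type) [Enc α] (ℓ : α → ℕ) (X : TF α) (M : ∀ a, LBL c (ℓ a) D (X.T a)),
      DPT ℓ → PBd ℓ → LBL.IsPT M → (∀ a, (M a).WF0) →
      ∃ (P S : TF α) (L : ∀ a, LRLS c k (P.T a) (S.T a) A.T)
        (E : ∀ a, LCode 0 k (P.T a) (S.T a) A.T) (sym : ∀ a, Sym (ℓ a) → P.T a → A.T)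
        (dec : ∀ a, Vec (P.T a) A.T → Vec (X.T a) Bool)
        (decE : ∀ a, Vec (P.T a) A.T → Sym (ℓ a)), BohrOk M A K Δ θ h P S L E sym dec decE

/-- What is required of an outer system. -/
structure OuterOk {c : ℕ} (O : OFam EOL c) (K Δ θ h : ℝ)
    (dec : ∀ I, Vec (O.Q.T I) (Sym (O.ℓ I)) → List Bool) : Prop where
  posΔ : 0 < Δ
  posθ : 0 < θ
  posh : 0 < h
  pt : O.IsPT
  len : PL O.ℓ
  card : QL fun I => Fintype.card (O.Q.T I)
  ptDec : DPT fun x : Σ I, Vec (O.Q.T I) (Sym (O.ℓ I)) => dec x.1 x.2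
  bal : ∀ I, (O.sys I).Bal K
  good : ∀ I, (O.sys I).Good noInp Δ θ h
  start : ∀ I, (O.sys I).Start noInp
  ends : ∀ I W, (O.sys I).End noInp W → I.Solution (dec I W)

/-- T10: the outer robust line system of quasi-linear size. -/
def OuterStmt : Prop :=
  ∃ (c : ℕ) (O : OFam EOL c) (K Δ θ h : ℝ) (dec : ∀ I, Vec (O.Q.T I) (Sym (O.ℓ I)) → List Bool),
    OuterOk O K Δ θ h dec

/-- T6b: the assembly of the polynomial form. -/
def PolyAsm : Prop :=
  TCStmt → GadgetStmt → ExactStmt → EolStmt → BohrStmt → GoalPoly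

/-- T9: the composition. -/
def CompAsm : Prop :=
  TCStmt → SampStmt → BStmt → PhysCodeStmt → GadgetStmt → ExactStmt → EvalStmt → BohrStmt →
    OuterStmt → Goal

end Vale.Agent.P330
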