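import Vale.Agent.P330.Stmts

/-!
P330, T0: from circuits with noisy gates to rounded systems and the final statements.
-/

namespace Vale.Agent.P330

open Vale.Agent.Lib.PolyTime hiding C P
open Vale.Agent.Lib.Dep

namespace TC

variable {α : Type} [Enc α]

theorem elems_ne (V : TF α) (a : α) : elems (V.T a) ≠ [] := by
  obtain ⟨v⟩ := V.ne a
  exact List.ne_nil_of_mem (En.complete v)

/-- the first element -/
def d0 (V : TF α) (a : α) : V.T a := (elems (V.T a)).head (elems_ne V a)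

theorem dpt_d0 (V : TF α) : DPT (d0 V) :=
  DPT.of_rawPT (PT.headD V.pt.listPT (PT.const ⟨[]⟩)) fun a => by
    rw [d0]
    generalize elems_ne V a = h
    revert h
    cases elems (V.T a) with
    | nil => intro h; exact absurd rfl h
    | cons x l => intro _; rfl

/-- the number of an element -/
def ix (V : TF α) (a : α) (v : V.T a) : ℕ := (elems (V.T a)).idxOf v

/-- the element with a given number -/
def vx (V : TF α) (a : α) (i : ℕ) : V.T a := (elems (V.T a)).getD i (d0 V a)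

theorem ix_lt (V : TF α) (a : α) (v : V.T a) : ix V a v < (elems (V.T a)).length :=
  List.idxOf_lt_length_iff.2 (En.complete v)

theorem vx_ix (V : TF α) (a : α) (v : V.T a) : vx V a (ix V a v) = v := by
  rw [vx, List.getD_eq_getElem _ _ (ix_lt V a v)]
  exact List.getElem_idxOf _

theorem length_elems (V : TF α) (a : α) : (elems (V.T a)).length = Fintype.card (V.T a) := by
  rw [← List.toFinset_card_of_nodup En.nodup, ← Finset.card_univ]
  congr 1
  exact Finset.eq_univ_iff_forall.2 fun v => List.mem_toFinset.2 (En.complete v)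

theorem idxOf_map {β γ : Type} [DecidableEq β] [DecidableEq γ] {f : β → γ}
    (hf : Function.Injective f) (l : List β) (x : β) : (l.map f).idxOf (f x) = l.idxOf x := by
  induction l with
  | nil => rfl
  | cons y l ih =>
    rw [List.map_cons, List.idxOf_cons, List.idxOf_cons, ih]
    congr 1
    rw [Bool.eq_iff_iff, beq_iff_eq, beq_iff_eq, hf.eq_iff]

theorem dpt_ix (V : TF α) : DPT fun x : Σ a, V.T a => ix V x.1 x.2 := by
  have h1 : DPT fun x : Σ a, V.T a => (elems (V.T x.1)).map fun v => wcode (enc v) :=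
    DPT.map (V.pt.comp DPT.id.sfst) (DPT.ofPT (DPT.ssnd.val).rawPT.wcode)
  have h2 : DPT fun x : Σ a, V.T a => wcode (enc x.2) := DPT.ofPT (DPT.ssnd).rawPT.wcode
  exact (DPT.ofPT (PT.idxOf h1.toPT h2.toPT)).congr fun x =>
    idxOf_map (f := fun v : V.T x.1 => wcode (enc v)) (fun _ _ h => EncInj.inj (wcode_inj h)) _ _

theorem dpt_vx (V : TF α) : DPT fun p : α × ℕ => vx V p.1 p.2 :=
  DPT.getD (V.pt.comp DPT.id.fst) DPT.id.snd ((dpt_d0 V).comp DPT.id.fst)

/-- the first `k` readings as real numbers -/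
noncomputable def rdg {n L : ℕ} (y : Fin n → Fin (L + 1)) (k : ℕ) : List ℝ :=
  (List.ofFn fun d => ((y d : ℕ) : ℝ) / L).take k

/-- the rounded system of a family of gates -/
noncomputable def sys (V : TF α) (g : ∀ a, V.T a → Gate (V.T a)) (n L : ℕ) (a : α) :
    RS (Fin n) L where
  m := (elems (V.T a)).length
  src i d := ix V a ((g a (vx V a i)).src.getD d (d0 V a))
  F i y := (g a (vx V a i)).fn (rdg y (g a (vx V a i)).src.length)

theorem sys_wf (V : TF α) (g : ∀ a, V.T a → Gate (V.T a)) (n L : ℕ) (a : α) :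
    (sys V g n L a).WF :=
  ⟨List.length_pos_of_ne_nil (elems_ne V a), fun _ _ _ => ix_lt V a _⟩

theorem sys_pt (V : TF α) (g : ∀ a, V.T a → Gate (V.T a)) (n L : ℕ)
    (hg : GatePT fun x : Σ a, V.T a => g x.1 x.2) (hn : ∀ a v, (g a v).src.length ≤ n) :
    RS.IsPT (sys V g n L) := by
  have h0 : DPT fun p : α × ℕ => (⟨p.1, vx V p.1 p.2⟩ : Σ a, V.T a) :=
    DPT.smk DPT.id.fst (dpt_vx V)
  have h1 : DPT fun p : α × ℕ => (g p.1 (vx V p.1 p.2)).src := hg.src.comp h0
  refine ⟨V.pt.length, pbd_length V.pt, fun d => ?_, fun y => ?_⟩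
  · exact (dpt_ix V).comp (f := fun p : α × ℕ =>
      (⟨p.1, (g p.1 (vx V p.1 p.2)).src.getD d (d0 V p.1)⟩ : Σ a, V.T a))
      (DPT.smk DPT.id.fst (h1.getD (DPT.const _) ((dpt_d0 V).comp DPT.id.fst)))
  · obtain ⟨N, t, k, ht, hk⟩ := hg.fn
    have h2 : DPT fun p : α × ℕ => (t ⟨p.1, vx V p.1 p.2⟩,
        (⟨(g p.1 (vx V p.1 p.2)).src.length, Nat.lt_succ_of_le (hn _ _)⟩ : Fin (n + 1))) :=
      (ht.comp h0).pair (h1.length.of_enc fun _ => rfl)
    exact (dpt_finComp (fun c : Fin N × Fin (n + 1) => k c.1 (rdg y c.2)) h2).congr fun p => by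
      rw [← hk]; rfl

theorem sat_of_ok (V : TF α) (g : ∀ a, V.T a → Gate (V.T a)) {n L : ℕ} {η : ℝ} (hL : 0 < L)
    (hη : 1 / (L : ℝ) ≤ η) (a : α) (v : V.T a) (hn : (g a v).src.length ≤ n) (x : ℕ → ℕ)
    (h : (sys V g n L a).Ok x (ix V a v)) :
    (g a v).Sat η (fun u => (x (ix V a u) : ℝ) / L) ((x (ix V a v) : ℝ) / L) := by
  have hL' : (0 : ℝ) < L := by exact_mod_cast hL
  intro b hb
  have h1 := h b fun y hy => by
    simp only [sys, vx_ix] at hy ⊢
    refine hb _ (List.forall₂_of_length_eq_of_get (by simp [rdg, hn]) fun i hi hi' => ?_)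
    obtain ⟨h2, h3⟩ := hy ⟨i, hi.trans_le hn⟩
    rw [List.getD_eq_getElem _ _ hi] at h2 h3
    simp only [rdg, List.get_eq_getElem, List.getElem_take, List.getElem_ofFn]
    generalize x (ix V a (g a v).src[i]) = s at h2 h3
    generalize ((y ⟨i, _⟩ : Fin (L + 1)) : ℕ) = r at h2 h3
    have h4 : (r : ℝ) ≤ s := by exact_mod_cast h2
    have h5 : (s : ℝ) ≤ r + 1 := by exact_mod_cast h3
    rw [← sub_div, abs_div, abs_of_pos hL']
    exact (div_le_div_of_nonneg_right (abs_le.2 ⟨by linarith, by linarith⟩) hL'.le).trans hη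
  rw [h1]
  cases b
  · simp [bv]
  · simp [bv, hL'.ne']

/-- the decoder of the rounded system -/
def dcd (V : TF α) (dec : ∀ a, Vec (V.T a) Bool → List Bool) (L : ℕ) (p : α × List ℕ) : List Bool :=
  dec p.1 fun v => decide (L < 2 * p.2.getD (ix V p.1 v) 0)

theorem dpt_dcd (V : TF α) (dec : ∀ a, Vec (V.T a) Bool → List Bool) (L : ℕ)
    (hd : DPT fun x : Σ a, Vec (V.T a) Bool => dec x.1 x.2) : DPT (dcd V dec L) := by
  have h1 : DPT fun q : Σ p : α × List ℕ, {v // v ∈ elems (V.T p.1)} => ix V q.1.1 q.2.1 :=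
    (dpt_ix V).comp (f := fun q : Σ p : α × List ℕ, {v // v ∈ elems (V.T p.1)} =>
      (⟨q.1.1, q.2.1⟩ : Σ a, V.T a)) (DPT.smk DPT.id.sfst.fst DPT.ssnd.val)
  have h2 : DPT fun p : α × List ℕ => (elems (V.T p.1)).map fun v =>
      decide (L < 2 * p.2.getD (ix V p.1 v) 0) :=
    DPT.map (V.pt.comp DPT.id.fst) (DPT.decide (DPr.lt (DPT.const _)
      ((DPT.const _).natMul (DPT.getD DPT.id.sfst.snd h1 (DPT.const _)))))
  exact hd.comp (f := fun p : α × List ℕ => (⟨p.1, fun v =>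
    decide (L < 2 * p.2.getD (ix V p.1 v) 0)⟩ : Σ a, Vec (V.T a) Bool))
    (DPT.smk DPT.id.fst (h2.of_enc fun _ => rfl))

theorem sol {V : TF EOL} {g : ∀ I, V.T I → Gate (V.T I)} {dec : ∀ I, Vec (V.T I) Bool → List Bool}
    {η : ℝ} (h : TCOk V g dec η) {n L : ℕ} (hL : 0 < L) (hη : 1 / (L : ℝ) ≤ η)
    (hn : ∀ I v, (g I v).src.length ≤ n) (I : EOL) (x : ℕ → ℕ) (hx : ∀ i, x i ≤ L)
    (hb : (((sys V g n L I).bad x).card : ℝ) ≤ η * (sys V g n L I).m) :
    I.Solution (dcd V dec L (I, (List.range (sys V g n L I).m).map x)) := by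
  have hL' : (0 : ℝ) < L := by exact_mod_cast hL
  have h1 := h.sol I (fun u => (x (ix V I u) : ℝ) / L)
    (fun u => ⟨by positivity, div_le_one_of_le₀ (by exact_mod_cast hx _) hL'.le⟩) (by
      have h2 : (0 : ℝ) < Fintype.card (V.T I) := by exact_mod_cast Fintype.card_pos
      rw [frac, div_le_iff₀ h2, ← length_elems]
      refine le_trans (Nat.cast_le.2 (Finset.card_le_card_of_injOn (ix V I) (fun v hv => ?_)
        fun u _ v _ huv => ?_)) hb
      · simp only [Finset.coe_filter, Finset.mem_univ, true_and, Set.mem_ofPred_eq] at hv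
        simp only [RS.bad, Finset.coe_filter, Finset.mem_range, Set.mem_ofPred_eq]
        exact ⟨ix_lt V I v, fun hh => hv (sat_of_ok V g hL hη I v (hn I v) x hh)⟩
      · rw [← vx_ix V I u, huv, vx_ix])
  have h3 : (fun v => decide (L < 2 * ((List.range (sys V g n L I).m).map x).getD (ix V I v) 0) :
      Vec (V.T I) Bool) = rnd fun u => (x (ix V I u) : ℝ) / L := by
    funext v
    have h4 : ix V I v < ((List.range (sys V g n L I).m).map x).length := by
      simpa [sys] using ix_lt V I v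
    rw [List.getD_eq_getElem _ _ h4, List.getElem_map, List.getElem_range, rnd, decide_eq_decide,
      div_lt_div_iff₀ (by norm_num) hL', one_mul, mul_comm]
    exact_mod_cast Iff.rfl
  rw [dcd]
  exact h3 ▸ h1

end TC

theorem tcStmt : TCStmt := by
  intro V g dec η h
  obtain ⟨n, hn⟩ := h.gate.len
  have hn' : ∀ I v, (g I v).src.length ≤ n := fun I v => hn ⟨I, v⟩
  have h0 := h.pos
  have hL : 0 < ⌈1 / η⌉₊ := Nat.ceil_pos.2 (by positivity)
  have hη : 1 / (⌈1 / η⌉₊ : ℝ) ≤ η :=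
    (one_div_le (by exact_mod_cast hL) h0).2 (Nat.le_ceil _)
  exact ⟨goalPoly_of_RS hL h0 _ (TC.sys_wf V g n _) (TC.sys_pt V g n _ h.gate hn') _
      (TC.dpt_dcd V dec _ h.decPT) (TC.sol h hL hη hn'),
    fun hQ => goal_of_RS hL h0 _ (TC.sys_wf V g n _) (TC.sys_pt V g n _ h.gate hn')
      (hQ.mono fun I => (TC.length_elems V I).le) _ (TC.dpt_dcd V dec _ h.decPT)
      (TC.sol h hL hη hn')⟩

end Vale.Agent.P330
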