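import Vale.Agent.P330.Defs
import Vale.Agent.Lib.Dep.Alg
import Vale.Agent.Lib.PolyTime.TypedTM2

/-!
P330: the codes of the statement in the polynomial time layer; access to the parts of an instance,
evaluation of circuits, construction of gates; quasi-linear and polylogarithmic quantities.
-/

namespace Vale.Agent.P330

open Vale.Agent.Lib.NP
open Vale.Agent.Lib.PolyTime hiding C P
open Vale.Agent.Lib.Dep

theorem pairW_eq : pairW = pr := by
  funext x y
  induction x with
  | nil => rfl
  | cons b x ih => simp [pairW, pr, ih]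

theorem listW_eq {κ : Type} [Enc κ] (l : List κ) : listW (l.map enc) = enc l := by
  induction l with
  | nil => rfl
  | cons a l ih => rw [List.map_cons, listW, ih, pairW_eq, enc_cons]

instance : Enc ℚ≥0 := ⟨ratW⟩
instance : Enc BGate := ⟨BGate.code⟩
instance {n : ℕ} : Enc (BCirc n) := ⟨BCirc.code⟩
instance : Enc EOL := ⟨EOL.code⟩
instance : Enc GGate := ⟨GGate.code⟩
instance : Enc GCirc := ⟨GCirc.code⟩

/-- the type of a Boolean gate: `0` and, `1` or, `2` not -/
def BGate.tag : BGate → ℕ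
  | .and .. => 0
  | .or .. => 1
  | .not .. => 2

/-- the first input wire -/
def BGate.fst : BGate → ℕ
  | .and a _ | .or a _ | .not a => a

/-- the second input wire (`0` for a negation) -/
def BGate.snd : BGate → ℕ
  | .and _ b | .or _ b => b
  | .not _ => 0

theorem enc_rat (q : ℚ≥0) : enc q = enc (q.num, q.den) := by
  rw [enc_pair, ← pairW_eq]; rfl

theorem ratsW_eq (l : List ℚ≥0) : ratsW l = enc l := listW_eq l

theorem enc_bgate (g : BGate) : enc g = enc (g.tag :: g.ins) := by
  rw [← listW_eq]; cases g <;> rfl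

theorem enc_bcirc {n : ℕ} (C : BCirc n) : enc C = enc (C.gates, C.outs) := by
  rw [enc_pair, ← listW_eq, ← listW_eq, ← pairW_eq]; rfl

theorem enc_eol (I : EOL) : enc I = enc (I.n, I.S, I.P) := by
  rw [enc_pair, enc_pair, ← pairW_eq]; rfl

theorem enc_ggate (g : GGate) : enc g = enc (g.tag, g.par, g.ins, g.out) := by
  rw [enc_pair, enc_pair, enc_pair, ← pairW_eq, ← ratsW_eq, ← listW_eq]; rfl

theorem enc_gcirc (G : GCirc) : enc G = enc (Un.mk G.nodes, G.gates) := by
  rw [enc_pair, ← pairW_eq, ← listW_eq]; rfl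

theorem BGate.eval_eq (w : List Bool) (g : BGate) : g.eval w =
    if g.tag = 0 then w.getD g.fst false && w.getD g.snd false
    else if g.tag = 1 then w.getD g.fst false || w.getD g.snd false else !w.getD g.fst false := by
  cases g <;> rfl

/-- the values of all wires -/
def BCirc.wires {n : ℕ} (C : BCirc n) (v : List Bool) : List Bool :=
  C.gates.foldl (fun w g => w ++ [g.eval w]) v

theorem BCirc.eval_eq {n : ℕ} (C : BCirc n) (v : List Bool) :
    C.eval v = C.outs.map fun o => (C.wires v).getD o false := rfl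

theorem BCirc.length_eval {n : ℕ} (C : BCirc n) (v : List Bool) : (C.eval v).length = n := by
  rw [BCirc.eval, List.length_map, C.length_outs]

theorem length_foldl_snoc {κ ι : Type} (f : List κ → ι → κ) (l : List ι) (v : List κ) :
    (l.foldl (fun w g => w ++ [f w g]) v).length = v.length + l.length := by
  induction l generalizing v with
  | nil => rfl
  | cons g l ih => rw [List.foldl_cons, ih, List.length_append, List.length_cons]; simp; omega

section PT

variable {α : Type} [Enc α]

@[fun_prop]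
theorem dpt_num {q : α → ℚ≥0} (h : DPT q) : DPT fun a => (q a).num :=
  (h.of_enc (g := fun a => ((q a).num, (q a).den)) fun _ => enc_rat _).fst

@[fun_prop]
theorem dpt_den {q : α → ℚ≥0} (h : DPT q) : DPT fun a => (q a).den :=
  (h.of_enc (g := fun a => ((q a).num, (q a).den)) fun _ => enc_rat _).snd

theorem dpt_tagIns {g : α → BGate} (h : DPT g) : DPT fun a => (g a).tag :: (g a).ins :=
  h.of_enc fun _ => enc_bgate _

@[fun_prop]
theorem dpt_btag {g : α → BGate} (h : DPT g) : DPT fun a => (g a).tag :=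
  (DPT.getD (dpt_tagIns h) (DPT.const 0) (DPT.const 0)).congr fun _ => rfl

@[fun_prop]
theorem dpt_bins {g : α → BGate} (h : DPT g) : DPT fun a => (g a).ins := (dpt_tagIns h).tail

@[fun_prop]
theorem dpt_bfst {g : α → BGate} (h : DPT g) : DPT fun a => (g a).fst :=
  (DPT.getD (dpt_tagIns h) (DPT.const 1) (DPT.const 0)).congr fun a => by cases g a <;> rfl

@[fun_prop]
theorem dpt_bsnd {g : α → BGate} (h : DPT g) : DPT fun a => (g a).snd :=
  (DPT.getD (dpt_tagIns h) (DPT.const 2) (DPT.const 0)).congr fun a => by cases g a <;> rfl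

@[fun_prop]
theorem dpt_beval {g : α → BGate} {w : α → List Bool} (hg : DPT g) (hw : DPT w) :
    DPT fun a => (g a).eval (w a) := by
  simp only [BGate.eval_eq]
  fun_prop

variable {n : α → ℕ}

@[fun_prop]
theorem dpt_gates {C : ∀ a, BCirc (n a)} (h : DPT C) : DPT fun a => (C a).gates :=
  (h.of_enc (g := fun a => ((C a).gates, (C a).outs)) fun _ => enc_bcirc _).fst

@[fun_prop]
theorem dpt_outs {C : ∀ a, BCirc (n a)} (h : DPT C) : DPT fun a => (C a).outs :=
  (h.of_enc (g := fun a => ((C a).gates, (C a).outs)) fun _ => enc_bcirc _).snd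

theorem esize_boolList (l : List Bool) : esize l = 3 * l.length := by
  rw [esize_list, mul_comm]
  exact (congrArg List.sum (List.map_congr_left (g := fun _ => 3) fun _ _ => rfl)).trans (by simp)

@[fun_prop]
theorem dpt_wires {C : ∀ a, BCirc (n a)} {v : α → List Bool} (h : DPT C) (hv : DPT v) :
    DPT fun a => (C a).wires (v a) := by
  refine DPT.foldl (dpt_gates h) hv (by fun_prop)
    (b := fun a => 3 * ((v a).length + (C a).gates.length)) (by fun_prop) fun a i => ?_
  rw [esize_boolList, length_foldl_snoc (fun w (g : BGate) => g.eval w)]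
  have := List.length_take_le' i (C a).gates
  omega

@[fun_prop]
theorem dpt_eval {C : ∀ a, BCirc (n a)} {v : α → List Bool} (h : DPT C) (hv : DPT v) :
    DPT fun a => (C a).eval (v a) := by
  simp only [BCirc.eval_eq]
  fun_prop

theorem dpt_eol {I : α → EOL} (h : DPT I) : DPT fun a => ((I a).n, (I a).S, (I a).P) :=
  h.of_enc fun _ => enc_eol _

@[fun_prop]
theorem dpt_n {I : α → EOL} (h : DPT I) : DPT fun a => (I a).n := (dpt_eol h).fst

@[fun_prop]
theorem dpt_S {I : α → EOL} (h : DPT I) : DPT fun a => (I a).S := (dpt_eol h).snd.fst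

@[fun_prop]
theorem dpt_P {I : α → EOL} (h : DPT I) : DPT fun a => (I a).P := (dpt_eol h).snd.snd

@[fun_prop]
theorem pbd_n {I : α → EOL} (h : DPT I) : PBd fun a => (I a).n :=
  (pbd_length (dpt_outs (dpt_S h))).mono fun a => (I a).S.length_outs.ge

theorem dpt_ggate {g : α → GGate} (h1 : DPT fun a => (g a).tag) (h2 : DPT fun a => (g a).par)
    (h3 : DPT fun a => (g a).ins) (h4 : DPT fun a => (g a).out) : DPT g :=
  (h1.pair (h2.pair (h3.pair h4))).of_enc fun _ => (enc_ggate _).symm

theorem dpt_gcirc {G : α → GCirc} (h1 : DPT fun a => (G a).nodes) (h2 : PBd fun a => (G a).nodes)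
    (h3 : DPT fun a => (G a).gates) : DPT G :=
  ((DPT.ofPT (PT.mkUn h1.toPT h2)).pair h3).of_enc fun _ => (enc_gcirc _).symm

/-- case distinction over a finite type -/
theorem dpt_finCase {γ β : Type} [Enc γ] [Enc β] [Finite γ] [EncInj γ] {c : α → γ} (hc : DPT c)
    {f : γ → α → β} (hf : ∀ x, DPT (f x)) : DPT fun a => f (c a) a :=
  DPT.ofPT (PT.finCase hc.toPT fun x => (hf x).toPT)

/-- any function of a value in a finite type -/
theorem dpt_finComp {γ β : Type} [Enc γ] [Enc β] [Finite γ] [EncInj γ] (f : γ → β) {c : α → γ}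
    (hc : DPT c) : DPT fun a => f (c a) := DPT.ofPT (PT.finComp f hc.toPT)

/-- a function on a finite type, given pointwise -/
theorem dpt_funMk {S T : Type} [Fintype S] [Enc T] {g : α → S → T}
    (h : ∀ s, DPT fun a => g a s) : DPT g := DPT.ofPT (PT.funMk fun s => (h s).toPT)

theorem dpt_funAt {S T : Type} [Fintype S] [Enc T] {g : α → S → T} (h : DPT g) (s : S) :
    DPT fun a => g a s := DPT.ofPT (PT.funAt h.toPT s)

end PT

/-! ### Sizes -/

/-- the length of the instance -/
abbrev EOL.N (I : EOL) : ℕ := I.code.length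

theorem EOL.esize_eq (I : EOL) : esize I = I.N := rfl

theorem EOL.size_le (I : EOL) : 3 * I.n + I.S.gates.length + I.P.gates.length + 4 ≤ I.N := by
  have h1 := length_le_esize I.S.gates
  have h2 := length_le_esize I.P.gates
  have h3 := length_le_esize I.S.outs
  have h4 := length_le_esize I.P.outs
  have h5 : esize I = esize (I.n, (I.S.gates, I.S.outs), (I.P.gates, I.P.outs)) := by
    simp only [esize, enc_eol, enc_pair, enc_bcirc]
  rw [I.S.length_outs] at h3
  rw [I.P.length_outs] at h4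
  simp only [esize_pair] at h5
  rw [← I.esize_eq]
  omega

theorem EOL.two_le_log (I : EOL) : 2 ≤ Nat.log 2 I.N :=
  (Nat.le_log_iff_pow_le (by norm_num) (by have := I.size_le; omega)).2
    (by have := I.size_le; omega)

/-- polylogarithmic quantities -/
@[fun_prop]
def PL (f : EOL → ℕ) : Prop := ∃ c, ∀ I, f I ≤ Nat.log 2 I.N ^ c

/-- quasi-linear quantities -/
def QL (f : EOL → ℕ) : Prop := ∃ c, ∀ I, f I ≤ I.N * Nat.log 2 I.N ^ c

theorem PL.mono {f g : EOL → ℕ} (h : PL g) (h' : ∀ I, f I ≤ g I) : PL f :=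
  h.imp fun _ hc I => (h' I).trans (hc I)

theorem QL.mono {f g : EOL → ℕ} (h : QL g) (h' : ∀ I, f I ≤ g I) : QL f :=
  h.imp fun _ hc I => (h' I).trans (hc I)

@[fun_prop]
theorem PL.const (c : ℕ) : PL fun _ => c :=
  ⟨c, fun I => Nat.lt_two_pow_self.le.trans (Nat.pow_le_pow_left I.two_le_log c)⟩

theorem PL.log : PL fun I => Nat.log 2 I.N := ⟨1, fun _ => (pow_one _).ge⟩

@[fun_prop]
theorem PL.mul {f g : EOL → ℕ} (hf : PL f) (hg : PL g) : PL fun I => f I * g I := by
  obtain ⟨c, hc⟩ := hf
  obtain ⟨d, hd⟩ := hg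
  exact ⟨c + d, fun I => by rw [pow_add]; exact Nat.mul_le_mul (hc I) (hd I)⟩

theorem add_le_pow {L c d x y : ℕ} (hL : 2 ≤ L) (N : ℕ) (hx : x ≤ N * L ^ c) (hy : y ≤ N * L ^ d) :
    x + y ≤ N * L ^ (c + d + 1) := by
  have h1 : L ^ c ≤ L ^ (c + d) := Nat.pow_le_pow_right (by omega) (by omega)
  have h2 : L ^ d ≤ L ^ (c + d) := Nat.pow_le_pow_right (by omega) (by omega)
  have h3 := Nat.mul_le_mul_left N h1
  have h4 := Nat.mul_le_mul_left N h2
  have h5 := Nat.mul_le_mul_left (N * L ^ (c + d)) hL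
  rw [pow_succ, ← mul_assoc]
  omega

@[fun_prop]
theorem PL.add {f g : EOL → ℕ} (hf : PL f) (hg : PL g) : PL fun I => f I + g I := by
  obtain ⟨c, hc⟩ := hf
  obtain ⟨d, hd⟩ := hg
  exact ⟨c + d + 1, fun I => by
    simpa using add_le_pow I.two_le_log 1 (by simpa using hc I) (by simpa using hd I)⟩

@[fun_prop]
theorem PL.pow {f : EOL → ℕ} (hf : PL f) (k : ℕ) : PL fun I => f I ^ k := by
  obtain ⟨c, hc⟩ := hf
  exact ⟨c * k, fun I => by rw [pow_mul]; exact Nat.pow_le_pow_left (hc I) k⟩

/-- The binary length of a polynomially bounded number is polylogarithmic. -/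
theorem PL.size {f : EOL → ℕ} (hf : PBd f) : PL fun I => Nat.size (f I) := by
  obtain ⟨c, hc⟩ := hf
  refine (((PL.log.add (PL.const 2)).mul (PL.const c)).add (PL.const 1)).mono
    fun I => Nat.size_le.2 ((hc I).trans_lt ?_)
  have h1 : I.N < 2 ^ (Nat.log 2 I.N + 1) := Nat.lt_pow_succ_log_self (by norm_num) _
  have h2 : I.N + 2 ≤ 2 ^ (Nat.log 2 I.N + 2) := by
    have := I.size_le
    have h3 : 2 ^ 1 ≤ 2 ^ (Nat.log 2 I.N + 1) := Nat.pow_le_pow_right (by norm_num) (by omega)
    rw [pow_succ 2 (Nat.log 2 I.N + 1)]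
    omega
  refine (Nat.pow_le_pow_left h2 c).trans_lt ?_
  rw [← pow_mul]
  exact Nat.pow_lt_pow_right (by norm_num) (Nat.lt_succ_self _)

theorem QL.N : QL EOL.N := ⟨0, fun _ => by simp⟩

theorem QL.mul {f g : EOL → ℕ} (hf : QL f) (hg : PL g) : QL fun I => f I * g I := by
  obtain ⟨c, hc⟩ := hf
  obtain ⟨d, hd⟩ := hg
  exact ⟨c + d, fun I => by rw [pow_add, ← mul_assoc]; exact Nat.mul_le_mul (hc I) (hd I)⟩

theorem QL.add {f g : EOL → ℕ} (hf : QL f) (hg : QL g) : QL fun I => f I + g I := by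
  obtain ⟨c, hc⟩ := hf
  obtain ⟨d, hd⟩ := hg
  exact ⟨c + d + 1, fun I => add_le_pow I.two_le_log _ (hc I) (hd I)⟩

theorem PL.ql {f : EOL → ℕ} (hf : PL f) : QL f :=
  (QL.N.mul hf).mono fun I => Nat.le_mul_of_pos_left _ (by have := I.size_le; omega)

theorem QL.pbd {f : EOL → ℕ} (hf : QL f) : PBd f := by
  obtain ⟨c, hc⟩ := hf
  have h1 : PBd fun I : EOL => esize I := pbd_esize DPT.id
  exact (h1.mul (h1.pow c)).mono fun I => (hc I).trans
    (Nat.mul_le_mul_left _ (Nat.pow_le_pow_left (Nat.log_le_self _ _) c))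

end Vale.Agent.P330
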