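import Vale.Agent.P330.Exact

/-!
P330, T6b: decoding of the one-hot form and the assembly of the polynomial form.
-/

namespace Vale.Agent.P330

open Vale.Agent.Lib.PolyTime hiding C P
open Vale.Agent.Lib.Dep

namespace PolyA

/-! ### Decoding of the one-hot form -/

/-- the first symbol whose row has more than half of its bits set -/
def rowDec {P A T : Type} [En A] [En T] (d : A) (w : Vec (P × A × T) Bool) : Vec P A :=
  fun p => ((elems A).find? fun a =>
    decide ((elems T).length < 2 * ((elems T).filter fun t => w (p, a, t)).length)).getD d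

theorem rowDec_eq {P A T : Type} [En A] [En T] [Fintype T] [DecidableEq A] [Nonempty T] (d : A)
    (w : P × A × T → ℝ) (p : P) (y : A)
    (h : ∀ a, frac (fun t => 2 / 5 < |w (p, a, t) - bv (decide (y = a))|) < 1 / 2) :
    rowDec d (rnd w) p = y := by
  have h0 : (0 : ℝ) < Fintype.card T := by exact_mod_cast Fintype.card_pos
  have key : ∀ a, ((elems T).length < 2 * ((elems T).filter fun t => rnd w (p, a, t)).length) ↔
      y = a := by
    intro a
    have h1 := length_filter_elems fun t => rnd w (p, a, t)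
    have h2 := h a
    rw [length_elems, ← Nat.cast_lt (α := ℝ), Nat.cast_mul, h1]
    by_cases e : y = a
    · have h3 : frac (fun t => ¬ rnd w (p, a, t) = true) ≤
          frac fun t => 2 / 5 < |w (p, a, t) - bv (decide (y = a))| :=
        Glue.frac_mono fun t ht => by
          simp only [rnd, decide_eq_true_eq, not_lt] at ht
          simp only [e, decide_true, bv, if_true]
          exact lt_abs.2 (Or.inr (by linarith))
      rw [frac_not] at h3
      refine iff_of_true ?_ e
      push_cast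
      nlinarith
    · have h3 : frac (fun t => rnd w (p, a, t) = true) ≤
          frac fun t => 2 / 5 < |w (p, a, t) - bv (decide (y = a))| :=
        Glue.frac_mono fun t ht => by
          simp only [rnd, decide_eq_true_eq] at ht
          simp only [e, decide_false, bv, Bool.false_eq_true, if_false]
          exact lt_abs.2 (Or.inl (by linarith))
      refine iff_of_false (not_lt.2 ?_) e
      push_cast
      nlinarith
  unfold rowDec
  cases hf : (elems A).find? fun a =>
      decide ((elems T).length < 2 * ((elems T).filter fun t => rnd w (p, a, t)).length) with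
  | none => exact absurd (decide_eq_true ((key y).2 rfl)) (List.find?_eq_none.1 hf y (En.complete y))
  | some z =>
    have h1 := List.find?_some hf
    exact ((key z).1 (of_decide_eq_true h1)).symm

theorem rowDec_close {P A T : Type} [En A] [En T] [Fintype P] [Fintype A] [Fintype T]
    [DecidableEq A] [Nonempty T] (d : A) (w : P × A × T → ℝ) (W : P → A) :
    frac (fun p => rowDec d (rnd w) p ≠ W p) ≤
      2 * Fintype.card A * tvd w fun c => decide (W c.1 = c.2.1) := by
  have : Nonempty A := ⟨d⟩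
  have h0 : (0 : ℝ) < Fintype.card A := by exact_mod_cast Fintype.card_pos
  have h1 := frac_markov
    (fun c : P × A × T => 2 / 5 < |w c - bv (decide (W c.1 = c.2.1))|) (1 / (2 * Fintype.card A))
  rw [one_div, inv_mul_le_iff₀ (by positivity)] at h1
  refine le_trans (Glue.frac_mono fun p hp => ?_) h1
  by_contra h2
  refine hp (rowDec_eq d w p (W p) fun a => ?_)
  have h3 := frac_row_le (fun c : A × T => 2 / 5 < |w (p, c) - bv (decide (W p = c.1))|) a
  rw [not_le, ← one_div, lt_div_iff₀ (by positivity)] at h2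
  exact h3.trans_lt (by linarith)

theorem dpt_rowDec {α : Type} [Enc α] (P A T : TF α) {d : ∀ a, A.T a} (hd : DPT d) :
    DPT fun x : Σ a, Vec (P.T a × A.T a × T.T a) Bool => rowDec (d x.1) x.2 := by
  have h1 : DPT fun x : Σ a, Vec (P.T a × A.T a × T.T a) Bool => x.1 := DPT.id.sfst
  refine dpt_vec P h1 ?_
  have h2 : DPT fun q : Σ x : (Σ a, Vec (P.T a × A.T a × T.T a) Bool), P.T x.1 => q.1.1 :=
    DPT.id.sfst.sfst
  unfold rowDec
  refine DPT.optGetD (DPT.find? (A.pt.comp h2) (DPT.decide (DPr.lt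
    (T.pt.comp (h2.comp DPT.id.sfst)).length ((DPT.const 2).natMul (DPT.length
      (DPT.filter (T.pt.comp (h2.comp DPT.id.sfst)) ?_)))))) (hd.comp h2)
  exact dpt_app (Glue.tfProd P (Glue.tfProd A T)) (h2.comp DPT.id.sfst.sfst)
    (DPT.ssnd.comp DPT.id.sfst.sfst.sfst) ((DPT.ssnd.comp DPT.id.sfst.sfst).pair
      ((DPT.val (DPT.ssnd.comp DPT.id.sfst)).pair DPT.ssnd.val))

/-- The word is recovered from its one-hot form on most positions. -/
theorem exists_rowDec {α : Type} [Enc α] (P S : TF α) (A G : CT) :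
    ∃ rd : ∀ a, Vec (Cell (P.T a) A.T (S.T a) G.T) Bool → Vec (P.T a) A.T,
      DPT (fun x : Σ a, Vec (Cell (P.T a) A.T (S.T a) G.T) Bool => rd x.1 x.2) ∧
      ∀ a (w : Cell (P.T a) A.T (S.T a) G.T → ℝ) (W : P.T a → A.T),
        frac (fun p => rd a (rnd w) p ≠ W p) ≤
          2 * Fintype.card A.T * tvd w (encb (S.T a) G.T W) := by
  obtain ⟨d⟩ := A.ne
  exact ⟨fun a => rowDec d, dpt_rowDec P (Glue.tfConst α A) (Glue.tfProd S (Glue.tfConst α G))
    (DPT.const d), fun a w W => rowDec_close d w W⟩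

theorem dpr_solution {κ : Type} [Enc κ] {I : κ → EOL} {v : κ → List Bool} (hI : DPT I)
    (hv : DPT v) : DPr fun x => (I x).Solution (v x) := by
  unfold EOL.Solution
  fun_prop

/-- the registers of a module without external registers -/
def flat {C R : Type} (p : C × (R ⊕ Fin 0)) : C × R := (p.1, Sum.elim id Fin.elim0 p.2)

/-- A module without external registers is a circuit. -/
theorem ok_flat {C R : Type} [Fintype C] [Fintype R] [Nonempty R] (m : Mod C R (Fin 0)) {η : ℝ}
    (hη : 0 < η) (x : C × R → ℝ)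
    (h : frac (fun v => ¬ ((m v.1 v.2).map flat).Sat (η / Fintype.card R) x (x v)) ≤
      η / Fintype.card R) : m.Ok η fun p => x (flat p) := by
  have h0 : (1 : ℝ) ≤ Fintype.card R := by exact_mod_cast Fintype.card_pos
  refine Glue.ok_of_embed (g := fun v : C × R => (m v.1 v.2).map flat) flat (fun _ _ => rfl)
    fun r => ?_
  have h1 := frac_col_le
    (fun v : C × R => ¬ ((m v.1 v.2).map flat).Sat (η / Fintype.card R) x (x v)) r
  rw [le_div_iff₀ (by positivity), mul_comm] at h
  exact le_trans (Glue.frac_mono fun c hc h' => hc (Glue.sat_mono (div_le_self hη.le h0) h'))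
    (h1.trans h)

theorem gatePT_flat {α : Type} [Enc α] {C : α → Type} [∀ a, Enc (C a)] (R : CT)
    {m : ∀ a, Mod (C a) R.T (Fin 0)} (hm : ModPT m) :
    GatePT fun x : Σ a, C a × R.T => (m x.1 x.2.1 x.2.2).map flat := by
  have h1 : DPT fun x : Σ a, C a × R.T => (⟨x.1, x.2.1⟩ : Σ a, C a) :=
    DPT.smk DPT.id.sfst DPT.ssnd.fst
  refine Glue.gatePT_map (g := fun x : Σ a, C a × R.T => m x.1 x.2.1 x.2.2)
    (Glue.gatePT_finCase (c := fun x : Σ a, C a × R.T => x.2.2) DPT.ssnd.snd
      (g := fun r x => m x.1 x.2.1 r) fun r => Glue.gatePT_comp (hm r) h1) (fun _ => flat) ?_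
  exact DPT.pair DPT.ssnd.fst (Glue.dpt_fin _ DPT.ssnd.snd)

end PolyA

open PolyA in
theorem polyAsm : PolyAsm := by
  intro hT hG hE ⟨D, X, M, dE, hM, _, hdE, hX⟩ hB
  obtain ⟨A, k, K, Δ, θ, h, hΔ, hθ, hh, hB⟩ := hB 0 D
  obtain ⟨P, S, L, E, sym, dec, decE, hO⟩ := hB EOL (fun _ => 0) X M (DPT.const 0) (PBd.const 0) hM
    fun _ => ⟨fun p => p.1.elim0, fun j => j.elim0⟩
  have hA : (0 : ℝ) < Fintype.card A.T := by exact_mod_cast Fintype.card_pos
  obtain ⟨g, η, R, rX, rY, rO, hη, hG⟩ := hG A 0 k K Δ θ h hΔ hθ hh (h / (2 * Fintype.card A.T)) 1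
    (Glue.ctFin 0) (by positivity) one_pos
  obtain ⟨m, hm, hG⟩ := hG EOL P S L hO.ptL
  obtain ⟨ex, hex, hE⟩ := hE 0 k EOL P S (fun _ => A.T) (fun I => (L I).toLCode) hO.ptL.code
    ⟨fun _ => Finset.univ.sup fun y : A.T => esize y, PBd.const _, fun _ y =>
      Finset.le_sup (f := fun y : A.T => esize y) (Finset.mem_univ y)⟩
  let G : CT := Glue.ctProd (Glue.ctFin g) (Glue.ctFin 0)
  obtain ⟨rd, hrd, hR⟩ := exists_rowDec P S A G
  let C : TF EOL := Glue.tfCell P A S G
  let V : TF EOL := Glue.tfProd C (Glue.tfConst EOL R)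
  let cand : R.T → ∀ I, Vec (V.T I) Bool → List Bool := fun r I w =>
    dE I (dec I (ex I (rd I fun c => w (c, r))))
  have hc : ∀ r, DPT fun x : Σ I, Vec (V.T I) Bool => cand r x.1 x.2 := by
    intro r
    have h1 : DPT fun x : Σ I, Vec (V.T I) Bool => x.1 := DPT.id.sfst
    have h2 : DPT (β := fun x : Σ I, Vec (V.T I) Bool => Vec (C.T x.1) Bool)
        fun x c => x.2 (c, r) :=
      dpt_vec C h1 (dpt_app V (h1.comp DPT.id.sfst) (DPT.ssnd.comp DPT.id.sfst)
        (DPT.ssnd.pair (DPT.const r)))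
    exact DPT.fn dE hdE h1 (DPT.fn dec hO.ptDec h1 (DPT.fn ex hex h1 (DPT.fn rd hrd h1 h2)))
  have hR0 : (0 : ℝ) < Fintype.card R.T := by exact_mod_cast Fintype.card_pos
  classical
  refine (hT V (fun I v => (m I v.1 v.2).map flat)
    (fun I w => if I.Solution (cand rX I w) then cand rX I w else cand rY I w)
    (η / Fintype.card R.T) ⟨by positivity, gatePT_flat R hm,
      DPT.ite (dpr_solution DPT.id.sfst (hc rX)) (hc rX) (hc rY), fun I x hx hb => ?_⟩).1
  have hW := (hX I).1
  have key : ∀ r W, (L I).End (fun j => sym I (noSym j)) W →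
      tvd (fun c => x (c, r)) (encb (S.T I) G.T W) ≤ h / (2 * Fintype.card A.T) →
      I.Solution (cand r I (rnd x)) := by
    intro r W h1 h2
    have h3 := hR I (fun c => x (c, r)) W
    rw [le_div_iff₀ (by positivity), mul_comm] at h2
    have h4 := hE I _ Δ θ h W _ (hO.good I noSym hW) h1.1 (h3.trans h2)
    have h5 : cand r I (rnd x) = dE I (dec I W) := by rw [← h4]; rfl
    rw [h5]
    exact (hX I).2.2 _ (hO.ends I noSym hW W h1)
  rcases hG I (fun j => sym I (noSym j)) (hO.balL I) (hO.good I noSym hW) (hO.start I noSym hW)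
    (fun p => x (flat p)) (fun _ => hx _) (ok_flat (m I) hη x hb) (fun j => j.elim0) with
    ⟨W, h1, h2, h3, -⟩ | ⟨W, h1, h2, h3, h4⟩
  · have h5 := key rX W ⟨h1, Or.inl h2⟩ h3
    rwa [if_pos h5]
  · have h5 := key rY W ⟨h1, Or.inr ⟨h2, h3⟩⟩ h4
    split_ifs with h6
    exacts [h6, h5]

end Vale.Agent.P330
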