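import Vale.Agent.P330.Iface
import Vale.Agent.Lib.Dep.Alg

/-!
P330: common definitions of the construction: enumerated types, fractions, gates with noisy
readings, modules on cells, local rules, locally testable codes and line systems.
-/

namespace Vale.Agent.P330

open Vale.Agent.Lib.PolyTime hiding C P
open Vale.Agent.Lib.Dep

/-! ### Enumerated types -/

/-- A type with a list of all its elements. -/
class En (V : Type) where
  /-- the list of all elements -/
  elems : List V
  nodup : elems.Nodup
  complete : ∀ v, v ∈ elems

/-- the list of all elements of `V` -/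
abbrev elems (V : Type) [En V] : List V := En.elems

instance : En Unit := ⟨[()], by simp, by simp⟩
instance : En Bool := ⟨[false, true], by simp, by simp⟩
instance {n : ℕ} : En (Fin n) := ⟨List.finRange n, List.nodup_finRange n, List.mem_finRange⟩
instance {V W : Type} [En V] [En W] : En (V × W) :=
  ⟨elems V ×ˢ elems W, En.nodup.product En.nodup,
    fun p => List.pair_mem_product.2 ⟨En.complete p.1, En.complete p.2⟩⟩
instance {V W : Type} [En V] [En W] : En (V ⊕ W) :=
  ⟨(elems V).map Sum.inl ++ (elems W).map Sum.inr,
    List.Nodup.append (En.nodup.map Sum.inl_injective) (En.nodup.map Sum.inr_injective)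
      (by simp [List.disjoint_left]),
    fun p => by cases p <;> simp [En.complete]⟩
instance {V : Type} [En V] : En (Option V) :=
  ⟨none :: (elems V).map some,
    List.nodup_cons.2 ⟨by simp, En.nodup.map (Option.some_injective V)⟩,
    fun p => by cases p <;> simp [En.complete]⟩
instance {n : ℕ} [NeZero n] : En (ZMod n) :=
  ⟨(List.range n).map Nat.cast,
    List.Nodup.map_on (fun x hx y hy h => by
      have h1 := congrArg ZMod.val h
      rwa [ZMod.val_cast_of_lt (List.mem_range.1 hx), ZMod.val_cast_of_lt (List.mem_range.1 hy)]
        at h1) List.nodup_range,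
    fun p => List.mem_map.2 ⟨p.val, List.mem_range.2 (ZMod.val_lt p), ZMod.natCast_zmod_val p⟩⟩

/-- Functions on an enumerated type; the code is the list of the values in the order of
`elems V`. -/
def Vec (V T : Type) : Type := V → T

instance {V T : Type} [En V] [Enc T] : Enc (Vec V T) := ⟨fun f => enc ((elems V).map f)⟩

theorem enc_Vec {V T : Type} [En V] [Enc T] (f : Vec V T) : enc f = enc ((elems V).map f) := rfl

instance {V T : Type} [En V] [Enc T] [EncInj T] : EncInj (Vec V T) := ⟨fun f g h => by
  have h1 : (elems V).map f = (elems V).map g := EncInj.inj (α := List T) h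
  funext s
  exact List.map_inj_left.1 h1 s (En.complete s)⟩

instance {V T : Type} [DecidableEq V] [Fintype V] [Fintype T] : Fintype (Vec V T) :=
  inferInstanceAs (Fintype (V → T))
instance {V T : Type} [Fintype V] [DecidableEq T] : DecidableEq (Vec V T) :=
  inferInstanceAs (DecidableEq (V → T))
instance {V T : Type} [Nonempty T] : Nonempty (Vec V T) := inferInstanceAs (Nonempty (V → T))

/-- Bit strings of length `ℓ`. -/
abbrev Sym (ℓ : ℕ) : Type := Vec (Fin ℓ) Bool

/-- the zero string -/
def zsym (ℓ : ℕ) : Sym ℓ := fun _ => false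

/-- A finite type which does not depend on the instance. -/
structure CT where
  /-- the type -/
  T : Type
  [enc : Enc T]
  [inj : EncInj T]
  [fin : Fintype T]
  [deq : DecidableEq T]
  [en : En T]
  [ne : Nonempty T]

attribute [instance] CT.enc CT.inj CT.fin CT.deq CT.en CT.ne

/-- A family of finite types whose elements are listed in polynomial time. -/
structure TF (α : Type) [Enc α] where
  /-- the types -/
  T : α → Type
  [enc : ∀ a, Enc (T a)]
  [inj : ∀ a, EncInj (T a)]
  [fin : ∀ a, Fintype (T a)]
  [deq : ∀ a, DecidableEq (T a)]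
  [en : ∀ a, En (T a)]
  [ne : ∀ a, Nonempty (T a)]
  pt : DPT fun a => elems (T a)

attribute [instance] TF.enc TF.inj TF.fin TF.deq TF.en TF.ne

/-! ### Fractions, means, balanced maps, samplers -/

open Classical in
/-- the fraction of the elements with the property `p` -/
noncomputable def frac {C : Type} [Fintype C] (p : C → Prop) : ℝ :=
  ((Finset.univ.filter p).card : ℝ) / Fintype.card C

/-- the mean value -/
noncomputable def mean {C : Type} [Fintype C] (f : C → ℝ) : ℝ := (∑ c, f c) / Fintype.card C

/-- The map `f` increases no probability by more than the factor `K`. -/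
def Bal {X Y : Type} [Fintype X] [Fintype Y] (K : ℝ) (f : X → Y) : Prop :=
  ∀ B : Y → Prop, frac (fun x => B (f x)) ≤ K * frac B

/-- The neighbours `nb c i` sample every function with values in `[0, 1]` well. -/
def Sampler {C : Type} [Fintype C] {K : ℕ} (η : ℝ) (nb : C → Fin K → C) : Prop :=
  ∀ f : C → ℝ, (∀ c, 0 ≤ f c ∧ f c ≤ 1) →
    frac (fun c => η < |mean (fun i => f (nb c i)) - mean f|) ≤ η

/-! ### Gates with noisy readings -/

/-- the real value of a bit -/
def bv (b : Bool) : ℝ := if b then 1 else 0

/-- A gate reads the nodes `src` with noise and applies an arbitrary Boolean function. -/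
structure Gate (V : Type) where
  /-- the nodes which are read -/
  src : List V
  /-- the function of the readings -/
  fn : List ℝ → Bool

/-- The output value `o` is in order: if all readings with noise at most `η` give the same bit,
then `o` is exactly this bit. -/
def Gate.Sat {V : Type} (η : ℝ) (x : V → ℝ) (g : Gate V) (o : ℝ) : Prop :=
  ∀ b : Bool, (∀ y : List ℝ, List.Forall₂ (fun v t => |t - x v| ≤ η) g.src y → g.fn y = b) →
    o = bv b

/-- renaming of the nodes -/
def Gate.map {V W : Type} (φ : V → W) (g : Gate V) : Gate W := ⟨g.src.map φ, g.fn⟩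

/-- the gate with readings indexed by the enumerated type `D` -/
noncomputable def Gate.mk' {V D : Type} [En D] [DecidableEq D] (src : D → V)
    (F : (D → ℝ) → Bool) : Gate V :=
  ⟨(elems D).map src, fun l => F fun d => l.getD ((elems D).idxOf d) 0⟩

/-- The function takes finitely many values and the case is found in polynomial time. -/
@[fun_prop]
def FinSel {α : Type} [Enc α] {Z : Type} (f : α → Z) : Prop :=
  ∃ (n : ℕ) (t : α → Fin n) (k : Fin n → Z), DPT t ∧ ∀ a, f a = k (t a)

/-- Polynomial time families of gates of bounded arity with finitely many functions. -/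
structure GatePT {α : Type} [Enc α] {V : α → Type} [∀ a, Enc (V a)] (g : ∀ a, Gate (V a)) :
    Prop where
  src : DPT fun a => (g a).src
  fn : FinSel fun a => (g a).fn
  len : ∃ n, ∀ a, (g a).src.length ≤ n

/-- values in `[0, 1]` -/
def Unit01 {V : Type} (x : V → ℝ) : Prop := ∀ v, 0 ≤ x v ∧ x v ≤ 1

/-- the fraction of the cells where `w` is not exactly the bit of `u` -/
noncomputable def pd {C : Type} [Fintype C] (w : C → ℝ) (u : C → Bool) : ℝ :=
  frac fun c => w c ≠ bv (u c)

/-- the fraction of the cells where `w` is not clearly on the side of the bit of `u` -/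
noncomputable def tvd {C : Type} [Fintype C] (w : C → ℝ) (u : C → Bool) : ℝ :=
  frac fun c => 2 / 5 < |w c - bv (u c)|

/-- A module: every cell has the registers `R`, whose gates read registers and the external
registers `J` of arbitrary cells. -/
abbrev Mod (C R J : Type) : Type := C → R → Gate (C × (R ⊕ J))

/-- In every register all but an `η` fraction of the gates are in order with noise `η`. -/
def Mod.Ok {C R J : Type} [Fintype C] (η : ℝ) (m : Mod C R J) (x : C × (R ⊕ J) → ℝ) : Prop :=
  ∀ r, frac (fun c => ¬ (m c r).Sat η x (x (c, Sum.inl r))) ≤ η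

/-- polynomial time families of modules -/
def ModPT {α : Type} [Enc α] {C : α → Type} [∀ a, Enc (C a)] {R J : Type} [Enc R] [Enc J]
    (m : ∀ a, Mod (C a) R J) : Prop :=
  ∀ r, GatePT fun x : Σ a, C a => m x.1 x.2 r

/-- the word in the register `r` -/
abbrev reg {C R J : Type} (x : C × (R ⊕ J) → ℝ) (r : R) : C → ℝ := fun c => x (c, Sum.inl r)

/-- the word in the external register `j` -/
abbrev ext {C R J : Type} (x : C × (R ⊕ J) → ℝ) (j : J) : C → ℝ := fun c => x (c, Sum.inr j)

/-! ### Local rules, codes and line systems -/

/-- A rule reads `k` symbols of the state (`none`) or of one of `c` input words. -/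
structure Rule (c k : ℕ) (P A B : Type) where
  /-- the positions which are read -/
  rd : Fin k → Option (Fin c) × P
  /-- the function of the symbols -/
  fn : (Fin k → A) → B

/-- the value of the rule -/
def Rule.eval {c k : ℕ} {P A B : Type} (r : Rule c k P A B) (inp : Fin c → P → A) (W : P → A) :
    B :=
  r.fn fun j => (r.rd j).1.elim W inp (r.rd j).2

/-- no input words -/
def noInp {P A : Type} : Fin 0 → P → A := fun i => i.elim0

/-- The rule gives `v` on every word which agrees with `W` outside `B`. -/
def Rule.Safe {k : ℕ} {P A : Type} (r : Rule 0 k P A A) (W : P → A) (B : P → Prop) (v : A) :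
    Prop :=
  ∀ W' : P → A, (∀ p, ¬ B p → W' p = W p) → r.eval noInp W' = v

/-- Every read position is almost uniform when position and seed are uniform. -/
def RuleBal {c k : ℕ} {P S A B : Type} [Fintype P] [Fintype S] (K : ℝ)
    (r : P → S → Rule c k P A B) : Prop :=
  ∀ j, Bal K fun x : P × S => ((r x.1 x.2).rd j).2

/-- polynomial time families of rules -/
structure RulePT {α : Type} [Enc α] {c k : ℕ} {P S A B : α → Type} [∀ a, Enc (P a)]
    [∀ a, Enc (S a)] [∀ a, Enc (A a)] [∀ a, Enc (B a)]
    (r : ∀ a, P a → S a → Rule c k (P a) (A a) (B a)) : Prop where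
  rd : ∀ j, DPT fun x : Σ a, P a × S a => (r x.1 x.2.1 x.2.2).rd j
  fn : DPT fun x : Σ a, (P a × S a) × (Fin k → A a) => (r x.1 x.2.1.1 x.2.1.2).fn x.2.2

/-- A code given by local tests, with a local correction rule. -/
structure LCode (c k : ℕ) (P S A : Type) where
  /-- the tests -/
  tst : P → S → Rule c k P A Bool
  /-- the correction rules -/
  cor : P → S → Rule 0 k P A A

namespace LCode

variable {c k : ℕ} {P S A : Type}

/-- the words which pass all tests -/
def Valid (L : LCode c k P S A) (inp : Fin c → P → A) (W : P → A) : Prop :=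
  ∀ p s, (L.tst p s).eval inp W = true

/-- balanced reading -/
structure Bal [Fintype P] [Fintype S] (L : LCode c k P S A) (K : ℝ) : Prop where
  tst : RuleBal K L.tst
  cor : RuleBal K L.cor

/-- distance, soundness of the test and contraction of the correction -/
structure Good [Fintype P] [Fintype S] (L : LCode c k P S A) (inp : Fin c → P → A)
    (Δ θ h : ℝ) : Prop where
  dist : ∀ W W', L.Valid inp W → L.Valid inp W' → W ≠ W' → Δ ≤ frac fun p => W p ≠ W' p
  sound : ∀ W, frac (fun x : P × S => (L.tst x.1 x.2).eval inp W = false) ≤ θ →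
    ∃ W', L.Valid inp W' ∧ frac (fun p => W p ≠ W' p) ≤ h / 2
  cor : ∀ W, L.Valid inp W → ∀ B : P → Prop, frac B ≤ h →
    frac (fun p => 1 / 4 ≤ frac fun s => ¬ (L.cor p s).Safe W B (W p)) ≤ frac B / 2

/-- polynomial time families of codes -/
structure IsPT {α : Type} [Enc α] {P S A : α → Type} [∀ a, Enc (P a)] [∀ a, Enc (S a)]
    [∀ a, Enc (A a)] (L : ∀ a, LCode c k (P a) (S a) (A a)) : Prop where
  tst : RulePT (B := fun _ => Bool) fun a => (L a).tst
  cor : RulePT fun a => (L a).cor

end LCode

/-- A local line system: a code with local successor, predecessor and output rules and a start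
word. -/
structure LRLS (c k : ℕ) (P S A : Type) extends LCode c k P S A where
  /-- successor -/
  suc : P → S → Rule c k P A A
  /-- predecessor -/
  pre : P → S → Rule c k P A A
  /-- output -/
  out : P → S → Rule c k P A A
  /-- the start word -/
  st : P → A

namespace LRLS

variable {c k : ℕ} {P S A : Type}

/-- the edges of the line system -/
def Step (L : LRLS c k P S A) (inp : Fin c → P → A) (W W' : P → A) : Prop :=
  L.Valid inp W ∧ L.Valid inp W' ∧ (∀ p s, (L.suc p s).eval inp W = W' p) ∧
    ∀ p s, (L.pre p s).eval inp W' = W p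

/-- The start word is valid, has a successor and no predecessor. -/
def Start (L : LRLS c k P S A) (inp : Fin c → P → A) : Prop :=
  L.Valid inp L.st ∧ (∃ W, L.Step inp L.st W) ∧ ¬ ∃ W, L.Step inp W L.st

/-- sinks, and sources other than the start word -/
def End (L : LRLS c k P S A) (inp : Fin c → P → A) (W : P → A) : Prop :=
  L.Valid inp W ∧ ((¬ ∃ W', L.Step inp W W') ∨ (W ≠ L.st ∧ ¬ ∃ W', L.Step inp W' W))

/-- There is no other source, and at every sink the output rule gives the word `U`. -/
def Evals (L : LRLS c k P S A) (inp : Fin c → P → A) (U : P → A) : Prop :=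
  (∀ W, L.Valid inp W → W ≠ L.st → ∃ W', L.Step inp W' W) ∧
    ∀ W, L.Valid inp W → (¬ ∃ W', L.Step inp W W') → ∀ p s, (L.out p s).eval inp W = U p

/-- balanced reading -/
structure Bal [Fintype P] [Fintype S] (L : LRLS c k P S A) (K : ℝ) : Prop where
  code : L.toLCode.Bal K
  suc : RuleBal K L.suc
  pre : RuleBal K L.pre
  out : RuleBal K L.out

/-- polynomial time families of line systems -/
structure IsPT {α : Type} [Enc α] {P S A : α → Type} [∀ a, Enc (P a)] [∀ a, Enc (S a)]
    [∀ a, Enc (A a)] (L : ∀ a, LRLS c k (P a) (S a) (A a)) : Prop where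
  code : LCode.IsPT fun a => (L a).toLCode
  suc : RulePT fun a => (L a).suc
  pre : RulePT fun a => (L a).pre
  out : RulePT fun a => (L a).out
  st : DPT fun x : Σ a, P a => (L x.1).st x.2

end LRLS

/-- The cells: position, symbol, seed and a constant coordinate. -/
abbrev Cell (P A S G : Type) : Type := P × A × S × G

/-- the word in the one-hot form on the cells -/
def encb {P A : Type} (S G : Type) [DecidableEq A] (W : P → A) : Cell P A S G → Bool :=
  fun c => decide (W c.1 = c.2.1)

/-! ### Local Boolean line systems (not robust) -/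

/-- States are assignments of bits to the variables `X`; constraints, successor and predecessor
are given by rules of locality `D`; `c` input strings and an output string of length `ℓ`. -/
structure LBL (c ℓ D : ℕ) (X : Type) where
  /-- the constraints -/
  val : X → Rule 0 D X Bool Bool
  /-- the successor -/
  suc : X → Rule 0 D X Bool Bool
  /-- the predecessor -/
  pre : X → Rule 0 D X Bool Bool
  /-- the variables which hold the inputs -/
  inp : Fin c → Fin ℓ → X
  /-- the variables which hold the output -/
  out : Fin ℓ → X
  /-- the flag of the start state -/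
  first : X
  /-- the flag of the final states -/
  last : X

namespace LBL

variable {c ℓ D : ℕ} {X : Type}

open Classical in
/-- the start state: only the inputs and the flag -/
noncomputable def start (M : LBL c ℓ D X) (σ : Fin c → Sym ℓ) : X → Bool :=
  fun v => decide (v = M.first ∨ ∃ j i, M.inp j i = v ∧ σ j i = true)

/-- valid states -/
def Valid (M : LBL c ℓ D X) (σ : Fin c → Sym ℓ) (x : X → Bool) : Prop :=
  (∀ v, (M.val v).eval noInp x = true) ∧ ∀ j i, x (M.inp j i) = σ j i

/-- edges -/
def Step (M : LBL c ℓ D X) (σ : Fin c → Sym ℓ) (x x' : X → Bool) : Prop :=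
  M.Valid σ x ∧ M.Valid σ x' ∧ x M.last = false ∧ x' M.first = false ∧
    (∀ v, (M.suc v).eval noInp x = x' v) ∧ ∀ v, (M.pre v).eval noInp x' = x v

/-- The input variables and the flag are distinct. -/
structure WF0 (M : LBL c ℓ D X) : Prop where
  inj : Function.Injective fun p : Fin c × Fin ℓ => M.inp p.1 p.2
  first_ne : ∀ j i, M.inp j i ≠ M.first

/-- The start state is valid and is the only valid state with the flag. -/
structure WF (M : LBL c ℓ D X) (σ : Fin c → Sym ℓ) : Prop where
  valid : M.Valid σ (M.start σ)
  uniq : ∀ x, M.Valid σ x → x M.first = true → x = M.start σ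

/-- sinks, and sources other than the start state -/
def End (M : LBL c ℓ D X) (σ : Fin c → Sym ℓ) (x : X → Bool) : Prop :=
  M.Valid σ x ∧ ((¬ ∃ x', M.Step σ x x') ∨ (x ≠ M.start σ ∧ ¬ ∃ x', M.Step σ x' x))

/-- There is no other source, and every sink is final with output `τ`. -/
def Evals (M : LBL c ℓ D X) (σ : Fin c → Sym ℓ) (τ : Sym ℓ) : Prop :=
  (∀ x, M.Valid σ x → x ≠ M.start σ → ∃ x', M.Step σ x' x) ∧
    ∀ x, M.Valid σ x → (¬ ∃ x', M.Step σ x x') → x M.last = true ∧ ∀ i, x (M.out i) = τ i

/-- polynomial time families -/
structure IsPT {α : Type} [Enc α] {ℓ : α → ℕ} {X : α → Type} [∀ a, Enc (X a)]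
    (M : ∀ a, LBL c (ℓ a) D (X a)) : Prop where
  val : RulePT (S := fun _ => Unit) (A := fun _ => Bool) (B := fun _ => Bool)
    fun a v _ => (M a).val v
  suc : RulePT (S := fun _ => Unit) (A := fun _ => Bool) (B := fun _ => Bool)
    fun a v _ => (M a).suc v
  pre : RulePT (S := fun _ => Unit) (A := fun _ => Bool) (B := fun _ => Bool)
    fun a v _ => (M a).pre v
  inp : ∀ j, DPT fun x : Σ a, Fin (ℓ a) => (M x.1).inp j x.2
  out : DPT fun x : Σ a, Fin (ℓ a) => (M x.1).out x.2
  first : DPT fun a => (M a).first
  last : DPT fun a => (M a).last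

end LBL

/-- no input strings -/
def noSym {ℓ : ℕ} : Fin 0 → Sym ℓ := fun i => i.elim0

/-- The function `F` on lists of strings as a function of `c` strings of length `ℓ`. -/
def appF (F : List (List Bool) → List Bool) {c ℓ : ℕ} (σ : Fin c → Sym ℓ) : Sym ℓ :=
  fun i => (F (List.ofFn fun j => List.ofFn (σ j))).getD i false

/-! ### Outer systems: large symbols, one uniform polynomial time function -/

/-- Sites `Q` hold strings of length `ℓ`. The operation `0` is the test (passed if the result is
the zero string), `1` the correction, `2` the successor, `3` the predecessor. Each reads `c` sites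
and one constant string and applies `F`. -/
structure OFam (α : Type) [Enc α] (c : ℕ) where
  /-- length of the symbols -/
  ℓ : α → ℕ
  /-- the sites -/
  Q : TF α
  /-- the sites which are read -/
  rd : ∀ a, Fin 4 → Q.T a → Fin c → Q.T a
  /-- the constants of the sites -/
  cst : ∀ a, Fin 4 → Q.T a → Sym (ℓ a)
  /-- the start word -/
  st : ∀ a, Q.T a → Sym (ℓ a)
  /-- the function -/
  F : List (List Bool) → List Bool

namespace OFam

variable {α : Type} [Enc α] {c : ℕ}

/-- the rule of the operation `o` at the site `q` -/
def rule (O : OFam α c) (a : α) (o : Fin 4) (q : O.Q.T a) :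
    Rule 0 c (O.Q.T a) (Sym (O.ℓ a)) (Sym (O.ℓ a)) :=
  ⟨fun j => (none, O.rd a o q j), fun y => appF O.F (Fin.cons (O.cst a o q) y)⟩

/-- the line system -/
def sys (O : OFam α c) (a : α) : LRLS 0 c (O.Q.T a) Unit (Sym (O.ℓ a)) where
  tst q _ := ⟨(O.rule a 0 q).rd, fun y => decide ((O.rule a 0 q).fn y = zsym _)⟩
  cor q _ := O.rule a 1 q
  suc q _ := O.rule a 2 q
  pre q _ := O.rule a 3 q
  out q _ := O.rule a 1 q
  st := O.st a

/-- polynomial time -/
structure IsPT (O : OFam α c) : Prop where
  len : DPT O.ℓ
  lenb : PBd O.ℓ
  rd : ∀ o j, DPT fun x : Σ a, O.Q.T a => O.rd x.1 o x.2 j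
  cst : ∀ o, DPT fun x : Σ a, O.Q.T a => O.cst x.1 o x.2
  st : DPT fun x : Σ a, O.Q.T a => O.st x.1 x.2
  F : DPT O.F

end OFam

/-! ### The Brouwer block -/

/-- The template of the Brouwer block: `ρ + 2` registers (`0` is `X`, `1` is `Y`), `g` grid
values; the function of a register depends on the grid value and the start bit of the cell, and
reads the noisy means (over the sample of the cell) and the noisy values (in the cell) of all
registers and of the six external registers `0` corX, `1` sucX, `2` tstX, `3` corY, `4` preY,
`5` tstY. -/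
structure BT where
  /-- number of auxiliary registers -/
  ρ : ℕ
  /-- number of grid values minus one -/
  g : ℕ
  /-- the functions of the means and of the values -/
  fn : Fin (ρ + 2) → Fin (g + 1) → Bool → (Fin (ρ + 2) ⊕ Fin 6 → ℝ) → (Fin (ρ + 2) ⊕ Fin 6 → ℝ) →
    Bool

/-- the module of the Brouwer block -/
noncomputable def BT.mod (T : BT) {C : Type} {K : ℕ} (nb : C → Fin K → C) (th : C → Fin (T.g + 1))
    (st : C → Bool) : Mod C (Fin (T.ρ + 2)) (Fin 6) :=
  fun c r => Gate.mk' (D := (Fin (T.ρ + 2) ⊕ Fin 6) × Option (Fin K))
    (fun d => (d.2.elim c (nb c), d.1))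
    fun y => T.fn r (th c) (st c) (fun j => mean fun i => y (j, some i)) fun j => y (j, none)

end Vale.Agent.P330
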