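import Vale.Agent.Lib.PCP.NPDefs
import Mathlib.Data.NNRat.Defs
import Mathlib.Data.Real.Basic
import Mathlib.Data.Nat.Log

/-!
P330: End-of-Line instances, generalized circuits, their binary codes, acceptable assignments.
-/

namespace Vale.Agent.P330

open Vale.Agent.Lib.NP

/-! ### Boolean circuits and End-of-Line -/

/-- A gate of a Boolean circuit, with the numbers of the wires which it reads. -/
inductive BGate where
  | and (a b : ℕ)
  | or (a b : ℕ)
  | not (a : ℕ)

/-- The wires read by a gate. -/
def BGate.ins : BGate → List ℕ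
  | .and a b => [a, b]
  | .or a b => [a, b]
  | .not a => [a]

/-- The value of a gate, given the values `w` of the earlier wires. -/
def BGate.eval (w : List Bool) : BGate → Bool
  | .and a b => w.getD a false && w.getD b false
  | .or a b => w.getD a false || w.getD b false
  | .not a => !w.getD a false

/-- The code of a gate: its type, then its input wires in binary. -/
def BGate.code : BGate → List Bool
  | .and a b => listW [(0 : ℕ).bits, a.bits, b.bits]
  | .or a b => listW [(1 : ℕ).bits, a.bits, b.bits]
  | .not a => listW [(2 : ℕ).bits, a.bits]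

/-- A Boolean circuit with `n` inputs and `n` outputs. The wires `0, …, n - 1` are the inputs, the
wire `n + i` is the output of the gate number `i`, which reads only earlier wires; `outs` is the
list of the output wires. -/
structure BCirc (n : ℕ) where
  gates : List BGate
  outs : List ℕ
  acyclic : ∀ i (h : i < gates.length), ∀ a ∈ gates[i].ins, a < n + i
  length_outs : outs.length = n
  outs_lt : ∀ o ∈ outs, o < n + gates.length

/-- The output of the circuit on the input `v`. -/
def BCirc.eval {n : ℕ} (C : BCirc n) (v : List Bool) : List Bool :=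
  C.outs.map fun o => (C.gates.foldl (fun w g => w ++ [g.eval w]) v).getD o false

/-- The code of a circuit: the list of its gates and the list of its output wires. -/
def BCirc.code {n : ℕ} (C : BCirc n) : List Bool :=
  pairW (listW (C.gates.map BGate.code)) (listW (C.outs.map Nat.bits))

/-- An instance of End-of-Line. -/
structure EOL where
  n : ℕ
  S : BCirc n
  P : BCirc n
  pos : 1 ≤ n
  pred_zero : P.eval (List.replicate n false) = List.replicate n false
  succ_zero : S.eval (List.replicate n false) ≠ List.replicate n false
  pred_succ_zero : P.eval (S.eval (List.replicate n false)) = List.replicate n false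

/-- A solution: a string `v ≠ 0ⁿ` of length `n` with `P (S v) ≠ v` or `S (P v) ≠ v`. -/
def EOL.Solution (I : EOL) (v : List Bool) : Prop :=
  v.length = I.n ∧ v ≠ List.replicate I.n false ∧
    (I.P.eval (I.S.eval v) ≠ v ∨ I.S.eval (I.P.eval v) ≠ v)

/-- The code of an instance: `n` in binary and the two circuits. -/
def EOL.code (I : EOL) : List Bool := pairW I.n.bits (pairW I.S.code I.P.code)

/-! ### Generalized circuits -/

/-- A gate of a generalized circuit: parameter `α`, input nodes `a`, `b`, output node `z`. -/
inductive GGate where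
  | const (α : ℚ≥0) (z : ℕ)
  | scale (α : ℚ≥0) (a z : ℕ)
  | copy (a z : ℕ)
  | add (a b z : ℕ)
  | sub (a b z : ℕ)
  | less (a b z : ℕ)
  | not (a z : ℕ)
  | or (a b z : ℕ)
  | and (a b z : ℕ)

/-- The output node. -/
def GGate.out : GGate → ℕ
  | .const _ z | .scale _ _ z | .copy _ z | .add _ _ z | .sub _ _ z | .less _ _ z | .not _ z
  | .or _ _ z | .and _ _ z => z

/-- The input nodes. -/
def GGate.ins : GGate → List ℕ
  | .const _ _ => []
  | .scale _ a _ | .copy a _ | .not a _ => [a]
  | .add a b _ | .sub a b _ | .less a b _ | .or a b _ | .and a b _ => [a, b]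

/-- The parameters. -/
def GGate.par : GGate → List ℚ≥0
  | .const α _ | .scale α _ _ => [α]
  | _ => []

/-- The number of the type of the gate. -/
def GGate.tag : GGate → ℕ
  | .const .. => 0 | .scale .. => 1 | .copy .. => 2 | .add .. => 3 | .sub .. => 4
  | .less .. => 5 | .not .. => 6 | .or .. => 7 | .and .. => 8

/-- The gate is `ε`-satisfied by the assignment `x`. -/
def GGate.Sat (ε : ℝ) (x : ℕ → ℝ) : GGate → Prop
  | .const α z => |x z - α| ≤ ε
  | .scale α a z => |x z - α * x a| ≤ ε
  | .copy a z => |x z - x a| ≤ ε
  | .add a b z => |x z - min (x a + x b) 1| ≤ ε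
  | .sub a b z => |x z - max (x a - x b) 0| ≤ ε
  | .less a b z => (x a < x b - ε → 1 - ε ≤ x z) ∧ (x b + ε < x a → x z ≤ ε)
  | .not a z => (x a ≤ ε → 1 - ε ≤ x z) ∧ (1 - ε ≤ x a → x z ≤ ε)
  | .or a b z => (1 - ε ≤ x a ∨ 1 - ε ≤ x b → 1 - ε ≤ x z) ∧ (x a ≤ ε ∧ x b ≤ ε → x z ≤ ε)
  | .and a b z => (1 - ε ≤ x a ∧ 1 - ε ≤ x b → 1 - ε ≤ x z) ∧ (x a ≤ ε ∨ x b ≤ ε → x z ≤ ε)

/-- The code of a nonnegative rational number: numerator and denominator in binary. -/
def ratW (q : ℚ≥0) : List Bool := pairW q.num.bits q.den.bits

/-- The code of a list of nonnegative rational numbers. -/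
def ratsW (l : List ℚ≥0) : List Bool := listW (l.map ratW)

/-- The code of a gate: type, parameters, input nodes, output node. -/
def GGate.code (g : GGate) : List Bool :=
  pairW g.tag.bits (pairW (ratsW g.par) (pairW (listW (g.ins.map Nat.bits)) g.out.bits))

/-- A generalized circuit with the nodes `0, …, nodes - 1`: a nonempty list of gates with
parameters in `[0, 1]` such that each node is the output of at most one gate. -/
structure GCirc where
  nodes : ℕ
  gates : List GGate
  nonempty : gates ≠ []
  out_lt : ∀ g ∈ gates, g.out < nodes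
  ins_lt : ∀ g ∈ gates, ∀ a ∈ g.ins, a < nodes
  par_le : ∀ g ∈ gates, ∀ α ∈ g.par, α ≤ 1
  nodup : (gates.map GGate.out).Nodup

/-- The code of a generalized circuit: the number of nodes in unary and the list of the gates. -/
def GCirc.code (G : GCirc) : List Bool :=
  pairW (List.replicate G.nodes true) (listW (G.gates.map GGate.code))

open Classical in
/-- The list `x` of the values of the nodes is an acceptable assignment: rational values in
`[0, 1]`, code of length at most `p (M)`, and at least `(1 - δ) |T|` gates are `ε`-satisfied. -/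
def GCirc.Acceptable (ε δ : ℝ) (p : Polynomial ℕ) (G : GCirc) (x : List ℚ≥0) : Prop :=
  x.length = G.nodes ∧ (∀ q ∈ x, q ≤ 1) ∧ (ratsW x).length ≤ p.eval G.code.length ∧
    (1 - δ) * G.gates.length ≤
      (G.gates.countP fun g => decide (g.Sat ε fun i => (x.getD i 0 : ℚ≥0)) : ℕ)

/-- The maps `R` and `D` are computable in polynomial time and reduce End-of-Line to finding an
acceptable assignment. -/
def Reduces (ε δ : ℝ) (p : Polynomial ℕ) (R : EOL → GCirc) (D : EOL × List ℚ≥0 → List Bool) :
    Prop :=
  PolyTime EOL.code GCirc.code R ∧ PolyTime (fun q => pairW q.1.code (ratsW q.2)) id D ∧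
    ∀ I : EOL, (∃ x, (R I).Acceptable ε δ p x) ∧
      ∀ x, (R I).Acceptable ε δ p x → I.Solution (D (I, x))

end Vale.Agent.P330
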