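import Vale.Agent.P330.SLP
import Vale.Agent.Lib.PCP.CookLevin

/-!
P330: evaluation of a polynomial time function as a local Boolean line system.
-/

namespace Vale.Agent.P330

open Vale.Agent.Lib.PolyTime hiding C P
open Vale.Agent.Lib.Dep Vale.Agent.Lib.PCP

namespace Eval

/-- the variables: row, column, kind -/
abbrev XT (n m : ℕ) : Type := Fin (n + 1) × Fin (n + 1) × (Bool ⊕ Fin m)

/-- the variable with given coordinates -/
def mk (n : ℕ) {m : ℕ} (t i : ℕ) (k : Bool ⊕ Fin m) : XT n m :=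
  (Fin.ofNat (n + 1) t, Fin.ofNat (n + 1) i, k)

theorem mk_row {n m t : ℕ} (h : t ≤ n) (i : ℕ) (k : Bool ⊕ Fin m) : ((mk n t i k).1 : ℕ) = t :=
  Nat.mod_eq_of_lt (Nat.lt_succ_of_le h)

theorem mk_col {n m i : ℕ} (t : ℕ) (h : i ≤ n) (k : Bool ⊕ Fin m) : ((mk n t i k).2.1 : ℕ) = i :=
  Nat.mod_eq_of_lt (Nat.lt_succ_of_le h)

theorem mk_kind {n m : ℕ} (t i : ℕ) (k : Bool ⊕ Fin m) : (mk n t i k).2.2 = k := rfl

theorem mk_self {n m : ℕ} (v : XT n m) : mk n v.1 v.2.1 v.2.2 = v :=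
  Prod.ext (Fin.ext (mk_row (Nat.le_of_lt_succ v.1.2) _ _))
    (Prod.ext (Fin.ext (mk_col _ (Nat.le_of_lt_succ v.2.1.2) _)) rfl)

theorem idx_lt {c ℓ : ℕ} (j : Fin c) (i : Fin ℓ) : j * ℓ + i < c * ℓ := by
  have h1 : (j + 1) * ℓ ≤ c * ℓ := Nat.mul_le_mul_right _ j.2
  have h2 := i.2
  rw [Nat.add_mul] at h1
  omega

theorem idx_inj {c ℓ : ℕ} {j j' : Fin c} {i i' : Fin ℓ} (h : j * ℓ + i = j' * ℓ + i') :
    j = j' ∧ i = i' := by
  have h0 : 0 < ℓ := i.pos
  have h1 := congrArg (· / ℓ) h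
  have h2 := congrArg (· % ℓ) h
  simp only [Nat.mul_comm _ ℓ, Nat.mul_add_div h0, Nat.div_eq_of_lt i.2, Nat.div_eq_of_lt i'.2,
    Nat.add_zero, Nat.mul_add_mod, Nat.mod_eq_of_lt i.2, Nat.mod_eq_of_lt i'.2] at h1 h2
  exact ⟨Fin.ext h1, Fin.ext h2⟩

theorem idx_surj {c ℓ p : ℕ} (h : p < c * ℓ) : ∃ (j : Fin c) (i : Fin ℓ), j * ℓ + i = p := by
  have h0 : 0 < ℓ := Nat.pos_of_ne_zero fun e => by simp [e] at h
  exact ⟨⟨p / ℓ, (Nat.div_lt_iff_lt_mul h0).2 h⟩, ⟨p % ℓ, Nat.mod_lt _ h0⟩, Nat.div_add_mod' p ℓ⟩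

open Classical in
/-- the bit number `p` of the concatenation of the inputs -/
noncomputable def bit {c ℓ : ℕ} (σ : Fin c → Fin ℓ → Bool) (p : ℕ) : Bool :=
  decide (∃ (j : Fin c) (i : Fin ℓ), j * ℓ + i = p ∧ σ j i = true)

theorem bit_idx {c ℓ : ℕ} (σ : Fin c → Fin ℓ → Bool) (j : Fin c) (i : Fin ℓ) :
    bit σ (j * ℓ + i) = σ j i := by
  rw [Bool.eq_iff_iff, bit]
  refine (@decide_eq_true_iff _ (_)).trans ?_
  constructor
  · rintro ⟨j', i', h, h'⟩
    obtain ⟨rfl, rfl⟩ := idx_inj h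
    exact h'
  · exact fun h => ⟨j, i, rfl, h⟩

/-- the concatenation of the inputs -/
noncomputable def flat {c ℓ : ℕ} (σ : Fin c → Fin ℓ → Bool) : Word :=
  (List.range (c * ℓ)).map (bit σ)

/-- cutting a word into `c` pieces -/
def parse (c : ℕ) (w : Word) : List (List Bool) :=
  (List.finRange c).map fun j : Fin c =>
    (List.range (w.length / c)).map fun i => w.getD (j * (w.length / c) + i) false

theorem parse_flat {c ℓ : ℕ} (σ : Fin c → Fin ℓ → Bool) :
    parse c (flat σ) = List.ofFn fun j => List.ofFn (σ j) := by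
  rw [parse, List.ofFn_eq_map]
  refine List.map_congr_left fun j _ => ?_
  have h1 : (flat σ).length / c = ℓ := by
    rw [flat, List.length_map, List.length_range, Nat.mul_div_cancel_left _ j.pos]
  rw [h1]
  refine List.ext_getElem (by simp) fun i h2 h3 => ?_
  have h4 : i < ℓ := by simpa using h3
  have h5 := idx_lt j ⟨i, h4⟩
  rw [List.getElem_map, List.getElem_range, List.getElem_ofFn, ← bit_idx σ,
    List.getD_eq_getElem _ _ (by simpa [flat] using h5)]
  simp [flat]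

theorem pt_parse (c : ℕ) : PT ∅ fun w : Raw => parse c w.w := by
  have h1 : PT ∅ fun w : Raw => w.w.length / c := (PT.rawLength PT.id).div (PT.const c)
  have h2 : PBd fun w : Raw => w.w.length / c :=
    (PT.id (A := ∅) (α := Raw)).pbd.mono fun _ => Nat.div_le_self _ _
  exact PT.mapConst _ fun j _ => PT.map
    (f := fun (w : Raw) i => w.w.getD (j * (w.w.length / c) + i) false) (PT.range h1 h2)
    (PT.rawGetD PT.fst' (((PT.const _).mul (h1.comp PT.fst')).add PT.snd'))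

section Prog

variable {Q : Type} {N m : ℕ}
  (δ : Q → (Fin (N + 1) → Option Bool) → Q × (Fin (N + 1) → Option (Option Bool))) (q₀ : Q)
  (e : TabCell Q N ≃ Fin m)

/-- the bits of a cell -/
def code (γ : TabCell Q N) : Bool ⊕ Fin m → Bool
  | .inl false => decide (γ.2 0 = some true)
  | .inl true => true
  | .inr j => decide (e γ = j)

/-- the cell with given bits -/
noncomputable def dec (b : Fin m → Bool) : TabCell Q N :=
  if h : ∃ j, b j = true then e.symm h.choose else (q₀, fun _ => none)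

theorem dec_code (γ : TabCell Q N) : dec q₀ e (fun j => code e γ (.inr j)) = γ := by
  have h : ∃ j, code e γ (.inr j) = true := ⟨e γ, decide_eq_true rfl⟩
  rw [dec, dif_pos h, ← of_decide_eq_true h.choose_spec, Equiv.symm_apply_apply]

/-- the gate of a variable -/
noncomputable def gate (τ : Bool × Bool × Bool × Bool × (Bool ⊕ Fin m))
    (y : Option (Fin 4 × Fin m) → Bool) : Bool :=
  bif τ.1 then false else code e (bif τ.2.1 then
      (q₀, fun k => if k = 0 ∧ τ.2.2.2.1 = true then some (y none) else none)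
    else tabRule δ τ.2.2.1 (dec q₀ e fun j => y (some (0, j))) (dec q₀ e fun j => y (some (1, j)))
      (dec q₀ e fun j => y (some (2, j))) (dec q₀ e fun j => y (some (3, j)))) τ.2.2.2.2

/-- the type of the gate of a variable -/
def tag (n w : ℕ) (v : XT n m) : Bool × Bool × Bool × Bool × (Bool ⊕ Fin m) :=
  (decide ((v.1 : ℕ) = 0 ∨ n < v.1 + v.2.1), decide ((v.1 : ℕ) = 1), decide ((v.2.1 : ℕ) = 0),
    decide ((v.2.1 : ℕ) < w), v.2.2)

/-- the program -/
noncomputable def prog (c ℓ n T₀ : ℕ) : SLP c ℓ (XT n m) (Option (Fin 4 × Fin m)) where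
  T := n
  lev v := if (v.1 : ℕ) = 0 then (if (v.2.1 : ℕ) < c * ℓ ∧ v.2.2 = .inl false then 0 else 1) else v.1
  clk t := mk n t 0 (.inl true)
  rd v d := match d with
    | none => mk n 0 v.2.1 (.inl false)
    | some (p, j) =>
      mk n (v.1 - 1) ((![0, v.2.1 - 1, v.2.1, v.2.1 + 1] : Fin 4 → ℕ) p) (.inr j)
  fn v := gate δ q₀ e (tag n (c * ℓ) v)
  inp j i := mk n 0 (j * ℓ + i) (.inl false)
  out i := mk n (T₀ + 1) i (.inl false)
  first := mk n 0 0 (.inl true)

variable {c ℓ n T₀ : ℕ}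

theorem lev_mk {t : ℕ} (h1 : 1 ≤ t) (h2 : t ≤ n) (i : ℕ) (k : Bool ⊕ Fin m) :
    (prog δ q₀ e c ℓ n T₀).lev (mk n t i k) = t := by
  simp only [prog, mk_row h2]
  rw [if_neg (by omega)]

theorem wf_prog (hn : T₀ + 1 + ℓ + c * ℓ ≤ n) : (prog δ q₀ e c ℓ n T₀).WF where
  pos := by show 1 ≤ n; omega
  lev_le v := by
    have := v.1.2
    simp only [prog]
    split_ifs <;> omega
  lev_first := by
    simp only [prog, mk_row (Nat.zero_le n), mk_kind]
    simp
  lev_clk t h1 h2 := lev_mk δ q₀ e h1 h2 _ _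
  clk_ne t h1 h2 h := by
    have h3 := congrArg (fun v : XT n m => (v.1 : ℕ)) h
    simp only [prog, mk_row (show t ≤ n from h2), mk_row (Nat.zero_le n)] at h3
    omega
  lev_zero v := by
    constructor
    · intro h
      simp only [prog] at h
      split_ifs at h with h1 h2
      · obtain ⟨j, i, h3⟩ := idx_surj h2.1
        refine ⟨j, i, ?_⟩
        show mk n 0 (j * ℓ + i) (.inl false) = v
        rw [h3, ← h1, ← h2.2, mk_self]
      · exact absurd h h1
    · rintro ⟨j, i, rfl⟩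
      have := idx_lt j i
      simp only [prog, mk_row (Nat.zero_le n), mk_col 0 (show j * ℓ + i ≤ n by omega), mk_kind]
      simp [this]
  inj p p' h := by
    have h1 := idx_lt p.1 p.2
    have h2 := idx_lt p'.1 p'.2
    have h3 := congrArg (fun v : XT n m => (v.2.1 : ℕ)) h
    simp only [prog, mk_col 0 (show p.1 * ℓ + p.2 ≤ n by omega),
      mk_col 0 (show p'.1 * ℓ + p'.2 ≤ n by omega)] at h3
    exact Prod.ext (idx_inj h3).1 (idx_inj h3).2
  out_ne i h := by
    have h3 := congrArg (fun v : XT n m => v.2.2) h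
    simp [prog, mk_kind] at h3

/-- the configuration at time `r` -/
def conf (z : Word) (r : ℕ) : Q × (Fin (N + 1) → Word) :=
  (smStep δ)^[r] (q₀, fun k => if k = 0 then z else [])

/-- the values of the variables -/
noncomputable def vals (σ : Fin c → Fin ℓ → Bool) (v : XT n m) : Bool :=
  if (v.1 : ℕ) = 0 then decide ((v.2.1 : ℕ) < c * ℓ ∧ v.2.2 = .inl false) && bit σ v.2.1
  else if v.1 + v.2.1 ≤ n then code e (tabRow (conf δ q₀ (flat σ) (v.1 - 1)) v.2.1) v.2.2 else false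

theorem vals_mk (σ : Fin c → Fin ℓ → Bool) {t i : ℕ} (h1 : 1 ≤ t) (h2 : t + i ≤ n) (k : Bool ⊕ Fin m) :
    vals δ q₀ e σ (mk n t i k) = code e (tabRow (conf δ q₀ (flat σ) (t - 1)) i) k := by
  rw [vals, mk_row (by omega), mk_col _ (by omega), if_neg (by omega), if_pos h2, mk_kind]

theorem vals_zero (σ : Fin c → Fin ℓ → Bool) {i : ℕ} (h1 : i < c * ℓ) (h2 : i ≤ n) :
    vals δ q₀ e σ (mk n 0 i (.inl false)) = bit σ i := by
  rw [vals, mk_row (Nat.zero_le n), mk_col _ h2, if_pos rfl, mk_kind]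
  simp [h1]

theorem vals_prog (hn : T₀ + 1 + ℓ + c * ℓ ≤ n) (σ : Fin c → Fin ℓ → Bool) :
    (prog δ q₀ e c ℓ n T₀).Vals σ (vals δ q₀ e σ) where
  inp j i := by
    have := idx_lt j i
    exact (vals_zero δ q₀ e σ this (by omega)).trans (bit_idx σ j i)
  clk t h1 h2 := vals_mk δ q₀ e σ h1 h2 _
  fn v h1 h2 x hx := by
    show gate δ q₀ e (tag n (c * ℓ) v) (fun d => x ((prog δ q₀ e c ℓ n T₀).rd v d)) = _
    by_cases h3 : (v.1 : ℕ) = 0
    · have h4 : ¬ ((v.2.1 : ℕ) < c * ℓ ∧ v.2.2 = .inl false) := fun h => h2 (by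
        simp only [prog]
        rw [if_pos h3, if_pos h])
      simp [gate, tag, vals, h3, h4]
    have hl : (prog δ q₀ e c ℓ n T₀).lev v = v.1 := if_neg h3
    rw [hl] at hx
    by_cases h4 : (v.1 : ℕ) + v.2.1 ≤ n
    swap
    · have h5 : n < v.1 + v.2.1 := by omega
      simp [gate, tag, vals, h3, h4, h5]
    have h5 : ¬ n < v.1 + v.2.1 := by omega
    rw [vals, if_neg h3, if_pos h4]
    simp only [gate, tag, h3, h5, or_self, decide_false, cond_false]
    congr 1
    by_cases h6 : (v.1 : ℕ) = 1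
    · simp only [h6, decide_true, cond_true, decide_eq_true_eq, Nat.sub_self, conf,
        Function.iterate_zero, id, tabRow]
      refine Prod.ext rfl (funext fun k => ?_)
      by_cases hk : k = 0
      · subst hk
        by_cases h7 : (v.2.1 : ℕ) < c * ℓ
        · have h8 : x (mk n 0 v.2.1 (.inl false)) = bit σ v.2.1 := by
            rw [hx _ (fun h => by simpa [prog, mk_kind] using congrArg (fun u : XT n m => u.2.2) h)
              ?_, vals_zero δ q₀ e σ h7 (by omega)]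
            simp only [prog, mk_row (Nat.zero_le n), mk_col 0 (show (v.2.1 : ℕ) ≤ n by omega),
              mk_kind]
            simp [h7, h6]
          simp only [h7, and_self, if_true, prog, h8, flat]
          rw [List.getElem?_map, List.getElem?_range h7]
          rfl
        · simp only [h7, and_false, if_false, if_true, flat]
          rw [List.getElem?_eq_none (by simpa using h7)]
      · simp [hk]
    · have h7 : ∀ i : ℕ, i ≤ v.2.1 + 1 → (dec q₀ e fun j => x (mk n (v.1 - 1) i (.inr j))) =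
          tabRow (conf δ q₀ (flat σ) (v.1 - 1 - 1)) i := by
        intro i hi
        rw [← dec_code q₀ e (tabRow _ i)]
        congr 1
        funext j
        rw [hx _ (fun h => by simpa [prog, mk_kind] using congrArg (fun u : XT n m => u.2.2) h) ?_,
          vals_mk δ q₀ e σ (by omega) (by omega)]
        rw [lev_mk δ q₀ e (by omega) (by omega)]
        omega
      have h8 : conf δ q₀ (flat σ) (v.1 - 1) = smStep δ (conf δ q₀ (flat σ) (v.1 - 1 - 1)) := by
        rw [conf, conf, ← Function.iterate_succ_apply' (smStep δ)]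
        congr 1
        omega
      rw [h8, tabRow_step, ← h7 0 (by omega), ← h7 (v.2.1 - 1) (by omega), ← h7 v.2.1 (by omega),
        ← h7 (v.2.1 + 1) le_rfl]
      simp only [h6, decide_false, cond_false]
      rfl

theorem vals_out (hn : T₀ + 1 + ℓ + c * ℓ ≤ n) (σ : Fin c → Fin ℓ → Bool) (i : Fin ℓ) :
    vals δ q₀ e σ ((prog δ q₀ e c ℓ n T₀).out i) =
      ((conf δ q₀ (flat σ) T₀).2 0).getD i false := by
  have := i.2
  refine (vals_mk δ q₀ e σ (by omega) (by omega) _).trans ?_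
  simp only [code, tabRow, Nat.add_sub_cancel, List.getD_eq_getElem?_getD]
  rcases ((conf δ q₀ (flat σ) T₀).2 0)[(i : ℕ)]? with _ | _ | _ <;> rfl

end Prog

section PT

variable {α : Type} [Enc α] {m : ℕ}

theorem dpt_mk {n t i : α → ℕ} {k : α → Bool ⊕ Fin m} (hn : DPT n) (ht : DPT t) (hi : DPT i)
    (hk : DPT k) : DPT fun a => mk (n a) (t a) (i a) (k a) :=
  ((ht.natMod (hn.natAdd (DPT.const 1))).pair
    ((hi.natMod (hn.natAdd (DPT.const 1))).pair hk)).of_enc fun _ => rfl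

theorem dpt_val {n : α → ℕ} {f : ∀ a, Fin (n a)} (h : DPT f) : DPT fun a => (f a : ℕ) :=
  h.of_enc fun _ => rfl

theorem dpt_finRange {n : α → ℕ} (hn : DPT n) (hb : PBd n) : DPT fun a => List.finRange (n a) :=
  (DPT.range hn hb).of_enc fun a => by
    rw [← List.map_coe_finRange_eq_range, ← enc_map_raw, List.map_map,
      ← enc_map_raw (List.finRange _)]
    rfl

theorem dpt_product {β γ : α → Type} [∀ a, Enc (β a)] [∀ a, Enc (γ a)] {l : ∀ a, List (β a)}
    {r : ∀ a, List (γ a)} (hl : DPT l) (hr : DPT r) : DPT fun a => l a ×ˢ r a :=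
  DPT.flatMap (f := fun a x => (r a).map (Prod.mk x)) hl
    (DPT.map (l := fun p : Σ a, {x // x ∈ l a} => r p.1) (f := fun p y => (p.2.1, y))
      (hr.comp DPT.id.sfst)
      ((DPT.comp (g := fun p : Σ a, {x // x ∈ l a} => p.2.1) DPT.ssnd.val DPT.id.sfst).pair
        DPT.ssnd.val))

/-- the family of the types of variables -/
noncomputable abbrev XF (m : ℕ) {n : α → ℕ} (hn : DPT n) (hb : PBd n) : TF α where
  T a := XT (n a) m
  pt := dpt_product (dpt_finRange (hn.natAdd (DPT.const 1)) (hb.add (PBd.const 1)))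
    (dpt_product (dpt_finRange (hn.natAdd (DPT.const 1)) (hb.add (PBd.const 1))) (DPT.const _))

theorem pt_prog {Q : Type} {N : ℕ}
    (δ : Q → (Fin (N + 1) → Option Bool) → Q × (Fin (N + 1) → Option (Option Bool))) (q₀ : Q)
    (e : TabCell Q N ≃ Fin m) (c : ℕ) {ℓ n T₀ : α → ℕ} (hℓ : DPT ℓ) (hn : DPT n) (hT : DPT T₀) :
    SLP.IsPT fun a => prog δ q₀ e c (ℓ a) (n a) (T₀ a) := by
  have h0 : DPT fun x : Σ a, XT (n a) m => x.1 := DPT.id.sfst
  have h1 : DPT fun x : Σ a, XT (n a) m => (x.2.1 : ℕ) := dpt_val DPT.ssnd.fst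
  have h2 : DPT fun x : Σ a, XT (n a) m => (x.2.2.1 : ℕ) := dpt_val DPT.ssnd.snd.fst
  have h3 : DPT fun x : Σ a, XT (n a) m => x.2.2.2 := DPT.ssnd.snd.snd
  have h4 : DPT fun x : Σ a, XT (n a) m => c * ℓ x.1 := (DPT.const c).natMul (hℓ.comp h0)
  have h5 : DPT fun x : Σ a, Fin (ℓ a) => x.1 := DPT.id.sfst
  have h6 : DPT fun x : Σ a, Fin (ℓ a) => (x.2 : ℕ) := dpt_val DPT.ssnd
  refine ⟨hn, ?_, ?_, fun d => ?_, ?_, fun j => ?_, ?_, ?_⟩
  · exact DPT.ite (DPr.eq h1 (DPT.const 0)) (DPT.ite ((DPr.lt h2 h4).and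
      (DPr.eq h3 (DPT.const _))) (DPT.const 0) (DPT.const 1)) h1
  · have h7 : DPT fun x : α × ℕ => x.1 := DPT.ofPT PT.fst'
    have h8 : DPT fun x : α × ℕ => x.2 := DPT.ofPT PT.snd'
    exact dpt_mk (hn.comp h7) h8 (DPT.const 0) (DPT.const _)
  · rcases d with _ | ⟨p, j⟩
    · exact dpt_mk (hn.comp h0) (DPT.const 0) h2 (DPT.const _)
    · refine dpt_mk (hn.comp h0) (h1.natSub (DPT.const 1)) ?_ (DPT.const _)
      fin_cases p
      exacts [DPT.const 0, h2.natSub (DPT.const 1), h2, h2.natAdd (DPT.const 1)]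
  · have h7 : DPT fun x : Σ a, XT (n a) m => tag (n x.1) (c * ℓ x.1) x.2 :=
      (DPT.decide ((DPr.eq h1 (DPT.const 0)).or (DPr.lt (hn.comp h0) (h1.natAdd h2)))).pair
        ((DPT.decide (DPr.eq h1 (DPT.const 1))).pair ((DPT.decide (DPr.eq h2 (DPT.const 0))).pair
          ((DPT.decide (DPr.lt h2 h4)).pair h3)))
    have h8 := DPT.comp (f := fun x : Σ a, XT (n a) m × (Option (Fin 4 × Fin m) → Bool) =>
      (⟨x.1, x.2.1⟩ : Σ a, XT (n a) m)) h7 (DPT.smk DPT.id.sfst DPT.ssnd.fst)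
    exact dpt_finComp (fun p : (Bool × Bool × Bool × Bool × (Bool ⊕ Fin m)) ×
      (Option (Fin 4 × Fin m) → Bool) => gate δ q₀ e p.1 p.2) (h8.pair DPT.ssnd.snd)
  · exact dpt_mk (hn.comp h5) (DPT.const 0) (((DPT.const _).natMul (hℓ.comp h5)).natAdd h6)
      (DPT.const _)
  · exact dpt_mk (hn.comp h5) ((hT.comp h5).natAdd (DPT.const 1)) h6 (DPT.const _)
  · exact dpt_mk hn (DPT.const 0) (DPT.const 0) (DPT.const _)

end PT

end Eval

open Eval in
theorem evalStmt : EvalStmt := by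
  intro c F hF
  obtain ⟨g, hg, hg'⟩ := PT.rawOfList (hF.toPT.comp (pt_parse c))
  obtain ⟨Q, _, N, δ, q₀, k, hk⟩ := exists_sm hg
  have e : TabCell Q N ≃ Fin (Fintype.card (TabCell Q N)) := Fintype.equivFin _
  have h1 : DPT Un.v := PT.unVal PT.id
  have h1b : PBd Un.v := PBd.unVal (A := ∅) PT.id
  have h2 : DPT fun a : Un => c * a.v := (DPT.const c).natMul h1
  have h2b : PBd fun a : Un => c * a.v := (PBd.const c).mul h1b
  have h3 : DPT fun a : Un => pb k (c * a.v) := PT.powConst (h2.natAdd (DPT.const 2)) k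
  have h3b : PBd fun a : Un => pb k (c * a.v) := (h2b.add (PBd.const 2)).pow k
  have h4 : DPT fun a : Un => pb k (c * a.v) + 1 + a.v + c * a.v :=
    ((h3.natAdd (DPT.const 1)).natAdd h1).natAdd h2
  have h4b : PBd fun a : Un => pb k (c * a.v) + 1 + a.v + c * a.v :=
    ((h3b.add (PBd.const 1)).add h1b).add h2b
  refine ⟨_, XF _ h4 h4b, fun a => (prog δ q₀ e c a.v _ (pb k (c * a.v))).lbl,
    (pt_prog δ q₀ e c h1 h4 h3).lbl, fun a => ⟨(wf_prog δ q₀ e le_rfl).wf0, fun σ =>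
      ⟨SLP.wf_lbl (wf_prog δ q₀ e le_rfl) (vals_prog δ q₀ e le_rfl σ),
        SLP.evals_lbl (wf_prog δ q₀ e le_rfl) (vals_prog δ q₀ e le_rfl σ) fun i => ?_⟩⟩⟩
  refine (vals_out δ q₀ e le_rfl σ i).trans ?_
  have h5 : ∀ σ : Fin c → Fin a.v → Bool, (conf δ q₀ (flat σ) (pb k (c * a.v))).2 0 =
      F (List.ofFn fun j => List.ofFn (σ j)) := fun σ => by
    rw [conf, hk _ _ (by simp [flat]), ← parse_flat]
    exact hg' ⟨flat σ⟩
  exact congrArg (fun l : List Bool => l.getD i false) (h5 σ)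

end Vale.Agent.P330
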