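import Vale.Agent.P330.Glue
import Vale.Agent.P330.TC

/-!
P330, T6a: exact decoding by iterated correction; evaluation of vectors and rules in polynomial
time; majority of a list; decoding of the one-hot form.
-/

namespace Vale.Agent.P330

open Vale.Agent.Lib.PolyTime hiding C P
open Vale.Agent.Lib.Dep

namespace PolyA

/-! ### Fractions -/

section Frac

variable {X Y : Type} [Fintype X] [Fintype Y]

open Classical in
theorem frac_mul (p : X → Prop) :
    frac p * Fintype.card X = ((Finset.univ.filter p).card : ℝ) := by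
  rcases isEmpty_or_nonempty X with h | h
  · simp
  · have : (0 : ℝ) < Fintype.card X := by exact_mod_cast Fintype.card_pos
    rw [frac, div_mul_cancel₀ _ this.ne']

theorem frac_le_one (p : X → Prop) : frac p ≤ 1 := by
  classical
  unfold frac
  exact div_le_one_of_le₀ (by exact_mod_cast Finset.card_le_univ _) (by positivity)

theorem frac_not [Nonempty X] (p : X → Prop) : frac (fun x => ¬ p x) = 1 - frac p := by
  classical
  have h0 : (0 : ℝ) < Fintype.card X := by exact_mod_cast Fintype.card_pos
  have h1 := Finset.card_filter_add_card_filter_not (s := (Finset.univ : Finset X)) p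
  have h2 := congrArg (Nat.cast : ℕ → ℝ) h1
  rw [Nat.cast_add, Finset.card_univ] at h2
  have h3 := frac_mul p
  have h4 := frac_mul fun x => ¬ p x
  refine mul_right_cancel₀ h0.ne' ?_
  rw [sub_mul, h3, h4, one_mul, ← h2, add_sub_cancel_left]
  congr!

theorem not_of_frac_lt {p : X → Prop} (h : frac p * Fintype.card X < 1) (x : X) : ¬ p x := by
  classical
  intro hx
  rw [frac_mul] at h
  have h1 : (Finset.univ.filter p).card < 1 := by exact_mod_cast h
  have h2 : 0 < (Finset.univ.filter p).card := Finset.card_pos.2 ⟨x, by simpa using hx⟩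
  omega

theorem frac_prod [Nonempty X] (q : X × Y → Prop) :
    frac q * Fintype.card X = ∑ x, frac fun y => q (x, y) := by
  classical
  have h0 : (0 : ℝ) < Fintype.card X := by exact_mod_cast Fintype.card_pos
  unfold frac
  rw [← Finset.sum_div, Fintype.card_prod, Nat.cast_mul, div_mul_eq_mul_div,
    mul_comm (Fintype.card X : ℝ), mul_div_mul_right _ _ h0.ne']
  congr 1
  simp only [Finset.card_filter]
  push_cast
  rw [Fintype.sum_prod_type]

theorem frac_swap (q : X × Y → Prop) : frac (fun z : Y × X => q (z.2, z.1)) = frac q := by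
  classical
  unfold frac
  rw [Fintype.card_prod, Fintype.card_prod, mul_comm]
  congr 2
  exact Finset.card_equiv (Equiv.prodComm Y X) (by simp)

/-- a row of a product -/
theorem frac_row_le (q : X × Y → Prop) (x : X) :
    frac (fun y => q (x, y)) ≤ Fintype.card X * frac q := by
  have : Nonempty X := ⟨x⟩
  rw [mul_comm, frac_prod]
  exact Finset.single_le_sum (f := fun x => frac fun y => q (x, y))
    (fun _ _ => Glue.frac_nonneg _) (Finset.mem_univ x)

/-- a column of a product -/
theorem frac_col_le (q : X × Y → Prop) (y : Y) :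
    frac (fun x => q (x, y)) ≤ Fintype.card Y * frac q := by
  rw [← frac_swap q]
  exact frac_row_le (fun z : Y × X => q (z.2, z.1)) y

/-- Markov's inequality for the rows of a product -/
theorem frac_markov (q : X × Y → Prop) (t : ℝ) :
    t * frac (fun x => t ≤ frac fun y => q (x, y)) ≤ frac q := by
  classical
  rcases isEmpty_or_nonempty X with h | h
  · simp [frac]
  have h0 : (0 : ℝ) < Fintype.card X := by exact_mod_cast Fintype.card_pos
  refine le_of_mul_le_mul_right ?_ h0
  rw [mul_assoc, frac_mul, frac_prod, mul_comm, ← nsmul_eq_mul]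
  refine (Finset.card_nsmul_le_sum _ (fun x => frac fun y => q (x, y)) t fun x hx => ?_).trans
    (Finset.sum_le_sum_of_subset_of_nonneg (Finset.subset_univ _) fun _ _ _ => Glue.frac_nonneg _)
  exact (Finset.mem_filter.1 hx).2

theorem length_elems (X : Type) [Fintype X] [En X] : (elems X).length = Fintype.card X := by
  classical
  rw [← List.toFinset_card_of_nodup En.nodup, ← Finset.card_univ]
  congr 1
  exact Finset.eq_univ_iff_forall.2 fun v => List.mem_toFinset.2 (En.complete v)

theorem length_filter_elems [En X] (q : X → Bool) :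
    (((elems X).filter q).length : ℝ) = frac (fun x => q x = true) * Fintype.card X := by
  classical
  rw [frac_mul, ← List.toFinset_card_of_nodup (En.nodup.filter _)]
  congr 2
  ext x
  simp [En.complete]

end Frac

/-! ### Vectors and rules in polynomial time -/

section PT

variable {α κ : Type} [Enc α] [Enc κ] {c : κ → α} {T : κ → Type} [∀ x, Enc (T x)]

/-- a vector given by its entries -/
theorem dpt_vec (V : TF α) (hc : DPT c) {f : ∀ x, Vec (V.T (c x)) (T x)}
    (hf : DPT fun p : Σ x, V.T (c x) => f p.1 p.2) : DPT f := by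
  have h : DPT fun p : Σ x, {v // v ∈ elems (V.T (c x))} => (⟨p.1, p.2.1⟩ : Σ x, V.T (c x)) :=
    DPT.smk (DPT.sfst DPT.id) (DPT.val DPT.ssnd)
  exact (DPT.map (f := fun x => f x) (V.pt.comp hc) (hf.comp h)).of_enc fun _ => rfl

/-- an entry of a vector -/
theorem dpt_app (V : TF α) (hc : DPT c) {f : ∀ x, Vec (V.T (c x)) (T x)} {v : ∀ x, V.T (c x)}
    (hf : DPT f) (hv : DPT v) : DPT fun x => f x (v x) := by
  have h1 : DPT fun x => (elems (V.T (c x))).map (f x) := hf.of_enc fun _ => rfl
  have h2 : DPT fun x => TC.ix V (c x) (v x) :=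
    (TC.dpt_ix V).comp (f := fun x => (⟨c x, v x⟩ : Σ a, V.T a)) (DPT.smk hc hv)
  refine DPT.of_rawPT (PT.getD h1.listPT h2.toPT (PT.const ⟨[]⟩)) fun x => ?_
  have key : ∀ F : V.T (c x) → T x,
      (((elems (V.T (c x))).map F).map raw).getD (TC.ix V (c x) (v x)) ⟨[]⟩ = raw (F (v x)) := by
    intro F
    have h3 := TC.ix_lt V (c x) (v x)
    rw [List.getD_eq_getElem _ _ (by simpa using h3), List.getElem_map, List.getElem_map]
    exact congrArg (fun y => raw (F y)) (List.getElem_idxOf _)
  exact key (f x)

theorem esize_vec_le {V A : Type} [En V] [Enc A] {B : ℕ} (f : Vec V A) (h : ∀ v, esize (f v) ≤ B) :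
    esize f ≤ (elems V).length * (2 * B + 1) := by
  have key : ∀ F : V → A, (∀ v, esize (F v) ≤ B) →
      esize ((elems V).map F) ≤ (elems V).length * (2 * B + 1) := by
    intro F hF
    have h2 := esize_list_le (l := (elems V).map F) (B := B) fun y hy => by
      obtain ⟨v, -, rfl⟩ := List.mem_map.1 hy
      exact hF v
    rwa [List.length_map] at h2
  exact key f h

/-- a function on a fixed finite type with values in a family of types -/
theorem dpt_fun {S : Type} [Fintype S] {g : ∀ x, S → T x} (h : ∀ s, DPT fun x => g x s) :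
    DPT g :=
  (Glue.dpt_mapConst (Finset.univ.toList : List S) (f := fun s x => g x s) fun s _ => h s).of_enc
    fun _ => rfl

theorem eval_zero {k : ℕ} {P A B : Type} (r : Rule 0 k P A B) (inp : Fin 0 → P → A) (W : P → A) :
    r.eval inp W = r.fn fun j => W (r.rd j).2 := by
  unfold Rule.eval
  congr 1
  funext j
  rcases (r.rd j).1 with _ | i
  · rfl
  · exact i.elim0

/-- the value of a rule without inputs on a computed word -/
theorem dpt_eval0 {k : ℕ} (P : TF α) {S A B : α → Type} [∀ a, Enc (S a)] [∀ a, Enc (A a)]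
    [∀ a, Enc (B a)] {r : ∀ a, P.T a → S a → Rule 0 k (P.T a) (A a) (B a)} (hr : RulePT r)
    (hc : DPT c) {p : ∀ x, P.T (c x)} {s : ∀ x, S (c x)} {W : ∀ x, Vec (P.T (c x)) (A (c x))}
    (hp : DPT p) (hs : DPT s) (hW : DPT W) :
    DPT fun x => (r (c x) (p x) (s x)).eval noInp (W x) := by
  have h1 : ∀ j, DPT fun x => ((r (c x) (p x) (s x)).rd j).2 := fun j =>
    ((hr.rd j).comp (f := fun x => (⟨c x, p x, s x⟩ : Σ a, P.T a × S a))
      (DPT.smk hc (hp.pair hs))).snd
  have h2 : DPT fun x => (fun j => W x ((r (c x) (p x) (s x)).rd j).2 : Fin k → A (c x)) :=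
    dpt_fun fun j => dpt_app P hc hW (h1 j)
  exact (hr.fn.comp (f := fun x => (⟨c x, (p x, s x), fun j => W x ((r (c x) (p x) (s x)).rd j).2⟩ :
    Σ a, (P.T a × S a) × (Fin k → A a))) (DPT.smk hc ((hp.pair hs).pair h2))).congr fun x =>
      (eval_zero _ _ _).symm

end PT

/-! ### Majority -/

open Classical in
/-- the element which fills more than half of the list, if there is one -/
noncomputable def maj {A : Type} (l : List A) (d : A) : A :=
  (l.find? fun y => decide (l.length < 2 * (l.filter fun z => decide (z = y)).length)).getD d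

open Classical in
theorem maj_eq {A : Type} {l : List A} {d y : A}
    (h : l.length < 2 * (l.filter fun z => decide (z = y)).length) : maj l d = y := by
  have hy : y ∈ l := by
    obtain ⟨z, hz⟩ := List.exists_mem_of_length_pos
      (by omega : 0 < (l.filter fun z => decide (z = y)).length)
    rw [List.mem_filter, decide_eq_true_eq] at hz
    exact hz.2 ▸ hz.1
  unfold maj
  cases hf : l.find? fun y => decide (l.length < 2 * (l.filter fun z => decide (z = y)).length) with
  | none => exact absurd (by simpa using h) (List.find?_eq_none.1 hf y hy)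
  | some z =>
    have h1 := List.find?_some hf
    rw [decide_eq_true_eq] at h1
    by_contra hz
    have h2 := List.length_eq_length_filter_add (l := l) fun w => decide (w = y)
    have h3 : (l.filter fun w => decide (w = z)).length ≤
        (l.filter fun w => !decide (w = y)).length :=
      (List.monotone_filter_right l fun w hw => by
        rw [decide_eq_true_eq] at hw
        simpa [hw] using hz).length_le
    omega

theorem dpt_maj {κ : Type} [Enc κ] {T : κ → Type} [∀ x, Enc (T x)] [∀ x, EncInj (T x)]
    {l : ∀ x, List (T x)} {d : ∀ x, T x} (hl : DPT l) (hd : DPT d) :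
    DPT fun x => maj (l x) (d x) := by
  classical
  unfold maj
  refine DPT.optGetD (DPT.find? hl (DPT.decide (DPr.lt (hl.comp DPT.id.sfst).length
    ((DPT.const 2).natMul (DPT.length (DPT.filter (hl.comp DPT.id.sfst) ?_)))))) hd
  exact DPT.decide (DPr.eq DPT.ssnd.val (DPT.val (DPT.ssnd.comp DPT.id.sfst)))

/-! ### Iterated correction -/

/-- one round of correction -/
noncomputable def step {c k : ℕ} {P S A : Type} [En S] (L : LCode c k P S A) (W : Vec P A) :
    Vec P A :=
  fun p => maj ((elems S).map fun s => (L.cor p s).eval noInp W) (W p)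

theorem step_half {c k : ℕ} {P S A : Type} [Fintype P] [Fintype S] [En S] [Nonempty S]
    {L : LCode c k P S A} {inp : Fin c → P → A} {Δ θ h : ℝ} (hL : L.Good inp Δ θ h) {W U : P → A}
    (hW : L.Valid inp W) (hU : frac (fun p => U p ≠ W p) ≤ h) :
    frac (fun p => step L U p ≠ W p) ≤ frac (fun p => U p ≠ W p) / 2 := by
  classical
  refine le_trans (Glue.frac_mono fun p hp => ?_) (hL.cor W hW _ hU)
  by_contra h1
  refine hp (maj_eq ?_)
  rw [not_le, frac_not] at h1
  have h0 : (0 : ℝ) < Fintype.card S := by exact_mod_cast Fintype.card_pos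
  have h2 : frac (fun s => (L.cor p s).Safe W (fun p => U p ≠ W p) (W p)) ≤
      frac fun s => decide ((L.cor p s).eval noInp U = W p) = true :=
    Glue.frac_mono fun s hs => decide_eq_true (hs U fun q hq => not_not.1 hq)
  have h3 := length_filter_elems fun s => decide ((L.cor p s).eval noInp U = W p)
  rw [List.length_map, List.filter_map, List.length_map, length_elems]
  have h4 : (Fintype.card S : ℝ) <
      2 * (((elems S).filter fun s => decide ((L.cor p s).eval noInp U = W p)).length : ℝ) := by
    rw [h3]
    nlinarith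
  exact_mod_cast h4

theorem iter_half {c k : ℕ} {P S A : Type} [Fintype P] [Fintype S] [En S] [Nonempty S]
    {L : LCode c k P S A} {inp : Fin c → P → A} {Δ θ h : ℝ} (hL : L.Good inp Δ θ h) {W : P → A}
    {U : Vec P A} (hW : L.Valid inp W) (hU : frac (fun p => U p ≠ W p) ≤ h) (t : ℕ) :
    frac (fun p => (step L)^[t] U p ≠ W p) ≤ frac (fun p => U p ≠ W p) / 2 ^ t := by
  induction t with
  | zero => simp
  | succ t ih =>
    rw [Function.iterate_succ_apply', pow_succ, ← div_div]
    refine (step_half hL hW (ih.trans ?_)).trans (by linarith)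
    exact (div_le_self (Glue.frac_nonneg _) (one_le_pow₀ (by norm_num))).trans hU

end PolyA

open PolyA in
theorem exactStmt : ExactStmt := by
  intro c k α _ P S A _ _ L hL ⟨b, hb, hbA⟩
  refine ⟨fun a W => (step (L a))^[(elems (P.T a)).length] W, ?_, fun a inp Δ θ h W W0 hG hW h0 => ?_⟩
  · have h1 : DPT fun x : Σ a, Vec (P.T a) (A a) => elems (P.T x.1) := P.pt.comp DPT.id.sfst
    refine DPT.iterate (β := fun x : Σ a, Vec (P.T a) (A a) => Vec (P.T x.1) (A x.1))
      (f := fun x => step (L x.1)) h1.length (pbd_length h1) DPT.ssnd ?_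
      (b := fun x => (elems (P.T x.1)).length * (2 * b x.1 + 1))
      ((pbd_length h1).mul (((PBd.const 2).mul (pbd_comp hb DPT.id.sfst)).add (PBd.const 1)))
      fun x j _ => ?_
    · have h2 : DPT fun q : Σ x : (Σ a, Vec (P.T a) (A a)), Vec (P.T x.1) (A x.1) => q.1.1 :=
        DPT.id.sfst.sfst
      refine dpt_vec P h2 (dpt_maj (DPT.map (S.pt.comp (h2.comp DPT.id.sfst)) ?_)
        (dpt_app P (h2.comp DPT.id.sfst) (DPT.ssnd.comp DPT.id.sfst) DPT.ssnd))
      exact dpt_eval0 P hL.cor (h2.comp DPT.id.sfst.sfst) (DPT.ssnd.comp DPT.id.sfst) DPT.ssnd.val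
        (DPT.ssnd.comp DPT.id.sfst.sfst)
    · exact esize_vec_le _ fun _ => hbA _ _
  · funext p
    refine not_not.1 (not_of_frac_lt (p := fun p => (step (L a))^[(elems (P.T a)).length] W0 p ≠ W p)
      ?_ p)
    have h1 := iter_half hG hW h0 (elems (P.T a)).length
    have h2 : (Fintype.card (P.T a) : ℝ) < 2 ^ (elems (P.T a)).length := by
      rw [length_elems]
      exact_mod_cast Nat.lt_two_pow_self
    have h3 := frac_le_one fun p => W0 p ≠ W p
    have h4 : (0 : ℝ) < 2 ^ (elems (P.T a)).length := by positivity
    refine (mul_le_mul_of_nonneg_right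
      (h1.trans (div_le_div_of_nonneg_right h3 h4.le)) (by positivity)).trans_lt ?_
    rwa [one_div, inv_mul_lt_iff₀ h4, mul_one]

end Vale.Agent.P330
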