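import Vale.Agent.P330.Outer.Final
import Vale.Agent.P330.Outer.GM.Abs
import Vale.Agent.P330.Outer.GM.PT
import Vale.Agent.P330.Bohr.Asm
import Vale.Agent.P330.Bohr.Mix
import Vale.Agent.P330.Bohr.LTC
import Vale.Agent.P330.Bohr.Had
import Vale.Agent.P330.Bohr.Geo
import Vale.Agent.P330.Bohr.Oc
import Vale.Agent.P330.Bohr.Tab
import Vale.Agent.P330.Bohr.Lift
import Vale.Agent.P330.Bohr.Sound0
import Vale.Agent.P330.Bohr.Sound1
import Vale.Agent.P330.Bohr.Cons
import Vale.Agent.P330.Bohr.Compl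
import Vale.Agent.P330.Bohr.Step
import Vale.Agent.P330.Bohr.Graph
import Vale.Agent.P330.Bohr.Good
import Vale.Agent.P330.Bohr.PT1
import Vale.Agent.P330.Bohr.PT2
import Vale.Agent.P330.Bohr.PT3
import Vale.Agent.P330.Bohr.PT4

/-!
P330: the assembly of all parts.
-/

namespace Vale.Agent.P330

open Bohr Outer

theorem allInst : AllInst := by
  intro q r m n Cw c ℓ D X _ _ _ _ ψ Γ M s lam hC
  have hT := tabP hC
  have hO := ocP M hC.wf0 (ZMod r)
  have hL := liftP hC hT hO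
  have hK := compP hC hT hO
  exact ⟨hT, hL, sound0P distStmt hC hT, sound1P distStmt hC hT, consP hC hT hO, hK,
    graphP hC hO hL hK (stepP hC hT hO)⟩

theorem allPT : AllPT := by
  intro q r Cw c D _ _ α _ ℓ m n X ψ Γ M h
  have h1 := pt1 h r
  exact ⟨h1, pt3 h h1 (pt2 h h1), pt4 h h1 (pt2 h h1)⟩

theorem bohr : BohrStmt :=
  bohr_of_parts geoStmt (goodStmt (hadStmt (ltcStmt mixStmt)) corStmt distStmt) allInst allPT

theorem goal : Goal := goal_of bohr (gm_of (GMD.absStmt (GMD.opStmt agDistStmt)) GMD.ptStmt)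

end Vale.Agent.P330
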