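import Vale.Agent.P330.Defs
import Mathlib.Data.Fintype.Pi
import Mathlib.Data.Fintype.Sum
import Mathlib.Data.Fintype.Prod
import Mathlib.Tactic.DeriveFintype
import Mathlib.Tactic.Linarith
import Mathlib.Data.NNRat.Lemmas
import Mathlib.Data.Rat.Cast.Order

/-!
P330: a generalized circuit of fixed shape which evaluates an arbitrary Boolean function of `k`
threshold readings without hazards.
-/

namespace Vale.Agent.P330

/-- Boolean functions of `k` bits -/
abbrev Fn (k : ℕ) : Type := (Fin k → Bool) → Bool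

/-- the nodes of the gadget -/
inductive Loc (k : ℕ) where
  | thr (d : Fin k)
  | rd (d : Fin k)
  | nrd (d : Fin k)
  | base (g : Fn k)
  | a1 (j : Fin k) (g : Fn k)
  | a0 (j : Fin k) (g : Fn k)
  | a2 (j : Fin k) (g : Fn k)
  | o1 (j : Fin k) (g : Fn k)
  | o2 (j : Fin k) (g : Fn k)
  | top
  deriving Fintype

variable {k : ℕ}

/-- the node which computes `g` from the first `j` readings -/
def Loc.lvl : ℕ → Fn k → Loc k
  | 0, g => .base g
  | j + 1, g => if h : j < k then .o2 ⟨j, h⟩ g else .base g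

/-- substitution of a constant for a variable -/
def Fn.fix (g : Fn k) (j : Fin k) (c : Bool) : Fn k := fun σ => g (Function.update σ j c)

/-- the gate whose output is the node `t`; `nm` gives the numbers of the nodes of the gadget, `ext`
the numbers of the nodes which are read, `θ` the thresholds -/
def gate (nm : Loc k → ℕ) (ext : Fin k → ℕ) (θ : Fin k → ℚ≥0) (f : Fn k) (t : Loc k) : GGate :=
  match t with
  | .thr d => .const (θ d) (nm t)
  | .rd d => .less (nm (.thr d)) (ext d) (nm t)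
  | .nrd d => .not (nm (.rd d)) (nm t)
  | .base g => .const (bif g (fun _ => false) then 1 else 0) (nm t)
  | .a1 j g => .and (nm (.rd j)) (nm (.lvl j (g.fix j true))) (nm t)
  | .a0 j g => .and (nm (.nrd j)) (nm (.lvl j (g.fix j false))) (nm t)
  | .a2 j g => .and (nm (.lvl j (g.fix j true))) (nm (.lvl j (g.fix j false))) (nm t)
  | .o1 j g => .or (nm (.a1 j g)) (nm (.a0 j g)) (nm t)
  | .o2 j g => .or (nm (.o1 j g)) (nm (.a2 j g)) (nm t)
  | .top => .or (nm (.lvl k f)) (nm (.lvl k f)) (nm t)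

variable {nm : Loc k → ℕ} {ext : Fin k → ℕ} {θ : Fin k → ℚ≥0} {f : Fn k}

theorem gate_out (t : Loc k) : (gate nm ext θ f t).out = nm t := by
  cases t <;> rfl

theorem gate_ins (t : Loc k) : ∀ a ∈ (gate nm ext θ f t).ins, (∃ s, a = nm s) ∨ ∃ d, a = ext d := by
  cases t <;> simp only [gate, GGate.ins, List.mem_cons, List.not_mem_nil, or_false, forall_eq,
    forall_eq_or_imp, false_imp_iff, implies_true] <;>
    first
      | exact ⟨Or.inl ⟨_, rfl⟩, Or.inl ⟨_, rfl⟩⟩
      | exact ⟨Or.inl ⟨_, rfl⟩, Or.inr ⟨_, rfl⟩⟩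
      | exact Or.inl ⟨_, rfl⟩

theorem gate_par (t : Loc k) :
    (gate nm ext θ f t).par = [] ∨ (gate nm ext θ f t).par = [0] ∨ (gate nm ext θ f t).par = [1] ∨
      ∃ d, (gate nm ext θ f t).par = [θ d] := by
  cases t with
  | thr d => exact Or.inr (Or.inr (Or.inr ⟨d, rfl⟩))
  | base g => cases h : g (fun _ => false) <;> simp [gate, GGate.par, h]
  | _ => exact Or.inl rfl

/-- the real number `y` represents the bit `b` -/
def Val (ε : ℝ) (b : Bool) (y : ℝ) : Prop := bif b then 1 - ε ≤ y else y ≤ ε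

theorem lvl_val {ε : ℝ} {x : ℕ → ℝ} (h : ∀ t, (gate nm ext θ f t).Sat ε x) {P : Fin k → Bool → Prop}
    (hP : ∀ d b, P d b → Val ε b (x (nm (.rd d)))) (j : ℕ) (hj : j ≤ k) (g : Fn k) (b : Bool)
    (hg : ∀ σ : Fin k → Bool, (∀ d : Fin k, d.1 < j → ∀ c, P d c → σ d = c) → g σ = b)
    (hu : ∀ d, P d true → P d false → False) :
    Val ε b (x (nm (.lvl j g))) := by
  induction j generalizing g with
  | zero =>
    have h1 := h (.base g)
    rw [gate, hg _ fun d hd => absurd hd (Nat.not_lt_zero _), GGate.Sat, abs_le] at h1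
    cases b
    · simpa [Val, Loc.lvl] using h1.2
    · have := h1.1
      simp only [Val, Loc.lvl, cond_true, NNRat.cast_one] at this ⊢
      linarith
  | succ j ih =>
    have hj' : j < k := hj
    have key : ∀ c : Bool, ¬ P ⟨j, hj'⟩ (!c) → Val ε b (x (nm (.lvl j (g.fix ⟨j, hj'⟩ c)))) := by
      intro c hc
      refine ih hj'.le _ fun σ hσ => hg _ fun d hd c' hc' => ?_
      by_cases e : d = ⟨j, hj'⟩
      · subst e
        rw [Function.update_self]
        cases c <;> cases c' <;> simp_all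
      · rw [Function.update_of_ne e]
        exact hσ d (by have : d.1 ≠ j := fun h => e (Fin.ext h); omega) c' hc'
    have h1 := h (.a1 ⟨j, hj'⟩ g)
    have h0 := h (.a0 ⟨j, hj'⟩ g)
    have h2 := h (.a2 ⟨j, hj'⟩ g)
    have h3 := h (.o1 ⟨j, hj'⟩ g)
    have h4 := h (.o2 ⟨j, hj'⟩ g)
    have h5 := h (.nrd ⟨j, hj'⟩)
    have k1 := key true
    have k0 := key false
    have p1 := hP ⟨j, hj'⟩ true
    have p0 := hP ⟨j, hj'⟩ false
    have u := hu ⟨j, hj'⟩
    simp only [gate, GGate.Sat] at h1 h0 h2 h3 h4 h5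
    rw [Loc.lvl, dif_pos hj']
    by_cases c1 : P ⟨j, hj'⟩ true
    · have k1 := k1 (u c1)
      cases b
      · exact h4.2 ⟨h3.2 ⟨h1.2 (Or.inr k1), h0.2 (Or.inl (h5.2 (p1 c1)))⟩, h2.2 (Or.inl k1)⟩
      · exact h4.1 (Or.inl (h3.1 (Or.inl (h1.1 ⟨p1 c1, k1⟩))))
    · have k0 := k0 c1
      by_cases c0 : P ⟨j, hj'⟩ false
      · cases b
        · exact h4.2 ⟨h3.2 ⟨h1.2 (Or.inl (p0 c0)), h0.2 (Or.inr k0)⟩, h2.2 (Or.inr k0)⟩
        · exact h4.1 (Or.inl (h3.1 (Or.inr (h0.1 ⟨h5.1 (p0 c0), k0⟩))))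
      · have k1 := k1 c0
        cases b
        · exact h4.2 ⟨h3.2 ⟨h1.2 (Or.inr k1), h0.2 (Or.inr k0)⟩, h2.2 (Or.inr k0)⟩
        · exact h4.1 (Or.inr (h2.1 ⟨k1, k0⟩))

/-- The meaning of the gadget. -/
theorem top_val {ε : ℝ} (hε : 0 ≤ ε) {x : ℕ → ℝ} (h : ∀ t, (gate nm ext θ f t).Sat ε x) (b : Bool)
    (hf : ∀ σ : Fin k → Bool, (∀ d, (θ d + 2 * ε < x (ext d) → σ d = true) ∧
      (x (ext d) < θ d - 2 * ε → σ d = false)) → f σ = b) : Val ε b (x (nm .top)) := by
  have h1 := lvl_val h (P := fun d c => bif c then θ d + 2 * ε < x (ext d)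
      else x (ext d) < θ d - 2 * ε) (fun d c hc => by
      have h2 := h (.thr d)
      have h3 := h (.rd d)
      simp only [gate, GGate.Sat, abs_le] at h2 h3
      cases c
      · exact h3.2 (by simp only [cond_false] at hc; linarith [h2.1])
      · exact h3.1 (by simp only [cond_true] at hc; linarith [h2.2])) k le_rfl f b
    (fun σ hσ => hf σ fun d => ⟨hσ d d.2 true, hσ d d.2 false⟩) fun d h1 h0 => by
      simp only [cond_true, cond_false] at h1 h0
      linarith
  have h2 := h .top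
  cases b
  · exact h2.2 ⟨h1, h1⟩
  · exact h2.1 (Or.inl h1)

end Vale.Agent.P330
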