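import Vale.Agent.P330.Stmts

/-!
P330: gluing of modules by renaming of registers.
-/

namespace Vale.Agent.P330.Glue

open Vale.Agent.Lib.PolyTime hiding C P
open Vale.Agent.Lib.Dep

/-! ### Fractions -/

section Frac

variable {C : Type} [Fintype C]

theorem frac_nonneg (p : C → Prop) : 0 ≤ frac p := by
  unfold frac; positivity

theorem frac_mono {p q : C → Prop} (h : ∀ c, p c → q c) : frac p ≤ frac q := by
  classical
  unfold frac
  refine div_le_div_of_nonneg_right ?_ (by positivity)
  exact_mod_cast Finset.card_le_card fun c hc => by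
    simp only [Finset.mem_filter, Finset.mem_univ, true_and] at hc ⊢
    exact h c hc

theorem frac_congr {p q : C → Prop} (h : ∀ c, p c ↔ q c) : frac p = frac q :=
  le_antisymm (frac_mono fun c => (h c).1) (frac_mono fun c => (h c).2)

theorem tvd_le_pd (w : C → ℝ) (u : C → Bool) : tvd w u ≤ pd w u :=
  frac_mono fun c hc h => by rw [h] at hc; norm_num at hc

end Frac

/-! ### Gates -/

theorem sat_map {V W : Type} (φ : V → W) (g : Gate V) (η : ℝ) (x : W → ℝ) (o : ℝ) :
    (g.map φ).Sat η x o ↔ g.Sat η (fun v => x (φ v)) o := by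
  unfold Gate.Sat Gate.map
  simp only [List.forall₂_map_left_iff]

theorem sat_mono {V : Type} {g : Gate V} {η η' : ℝ} {x : V → ℝ} {o : ℝ} (h : η ≤ η')
    (hs : g.Sat η x o) : g.Sat η' x o :=
  fun b hb => hs b fun y hy => hb y (hy.imp fun _ _ ht => ht.trans h)

theorem ok_mono {C R J : Type} [Fintype C] {m : Mod C R J} {η η' : ℝ} {x : C × (R ⊕ J) → ℝ}
    (h : η ≤ η') (hs : m.Ok η x) : m.Ok η' x :=
  fun r => ((frac_mono fun _ hc h' => hc (sat_mono h h')).trans (hs r)).trans h

section PT

variable {α : Type} [Enc α]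

/-- A function on a finite type applied to a computed value. -/
theorem dpt_fin {γ β : Type} [Enc γ] [Finite γ] [EncInj γ] [Enc β] (f : γ → β) {c : α → γ}
    (hc : DPT c) : DPT fun a => f (c a) := DPT.ofPT (PT.finComp f hc.toPT)

theorem finSel_of_dpt {γ Z : Type} [Enc γ] [Fintype γ] [EncInj γ] (k : γ → Z) {c : α → γ}
    (hc : DPT c) : FinSel fun a => k (c a) :=
  ⟨Fintype.card γ, fun a => Fintype.equivFin γ (c a), fun i => k ((Fintype.equivFin γ).symm i),
    dpt_fin _ hc, fun a => by simp⟩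

theorem finSel_const {Z : Type} (z : Z) : FinSel fun _ : α => z :=
  finSel_of_dpt (γ := Unit) (fun _ => z) (DPT.const ())

theorem finSel_comp {κ Z : Type} [Enc κ] {f : α → Z} {c : κ → α} (hf : FinSel f) (hc : DPT c) :
    FinSel fun x => f (c x) := by
  obtain ⟨n, t, k, ht, h⟩ := hf
  exact ⟨n, fun x => t (c x), k, ht.comp hc, fun x => h _⟩

theorem finSel_map {Z Z' : Type} {f : α → Z} (hf : FinSel f) (F : Z → Z') :
    FinSel fun a => F (f a) := by
  obtain ⟨n, t, k, ht, h⟩ := hf
  exact ⟨n, t, fun i => F (k i), ht, fun x => congrArg F (h x)⟩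

variable {V W : α → Type} [∀ a, Enc (V a)] [∀ a, Enc (W a)]

theorem gatePT_congr {g g' : ∀ a, Gate (V a)} (hg : GatePT g) (h : ∀ a, g a = g' a) :
    GatePT g' := by
  rwa [← funext h]

/-- Renaming of the nodes by a polynomial time map. -/
theorem gatePT_map {g : ∀ a, Gate (V a)} (hg : GatePT g) (φ : ∀ a, V a → W a)
    (hφ : DPT fun p : Σ a, V a => φ p.1 p.2) : GatePT fun a => (g a).map (φ a) where
  src := by
    have h : DPT fun p : Σ a, {x // x ∈ (g a).src} => (⟨p.1, p.2.1⟩ : Σ a, V a) :=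
      DPT.smk (DPT.sfst DPT.id) (DPT.val DPT.ssnd)
    exact DPT.map (f := φ) hg.src (hφ.comp h)
  fn := hg.fn
  len := by
    obtain ⟨n, hn⟩ := hg.len
    exact ⟨n, fun a => by simpa [Gate.map] using hn a⟩

/-- Change of the context. -/
theorem gatePT_comp {κ : Type} [Enc κ] {g : ∀ a, Gate (V a)} (hg : GatePT g) {c : κ → α}
    (hc : DPT c) : GatePT fun x => g (c x) where
  src := hg.src.comp hc
  fn := finSel_comp hg.fn hc
  len := by
    obtain ⟨n, hn⟩ := hg.len
    exact ⟨n, fun x => hn _⟩

theorem dpt_mapConst {κ : Type} (l : List κ) {f : κ → ∀ a, V a} (hf : ∀ x ∈ l, DPT (f x)) :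
    DPT fun a => l.map fun x => f x a := by
  induction l with
  | nil => exact DPT.nil
  | cons y l ih =>
    exact DPT.cons (hf y (by simp)) (ih fun x hx => hf x (by simp [hx]))

/-- Gates with a fixed index set of readings. -/
theorem gatePT_mk' {D : Type} [En D] [DecidableEq D] {src : ∀ a, D → V a}
    {F : α → (D → ℝ) → Bool} (hs : ∀ d, DPT fun a => src a d) (hF : FinSel F) :
    GatePT fun a => Gate.mk' (src a) (F a) where
  src := dpt_mapConst (elems D) (f := fun d a => src a d) fun d _ => hs d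
  fn := finSel_map hF fun G (l : List ℝ) => G fun d => l.getD ((elems D).idxOf d) 0
  len := ⟨(elems D).length, fun a => by simp [Gate.mk']⟩

/-- Case distinction on a computed element of a fixed finite type. -/
theorem dpt_finCase {γ : Type} [Enc γ] [Finite γ] [EncInj γ] {c : α → γ} (hc : DPT c)
    {f : γ → ∀ a, V a} (hf : ∀ j, DPT (f j)) : DPT fun a => f (c a) a :=
  DPT.of_rawPT (PT.finCase (f := fun j a => raw (f j a)) hc.toPT fun j => (hf j).rawPT)
    fun _ => rfl

theorem finSel_finCase {γ Z : Type} [Enc γ] [Fintype γ] [EncInj γ] {c : α → γ} (hc : DPT c)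
    {f : γ → α → Z} (hf : ∀ j, FinSel (f j)) : FinSel fun a => f (c a) a := by
  classical
  choose n t k ht h using hf
  let e := Fintype.equivFin (Σ j, Fin (n j))
  refine ⟨_, fun a => e ⟨c a, t (c a) a⟩, fun i => k (e.symm i).1 (e.symm i).2, ?_, fun a => ?_⟩
  · exact dpt_finCase (V := fun _ => Fin _) hc (f := fun j a => e ⟨j, t j a⟩)
      fun j => dpt_fin (fun i => e ⟨j, i⟩) (ht j)
  · have : e.symm (e ⟨c a, t (c a) a⟩) = ⟨c a, t (c a) a⟩ := e.symm_apply_apply _
    simp only []
    rw [this, h]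

/-- A family of gates selected by a computed element of a fixed finite type. -/
theorem gatePT_finCase {γ : Type} [Enc γ] [Fintype γ] [EncInj γ] {c : α → γ} (hc : DPT c)
    {g : γ → ∀ a, Gate (V a)} (hg : ∀ j, GatePT (g j)) : GatePT fun a => g (c a) a where
  src := dpt_finCase hc (f := fun j a => (g j a).src) fun j => (hg j).src
  fn := finSel_finCase hc (f := fun j a => (g j a).fn) fun j => (hg j).fn
  len := by
    choose n hn using fun j => (hg j).len
    exact ⟨Finset.univ.sup n, fun a =>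
      (hn _ a).trans (Finset.le_sup (f := n) (Finset.mem_univ _))⟩

end PT

/-! ### Renaming of registers -/

section Ren

variable {C R J R' J' : Type}

/-- The register `r` becomes `ι r`; the external register `j` becomes `κ j`. -/
def rn (ι : R → R') (κ : J → R' ⊕ J') : C × (R ⊕ J) → C × (R' ⊕ J') :=
  fun p => (p.1, Sum.elim (fun r => Sum.inl (ι r)) κ p.2)

/-- the gates of the module after the renaming -/
def ren (ι : R → R') (κ : J → R' ⊕ J') (m : Mod C R J) (c : C) (r : R) : Gate (C × (R' ⊕ J')) :=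
  (m c r).map (rn ι κ)

/-- the assignment seen by the part -/
def pull (ι : R → R') (κ : J → R' ⊕ J') (x : C × (R' ⊕ J') → ℝ) : C × (R ⊕ J) → ℝ :=
  fun p => x (rn ι κ p)

variable {ι : R → R'} {κ : J → R' ⊕ J'} {x : C × (R' ⊕ J') → ℝ}

theorem reg_pull (r : R) : reg (pull ι κ x) r = reg x (ι r) := rfl

theorem ext_pull (j : J) : ext (pull ι κ x) j = fun c => x (c, κ j) := rfl

theorem ext_pull_inl {j : J} {r : R'} (h : κ j = Sum.inl r) : ext (pull ι κ x) j = reg x r := by
  rw [ext_pull, h]

theorem ext_pull_inr {j : J} {i : J'} (h : κ j = Sum.inr i) : ext (pull ι κ x) j = ext x i := by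
  rw [ext_pull, h]

theorem unit01_pull (hx : Unit01 x) : Unit01 (pull ι κ x) := fun _ => hx _

/-- A part of a module which is in order is in order. -/
theorem ok_pull [Fintype C] {M : Mod C R' J'} {m : Mod C R J} {η η' : ℝ}
    (h : ∀ c r, M c (ι r) = ren ι κ m c r) (hη : η ≤ η') (hM : M.Ok η x) :
    m.Ok η' (pull ι κ x) := by
  refine ok_mono hη fun r => le_trans (le_of_eq (frac_congr fun c => ?_)) (hM (ι r))
  rw [h, ren, sat_map]
  rfl

/-- A copy of a module inside an arbitrary circuit `g`. -/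
theorem ok_of_embed [Fintype C] {V : Type} {g : V → Gate V} {m : Mod C R J}
    (φ : C × (R ⊕ J) → V) {η : ℝ} {y : V → ℝ}
    (h : ∀ c r, g (φ (c, Sum.inl r)) = (m c r).map φ)
    (hM : ∀ r, frac (fun c => ¬ (g (φ (c, Sum.inl r))).Sat η y (y (φ (c, Sum.inl r)))) ≤ η) :
    m.Ok η fun p => y (φ p) := by
  refine fun r => le_trans (le_of_eq (frac_congr fun c => ?_)) (hM r)
  rw [h, sat_map]

end Ren

section RenPT

variable {α : Type} [Enc α] {C : α → Type} [∀ a, Enc (C a)] {R J R' J' : Type} [Enc R] [Enc J]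
  [Enc R'] [Enc J']

theorem gatePT_ren [Finite R] [Finite J] [EncInj R] [EncInj J] (ι : R → R') (κ : J → R' ⊕ J')
    {m : ∀ a, Mod (C a) R J} (hm : ModPT m) (r : R) :
    GatePT fun x : Σ a, C a => ren ι κ (m x.1) x.2 r :=
  gatePT_map (hm r) (fun _ => rn ι κ)
    (DPT.pair (DPT.fst DPT.ssnd) (dpt_fin _ (DPT.snd DPT.ssnd)))

end RenPT

/-! ### Constant types and families of cells -/

/-- the sum of two constant types -/
def ctSum (A B : CT) : CT := ⟨A.T ⊕ B.T⟩

/-- the product of two constant types -/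
def ctProd (A B : CT) : CT := ⟨A.T × B.T⟩

/-- the type with `n + 1` elements -/
def ctFin (n : ℕ) : CT := ⟨Fin (n + 1)⟩

section TF

variable {α : Type} [Enc α]

theorem dpt_product {V W : α → Type} [∀ a, Enc (V a)] [∀ a, Enc (W a)] {l : ∀ a, List (V a)}
    {m : ∀ a, List (W a)} (hl : DPT l) (hm : DPT m) : DPT fun a => l a ×ˢ m a := by
  have h : DPT fun a => (l a).flatMap fun v => (m a).map fun w => (v, w) := by
    refine DPT.flatMap hl (DPT.map (hm.comp (DPT.sfst DPT.id)) ?_)
    exact DPT.pair (DPT.val (DPT.ssnd.comp (DPT.sfst DPT.id))) (DPT.val DPT.ssnd)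
  exact h

/-- the product of two families -/
def tfProd (V W : TF α) : TF α where
  T a := V.T a × W.T a
  pt := dpt_product V.pt W.pt

/-- a constant family -/
def tfConst (α : Type) [Enc α] (A : CT) : TF α where
  T _ := A.T
  pt := DPT.const _

/-- the family of the cells -/
def tfCell (P : TF α) (A : CT) (S : TF α) (G : CT) : TF α where
  T a := Cell (P.T a) A.T (S.T a) G.T
  pt := dpt_product P.pt (dpt_product (DPT.const _) (dpt_product S.pt (DPT.const _)))

end TF

/-- The Brouwer block is a polynomial time family. -/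
theorem modPT_bt {α : Type} [Enc α] {C : α → Type} [∀ a, Enc (C a)] (T : BT) {K : ℕ}
    {nb : ∀ a, C a → Fin K → C a} {th : ∀ a, C a → Fin (T.g + 1)} {st : ∀ a, C a → Bool}
    (hnb : ∀ i, DPT fun x : Σ a, C a => nb x.1 x.2 i) (hth : DPT fun x : Σ a, C a => th x.1 x.2)
    (hst : DPT fun x : Σ a, C a => st x.1 x.2) :
    ModPT fun a => T.mod (nb a) (th a) (st a) := by
  intro r
  refine gatePT_mk' (fun d => DPT.pair ?_ (DPT.const _)) ?_
  · rcases d with ⟨j, _ | i⟩
    · exact DPT.ssnd
    · exact hnb i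
  · exact finSel_of_dpt (γ := Fin (T.g + 1) × Bool)
      (fun q (y : (Fin (T.ρ + 2) ⊕ Fin 6) × Option (Fin K) → ℝ) =>
        T.fn r q.1 q.2 (fun j => mean fun i => y (j, some i)) fun j => y (j, none))
      (hth.pair hst)

end Vale.Agent.P330.Glue
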