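import Vale.Agent.P330.Codes
import Vale.Agent.P330.Gadget
import Vale.Agent.P330.Exist

/-!
P330: rounded systems (sites with arbitrary local Boolean functions of noisy levels) and the
reduction of the final statement to them.
-/

namespace Vale.Agent.P330

open Vale.Agent.Lib.NP
open Vale.Agent.Lib.PolyTime hiding C P
open Vale.Agent.Lib.Dep

/-- The statement in the quasi-linear form. -/
def Goal : Prop :=
  ∃ (ε δ : ℝ) (p : Polynomial ℕ) (c : ℕ) (R : EOL → GCirc) (D : EOL × List ℚ≥0 → List Bool),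
    0 < ε ∧ ε < 1 ∧ 0 < δ ∧ δ < 1 ∧ Reduces ε δ p R D ∧
      ∀ I : EOL, (R I).code.length ≤ I.code.length * Nat.log 2 I.code.length ^ c

/-- The statement in the polynomial size form. -/
def GoalPoly : Prop :=
  ∃ (ε δ : ℝ) (p : Polynomial ℕ) (R : EOL → GCirc) (D : EOL × List ℚ≥0 → List Bool),
    0 < ε ∧ ε < 1 ∧ 0 < δ ∧ δ < 1 ∧ Reduces ε δ p R D

/-- Rounded systems: the site `i < m` reads the levels of the sites `src i d` and applies `F i`. -/
structure RS (D : Type) (L : ℕ) where
  /-- number of sites -/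
  m : ℕ
  /-- the sites which are read -/
  src : ℕ → D → ℕ
  /-- the local functions -/
  F : ℕ → (D → Fin (L + 1)) → Bool

namespace RS

variable {D : Type} {L : ℕ}

/-- well formed systems -/
structure WF (S : RS D L) : Prop where
  pos : 0 < S.m
  lt : ∀ i < S.m, ∀ d, S.src i d < S.m

/-- The site `i` is in order for the levels `x`: if the local function has the same value `b` on
all readings `y` (each reading is the level or the level minus one), the level of the site is the
extreme one given by `b`. -/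
def Ok (S : RS D L) (x : ℕ → ℕ) (i : ℕ) : Prop :=
  ∀ b : Bool, (∀ y : D → Fin (L + 1),
    (∀ d, (y d : ℕ) ≤ x (S.src i d) ∧ x (S.src i d) ≤ y d + 1) → S.F i y = b) →
      x i = bif b then L else 0

open Classical in
/-- the sites which are not in order -/
noncomputable def bad (S : RS D L) (x : ℕ → ℕ) : Finset ℕ :=
  (Finset.range S.m).filter fun i => ¬ S.Ok x i

/-- polynomial time families -/
structure IsPT [Fintype D] [DecidableEq D] {α : Type} [Enc α] (S : α → RS D L) : Prop where
  m : DPT fun a => (S a).m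
  mb : PBd fun a => (S a).m
  src : ∀ d, DPT fun p : α × ℕ => (S p.1).src p.2 d
  F : ∀ y, DPT fun p : α × ℕ => (S p.1).F p.2 y

variable [Fintype D]

/-- number of readings of the gadget -/
def kk (D : Type) [Fintype D] (L : ℕ) : ℕ := Fintype.card (D × Fin L)

/-- number of nodes of the gadget -/
def KK (D : Type) [Fintype D] (L : ℕ) : ℕ := Fintype.card (Loc (kk D L))

/-- numbering of the readings -/
noncomputable def e2 (D : Type) [Fintype D] (L : ℕ) : D × Fin L ≃ Fin (kk D L) :=
  Fintype.equivFin _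

/-- numbering of the nodes -/
noncomputable def eL (D : Type) [Fintype D] (L : ℕ) : Loc (kk D L) ≃ Fin (KK D L) :=
  Fintype.equivFin _

theorem KK_pos : 0 < KK D L := Fintype.card_pos_iff.2 ⟨.top⟩

/-- the level given by the readings -/
noncomputable def cnt (σ : Fin (kk D L) → Bool) (d : D) : Fin (L + 1) :=
  ⟨(Finset.univ.filter fun t : Fin L => σ (e2 D L (d, t)) = true).card,
    Nat.lt_succ_of_le ((Finset.card_le_univ _).trans (Fintype.card_fin L).le)⟩

/-- the thresholds -/
noncomputable def th (D : Type) [Fintype D] (L : ℕ) (j : Fin (kk D L)) : ℚ≥0 :=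
  ((((e2 D L).symm j).2 + 1 : ℕ) : ℚ≥0) / L

/-- the node `t` of the site `i` -/
noncomputable def node (i : ℕ) (t : Loc (kk D L)) : ℕ := i * KK D L + eL D L t

/-- the gates of the site `i` -/
noncomputable def sgate (S : RS D L) (i : ℕ) (t : Loc (kk D L)) : GGate :=
  gate (node i) (fun j => node (S.src i ((e2 D L).symm j).1) (.top : Loc (kk D L))) (th D L)
    (fun σ => S.F i (cnt σ)) t

/-- the gate with output node `v` -/
noncomputable def vgate (S : RS D L) (v : ℕ) : GGate :=
  S.sgate (v / KK D L) ((eL D L).symm ⟨v % KK D L, Nat.mod_lt _ KK_pos⟩)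

theorem node_lt {m i : ℕ} (hi : i < m) (t : Loc (kk D L)) : node i t < m * KK D L := by
  have h1 := (eL D L t).2
  have h2 := Nat.mul_le_mul_right (KK D L) (Nat.succ_le_of_lt hi)
  rw [Nat.succ_mul] at h2
  rw [node]
  omega

theorem node_div (i : ℕ) (t : Loc (kk D L)) : node i t / KK D L = i := by
  rw [node, add_comm, Nat.add_mul_div_right _ _ KK_pos, Nat.div_eq_of_lt (eL D L t).2, zero_add]

theorem vgate_node (S : RS D L) (i : ℕ) (t : Loc (kk D L)) : S.vgate (node i t) = S.sgate i t := by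
  rw [vgate, node_div]
  congr 1
  rw [Equiv.symm_apply_eq]
  exact Fin.ext (by simp [node, Nat.mod_eq_of_lt (eL D L t).2])

theorem vgate_out (S : RS D L) (v : ℕ) : (S.vgate v).out = v := by
  rw [vgate, sgate, gate_out, node, Equiv.apply_symm_apply]
  exact Nat.div_add_mod' _ _

theorem vgate_ins {S : RS D L} (hS : S.WF) {v : ℕ} (hv : v < S.m * KK D L) :
    ∀ a ∈ (S.vgate v).ins, a < S.m * KK D L := by
  intro a ha
  have h1 : v / KK D L < S.m := Nat.div_lt_of_lt_mul (by rwa [mul_comm])
  rcases gate_ins _ a ha with ⟨s, rfl⟩ | ⟨d, rfl⟩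
  · exact node_lt h1 _
  · exact node_lt (hS.lt _ h1 _) _

theorem th_le (j : Fin (kk D L)) : th D L j ≤ 1 :=
  div_le_one_of_le₀ (by exact_mod_cast ((e2 D L).symm j).2.2) (by positivity)

/-- the generalized circuit of a system -/
noncomputable def circ (S : RS D L) (hS : S.WF) : GCirc where
  nodes := S.m * KK D L
  gates := (List.range (S.m * KK D L)).map S.vgate
  nonempty := by simpa using ⟨hS.pos.ne', Nat.pos_iff_ne_zero.1 KK_pos⟩
  out_lt g hg := by
    obtain ⟨v, hv, rfl⟩ := List.mem_map.1 hg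
    rw [vgate_out]
    exact List.mem_range.1 hv
  ins_lt g hg := by
    obtain ⟨v, hv, rfl⟩ := List.mem_map.1 hg
    exact vgate_ins hS (List.mem_range.1 hv)
  par_le g hg α hα := by
    obtain ⟨v, hv, rfl⟩ := List.mem_map.1 hg
    rw [vgate, sgate] at hα
    rcases gate_par _ with h | h | h | ⟨d, h⟩ <;> rw [h] at hα
    · simp at hα
    · rw [List.mem_singleton.1 hα]; exact zero_le_one
    · rw [List.mem_singleton.1 hα]
    · rw [List.mem_singleton.1 hα]; exact th_le d
  nodup := by
    rw [List.map_map, List.map_congr_left (f := GGate.out ∘ S.vgate) (g := id)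
      fun v _ => S.vgate_out v, List.map_id]
    exact List.nodup_range

/-- the level of a value -/
def lev (L : ℕ) (q : ℚ≥0) : ℕ := min L ((5 * L * q.num / q.den + 2) / 5)

theorem lev_le (L : ℕ) (q : ℚ≥0) : lev L q ≤ L := min_le_left _ _

theorem floor_spec (L : ℕ) (q : ℚ≥0) : ((5 * L * q.num / q.den : ℕ) : ℝ) ≤ 5 * L * q ∧
    (5 * L * q : ℝ) < (5 * L * q.num / q.den : ℕ) + 1 := by
  have h1 : (5 * L * q : ℝ) = ((5 * L * q.num : ℕ) : ℝ) / q.den := by
    rw [NNRat.cast_def]; push_cast; ring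
  rw [h1, ← Nat.floor_div_eq_div (K := ℝ)]
  exact ⟨Nat.floor_le (by positivity), Nat.lt_floor_add_one _⟩

theorem ok_of_sat (hL : 0 < L) (S : RS D L) (x : ℕ → ℚ≥0) (i : ℕ)
    (h : ∀ t, (S.sgate i t).Sat (1 / (5 * L)) fun v => x v) :
    S.Ok (fun j => lev L (x (node j (.top : Loc (kk D L))))) i := by
  intro b hb
  have hL' : (0 : ℝ) < 5 * L := by positivity
  have h1 := top_val (by positivity) h b fun σ hσ => hb _ fun d => ?_
  · obtain ⟨h2, h3⟩ := floor_spec L (x (node i (.top : Loc (kk D L))))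
    simp only [lev]
    generalize 5 * L * _ / _ = n at h2 h3 ⊢
    cases b
    · rw [Val, cond_false, le_div_iff₀ hL'] at h1
      have : n ≤ 1 := by exact_mod_cast (by linarith : (n : ℝ) ≤ 1)
      rw [cond_false]
      omega
    · rw [Val, cond_true, sub_le_iff_le_add, ← sub_le_iff_le_add', le_div_iff₀ hL'] at h1
      have : 5 * L < n + 2 := by exact_mod_cast (by linarith : (5 * L : ℝ) < n + 2)
      rw [cond_true]
      omega
  · obtain ⟨h2, h3⟩ := floor_spec L (x (node (S.src i d) (.top : Loc (kk D L))))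
    have h4 : ∀ t : Fin L, ((th D L (e2 D L (d, t)) : ℚ≥0) : ℝ) = 5 * (t + 1) / (5 * L) := by
      intro t
      rw [th, Equiv.symm_apply_apply]
      push_cast
      field_simp
    have hσ' := fun t : Fin L => hσ (e2 D L (d, t))
    simp only [Equiv.symm_apply_apply, h4] at hσ'
    simp only [lev, cnt]
    generalize 5 * L * _ / _ = n at h2 h3 ⊢
    generalize ((x (node (S.src i d) (.top : Loc (kk D L))) : ℚ≥0) : ℝ) = w at h2 h3 hσ'
    constructor
    · refine le_trans (Finset.card_le_card (t := Finset.univ.filter fun t : Fin L =>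
        t.1 < (n + 2) / 5) fun t ht => ?_) (by rw [Fin.card_filter_val_lt])
      rw [Finset.mem_filter] at ht ⊢
      refine ⟨ht.1, by_contra fun hn => ?_⟩
      have h5 : n + 1 + 2 ≤ 5 * (t + 1) := by omega
      have h6 : (n + 1 + 2 : ℝ) ≤ 5 * (t + 1) := by exact_mod_cast h5
      have h7 := (hσ' t).2 (by
        rw [mul_one_div, ← sub_div, lt_div_iff₀ hL']
        linarith)
      rw [h7] at ht
      exact absurd ht.2 (by simp)
    · have h5 : (Finset.univ.filter fun t : Fin L => t.1 < (n + 2) / 5 - 1).card ≤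
          (Finset.univ.filter fun t : Fin L => σ (e2 D L (d, t)) = true).card := by
        refine Finset.card_le_card fun t ht => ?_
        rw [Finset.mem_filter] at ht ⊢
        refine ⟨ht.1, (hσ' t).1 ?_⟩
        have h5 : 5 * (t + 1) + 3 ≤ n := by omega
        have h6 : (5 * (t + 1) + 3 : ℝ) ≤ n := by exact_mod_cast h5
        rw [mul_one_div, ← add_div, div_lt_iff₀ hL']
        linarith
      rw [Fin.card_filter_val_lt] at h5
      omega

open Classical in
theorem card_bad_le (hL : 0 < L) (S : RS D L) (hS : S.WF) (x : ℕ → ℚ≥0) :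
    (S.bad fun j => lev L (x (node j (.top : Loc (kk D L))))).card +
      (S.circ hS).gates.countP (fun g => decide (g.Sat (1 / (5 * L)) fun v => x v)) ≤
        S.m * KK D L := by
  have h1 : (S.circ hS).gates.countP (fun g => decide (g.Sat (1 / (5 * L)) fun v => x v)) =
      ((Finset.range (S.m * KK D L)).filter fun v =>
        (S.vgate v).Sat (1 / (5 * L)) fun v => x v).card := by
    rw [circ, List.countP_map, List.countP_eq_length_filter]
    rfl
  have h2 := Finset.card_filter_add_card_filter_not (s := Finset.range (S.m * KK D L))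
    fun v => (S.vgate v).Sat (1 / (5 * L)) fun v => x v
  rw [Finset.card_range] at h2
  rw [h1, add_comm]
  refine le_trans (Nat.add_le_add_left
    (Finset.card_le_card_of_surjOn (fun v => v / KK D L) fun i hi => ?_) _) h2.le
  rw [bad, Finset.mem_coe, Finset.mem_filter, Finset.mem_range] at hi
  obtain ⟨t, ht⟩ := not_forall.1 fun h => hi.2 (ok_of_sat hL S x i h)
  exact ⟨node i t, Finset.mem_coe.2 (Finset.mem_filter.2
    ⟨Finset.mem_range.2 (node_lt hi.1 t), by rwa [vgate_node]⟩), node_div i t⟩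

theorem esize_circ_le : ∃ c, ∀ (S : RS D L) (hS : S.WF),
    (S.circ hS).code.length ≤ S.m * (c * (Nat.size (S.m * KK D L) + 1)) := by
  obtain ⟨B, hB⟩ : ∃ B, ∀ j, esize [th D L j] ≤ B :=
    ⟨Finset.univ.sup fun j => esize [th D L j], fun j =>
      Finset.le_sup (f := fun j => esize [th D L j]) (Finset.mem_univ j)⟩
  let B' := B + esize [(0 : ℚ≥0)] + esize [(1 : ℚ≥0)]
  refine ⟨KK D L * (4 * B' + 40), fun S hS => ?_⟩
  have h1 : ∀ g ∈ (S.circ hS).gates, esize g ≤ 2 * B' + 15 + 9 * Nat.size (S.m * KK D L) := by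
    intro g hg
    have h2 : esize g.out ≤ Nat.size (S.m * KK D L) :=
      (esize_nat _).le.trans (Nat.size_le_size ((S.circ hS).out_lt g hg).le)
    have h3 : esize g.ins ≤ g.ins.length * (2 * Nat.size (S.m * KK D L) + 1) :=
      esize_list_le fun a ha =>
        (esize_nat _).le.trans (Nat.size_le_size ((S.circ hS).ins_lt g hg a ha).le)
    have h4 : g.ins.length ≤ 2 := by cases g <;> simp [GGate.ins]
    have h5 := Nat.mul_le_mul_right (2 * Nat.size (S.m * KK D L) + 1) h4
    have h6 : esize g.tag ≤ 4 := by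
      rw [esize_nat, Nat.size_le]
      cases g <;> simp [GGate.tag]
    have h7 : esize g.par ≤ B' := by
      obtain ⟨v, -, rfl⟩ := List.mem_map.1 hg
      rw [vgate, sgate]
      rcases gate_par _ with h | h | h | ⟨d, h⟩ <;> rw [h]
      · exact Nat.zero_le _
      · omega
      · omega
      · have := hB d; omega
    have h8 : esize g = esize (g.tag, g.par, g.ins, g.out) := congrArg List.length (enc_ggate g)
    simp only [esize_pair] at h8
    omega
  have h2 := esize_list_le h1
  have h3 : (S.circ hS).code.length = esize (Un.mk (S.m * KK D L), (S.circ hS).gates) :=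
    congrArg List.length (enc_gcirc _)
  have h4 : (S.circ hS).gates.length = S.m * KK D L := by simp [circ]
  have h5 : 0 < S.m * KK D L := Nat.mul_pos hS.pos KK_pos
  rw [h3, esize_pair, esize_un, mul_assoc (KK D L), ← mul_assoc S.m]
  rw [h4] at h2
  generalize S.m * KK D L = M at *
  generalize Nat.size M = s at *
  nlinarith [Nat.zero_le (M * B' * s), Nat.zero_le (M * s)]

variable [DecidableEq D] {α : Type} [Enc α]

theorem dpt_vgate {S : α → RS D L} (h : IsPT S) : DPT fun p : α × ℕ => (S p.1).vgate p.2 := by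
  have h1 : ∀ t, DPT fun p : α × ℕ => (S p.1).sgate p.2 t := by
    intro t
    have h2 := h.src
    have h3 : DPT fun p : α × ℕ => (eL D L (.lvl (kk D L) fun σ => (S p.1).F p.2 (cnt σ)) : ℕ) :=
      dpt_finComp (fun F : (D → Fin (L + 1)) → Bool =>
        (eL D L (.lvl (kk D L) fun σ => F (cnt σ)) : ℕ)) (dpt_funMk h.F)
    cases t <;> refine dpt_ggate ?_ ?_ ?_ ?_ <;>
      simp only [sgate, gate, GGate.tag, GGate.par, GGate.ins, GGate.out, node] <;> fun_prop
  refine dpt_finCase (γ := Fin (KK D L)) (c := fun p : α × ℕ => ⟨p.2 % KK D L, Nat.mod_lt _ KK_pos⟩)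
    (f := fun c p => (S p.1).sgate (p.2 / KK D L) ((eL D L).symm c))
    (DPT.of_enc (f := fun p : α × ℕ => p.2 % KK D L) (by fun_prop) fun _ => rfl) fun c => ?_
  exact DPT.comp (f := fun p : α × ℕ => (p.1, p.2 / KK D L)) (h1 _) (by fun_prop)

theorem dpt_circ {S : α → RS D L} (h : IsPT S) (hS : ∀ a, (S a).WF) :
    DPT fun a => (S a).circ (hS a) := by
  have h1 := h.m
  have h2 := h.mb
  refine dpt_gcirc (by simp only [circ]; fun_prop) (by simp only [circ]; fun_prop)
    (DPT.map (l := fun a => List.range ((S a).m * KK D L)) (f := fun a => (S a).vgate)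
      (by fun_prop) ?_)
  exact DPT.comp (f := fun p : Σ a, {x // x ∈ List.range ((S a).m * KK D L)} => (p.1, p.2.1))
    (dpt_vgate h) (by fun_prop)

end RS

open RS in
theorem reduces_of_RS {D : Type} [Fintype D] [DecidableEq D] {L : ℕ} (hL : 0 < L) {δ : ℝ}
    (hδ : 0 < δ) (S : EOL → RS D L) (hS : ∀ I, (S I).WF) (hP : RS.IsPT S)
    (Dec : EOL × List ℕ → List Bool) (hD : DPT Dec)
    (h : ∀ (I : EOL) (x : ℕ → ℕ), (∀ i, x i ≤ L) → (((S I).bad x).card : ℝ) ≤ δ * (S I).m →
      I.Solution (Dec (I, (List.range (S I).m).map x))) :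
    ∃ (ε δ' : ℝ) (p : Polynomial ℕ) (D' : EOL × List ℚ≥0 → List Bool),
      0 < ε ∧ ε < 1 ∧ 0 < δ' ∧ δ' < 1 ∧ Reduces ε δ' p (fun I => (S I).circ (hS I)) D' := by
  have hL' : (1 : ℝ) ≤ L := by exact_mod_cast hL
  have hK : (0 : ℝ) < KK D L := by exact_mod_cast KK_pos
  have hε : (1 : ℝ) / (5 * L) ≤ 1 / 4 := one_div_le_one_div_of_le (by norm_num) (by linarith)
  have hδ' : 0 < min (1 / 2) (δ / KK D L) := lt_min (by norm_num) (by positivity)
  obtain ⟨p, hp⟩ := exists_acceptable (by positivity) hε hδ'.le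
  refine ⟨1 / (5 * L), min (1 / 2) (δ / KK D L), p, fun q => Dec (q.1, (List.range (S q.1).m).map
    fun j => lev L (q.2.getD (node j (.top : Loc (kk D L))) 0)), by positivity, by linarith, hδ',
    (min_le_left _ _).trans_lt (by norm_num), (dpt_circ hP hS).toPT.exists_tm2, ?_,
    fun I => ⟨hp _, fun x hx => h I _ (fun _ => lev_le _ _) ?_⟩⟩
  · have h1 := hP.m
    have h2 := hP.mb
    have h3 : DPT fun q : EOL × List ℚ≥0 => Dec (q.1, (List.range (S q.1).m).map
        fun j => lev L (q.2.getD (node j (.top : Loc (kk D L))) 0)) := by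
      obtain ⟨mm, hm⟩ : ∃ mm : EOL → ℕ, ∀ I, (S I).m = mm I := ⟨_, fun _ => rfl⟩
      simp only [hm, lev, node] at h1 h2 ⊢
      fun_prop
    obtain ⟨g, hg, e⟩ := PT.rawOfList h3.toPT
    exact exists_tm2_of_polyTimeFun _ _ _ g (polyTimeFun_iff.2 hg) fun q => by
      rw [pairW_eq, ratsW_eq]; exact e q
  · have h1 := card_bad_le hL (S I) (hS I) fun v => x.getD v 0
    have h2 := hx.2.2.2
    have h3 : ((S I).circ (hS I)).gates.length = (S I).m * KK D L := by simp [circ]
    rw [h3] at h2
    have h4 := (Nat.cast_le (α := ℝ)).2 h1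
    have h5 : min (1 / 2) (δ / KK D L) * ((S I).m * KK D L) ≤ δ / KK D L * ((S I).m * KK D L) :=
      mul_le_mul_of_nonneg_right (min_le_right _ _) (by positivity)
    have h6 : δ / KK D L * ((S I).m * KK D L) = δ * (S I).m := by field_simp
    push_cast at h2 h4
    linarith

/-- The quasi-linear form follows from a robust family of rounded systems of quasi-linear size. -/
theorem goal_of_RS {D : Type} [Fintype D] [DecidableEq D] {L : ℕ} (hL : 0 < L) {δ : ℝ}
    (hδ : 0 < δ) (S : EOL → RS D L) (hS : ∀ I, (S I).WF) (hP : RS.IsPT S) (hQ : QL fun I => (S I).m)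
    (Dec : EOL × List ℕ → List Bool) (hD : DPT Dec)
    (h : ∀ (I : EOL) (x : ℕ → ℕ), (∀ i, x i ≤ L) → (((S I).bad x).card : ℝ) ≤ δ * (S I).m →
      I.Solution (Dec (I, (List.range (S I).m).map x))) : Goal := by
  obtain ⟨ε, δ', p, D', h1, h2, h3, h4, h5⟩ := reduces_of_RS hL hδ S hS hP Dec hD h
  obtain ⟨c, hc⟩ := RS.esize_circ_le (D := D) (L := L)
  obtain ⟨d, hd⟩ := hQ.mul ((PL.const c).mul
    ((PL.size (hP.mb.mul (PBd.const (RS.KK D L)))).add (PL.const 1)))
  exact ⟨ε, δ', p, d, _, D', h1, h2, h3, h4, h5, fun I => (hc _ _).trans (hd I)⟩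

/-- The polynomial size form follows from a robust family of rounded systems. -/
theorem goalPoly_of_RS {D : Type} [Fintype D] [DecidableEq D] {L : ℕ} (hL : 0 < L) {δ : ℝ}
    (hδ : 0 < δ) (S : EOL → RS D L) (hS : ∀ I, (S I).WF) (hP : RS.IsPT S)
    (Dec : EOL × List ℕ → List Bool) (hD : DPT Dec)
    (h : ∀ (I : EOL) (x : ℕ → ℕ), (∀ i, x i ≤ L) → (((S I).bad x).card : ℝ) ≤ δ * (S I).m →
      I.Solution (Dec (I, (List.range (S I).m).map x))) : GoalPoly := by
  obtain ⟨ε, δ', p, D', h1⟩ := reduces_of_RS hL hδ S hS hP Dec hD h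
  exact ⟨ε, δ', p, _, D', h1⟩

end Vale.Agent.P330
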