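import Vale.Agent.P330.Stmts
import Vale.Agent.Lib.PCP.Expander
import Vale.Agent.Lib.PCP.Spectral

/-!
P330: samplers from walks in expanders.
-/

namespace Vale.Agent.P330

open Vale.Agent.Lib.PolyTime hiding C P
open Vale.Agent.Lib.Dep Vale.Agent.Lib.PCP Finset
open scoped BigOperators

namespace Samp

section Walk

variable {D : Type}

/-- The end point of a walk. -/
def wk (nxt : D → ℕ → ℕ) : (t : ℕ) → (Fin t → D) → ℕ → ℕ
  | 0, _, v => v
  | t + 1, w, v => wk nxt t (Fin.tail w) (nxt (w 0) v)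

variable [Rev D] {n : ℕ} {nxt : D → ℕ → ℕ}

theorem wk_lt (h : Schreier n nxt) (t : ℕ) (w : Fin t → D) {v : ℕ} (hv : v < n) :
    wk nxt t w v < n := by
  induction t generalizing v with
  | zero => exact hv
  | succ t ih => exact ih _ (h.lt _ _ hv)

theorem wk_inj (h : Schreier n nxt) (t : ℕ) (w : Fin t → D) {u v : ℕ} (hu : u < n) (hv : v < n)
    (e : wk nxt t w u = wk nxt t w v) : u = v := by
  induction t generalizing u v with
  | zero => exact e
  | succ t ih =>
    have h1 := ih _ (h.lt (w 0) _ hu) (h.lt (w 0) _ hv) e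
    rw [← h.inv (w 0) u hu, h1, h.inv (w 0) v hv]

theorem sum_wk (h : Schreier n nxt) (t : ℕ) (w : Fin t → D) (g : ℕ → ℝ) :
    ∑ x ∈ range n, g (wk nxt t w x) = ∑ x ∈ range n, g x := by
  induction t with
  | zero => rfl
  | succ t ih => exact (h.sum_comp (w 0) fun y => g (wk nxt t (Fin.tail w) y)).trans (ih _)

theorem spec_wk [Fintype D] [Nonempty D] (h : Schreier n nxt) {lam : ℝ} (hs : Spec lam n nxt)
    (t : ℕ) (f : ℕ → ℝ) (hf : ∑ x ∈ range n, f x = 0) :
    ∑ x ∈ range n, (𝔼 w : Fin t → D, f (wk nxt t w x)) ^ 2 ≤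
      (lam ^ 2) ^ t * ∑ x ∈ range n, f x ^ 2 := by
  induction t with
  | zero => simp [wk]
  | succ t ih =>
    have e : ∀ x, 𝔼 w : Fin (t + 1) → D, f (wk nxt (t + 1) w x) =
        𝔼 i, 𝔼 w : Fin t → D, f (wk nxt t w (nxt i x)) := fun x => by
      rw [← Fintype.expect_equiv (Fin.consEquiv fun _ => D)
        (fun p => f (wk nxt t p.2 (nxt p.1 x))) _ fun p => by simp [wk, Fin.consEquiv],
        ← univ_product_univ, expect_product]
    simp only [e]
    refine (hs (fun y => 𝔼 w : Fin t → D, f (wk nxt t w y)) ?_).trans ?_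
    · rw [← expect_sum_comm]
      simp only [sum_wk h, hf, Fintype.expect_const]
    · rw [pow_succ' (lam ^ 2), mul_assoc]
      exact mul_le_mul_of_nonneg_left ih (sq_nonneg _)

omit [Rev D] in
theorem pt_wk {ex : ℕ → D → ℕ → ℕ} (h : ∀ i, PT ∅ fun p : ℕ × ℕ => ex p.1 i p.2) (t : ℕ)
    (w : Fin t → D) : PT ∅ fun p : ℕ × ℕ => wk (ex p.1) t w p.2 := by
  induction t with
  | zero => exact PT.snd'
  | succ t ih => exact (ih (Fin.tail w)).comp (PT.fst'.pair (h (w 0)))

end Walk

theorem dpt_idxOf {α : Type} [Enc α] {β : α → Type} [∀ a, Enc (β a)] [∀ a, EncInj (β a)]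
    [∀ a, DecidableEq (β a)] {l : ∀ a, List (β a)} {f : ∀ a, β a} (hl : DPT l) (hf : DPT f) :
    DPT fun a => (l a).idxOf (f a) := by
  have h1 : DPT fun a => (l a).map fun x => wcode (enc x) :=
    DPT.map hl (DPT.ofPT (DPT.ssnd.val.rawPT.wcode))
  refine (DPT.ofPT (PT.idxOf h1.toPT hf.rawPT.wcode)).congr fun a => ?_
  change ((l a).map fun x => wcode (enc x)).idxOf (wcode (enc (f a))) = _
  induction l a with
  | nil => rfl
  | cons y m ih =>
    rw [List.map_cons, List.idxOf_cons, List.idxOf_cons, ih]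
    by_cases e : y = f a
    · simp [e]
    · rw [beq_eq_false_iff_ne.2 e, beq_eq_false_iff_ne.2 fun h => e (EncInj.inj (wcode_inj h))]

section Transport

variable {C : Type} [En C] [DecidableEq C]

theorem idx_lt (c : C) : (elems C).idxOf c < (elems C).length :=
  List.idxOf_lt_length_iff.2 (En.complete c)

theorem getD_idx (c d : C) : (elems C).getD ((elems C).idxOf c) d = c := by
  rw [List.getD_eq_getElem _ _ (idx_lt c), List.getElem_idxOf]

theorem idx_getD {v : ℕ} (hv : v < (elems C).length) (d : C) :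
    (elems C).idxOf ((elems C).getD v d) = v := by
  rw [List.getD_eq_getElem _ _ hv, En.nodup.idxOf_getElem]

theorem sum_idx [Fintype C] (g : ℕ → ℝ) :
    ∑ c : C, g ((elems C).idxOf c) = ∑ v ∈ range (elems C).length, g v := by
  rcases isEmpty_or_nonempty C with h | ⟨⟨d⟩⟩
  · have : elems C = [] := List.eq_nil_iff_forall_not_mem.2 fun c => h.elim c
    simp [this]
  exact Finset.sum_nbij' (fun c => (elems C).idxOf c) (fun v => (elems C).getD v d)
    (fun c _ => mem_range.2 (idx_lt c)) (fun _ _ => mem_univ _) (fun c _ => getD_idx c d)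
    (fun v hv => idx_getD (mem_range.1 hv) d) fun _ _ => rfl

theorem card_eq [Fintype C] : (Fintype.card C : ℝ) = (elems C).length := by
  simpa using sum_idx (C := C) fun _ => 1

/-- A map on numbers as a map on the type. -/
def tr (φ : ℕ → ℕ) (c : C) : C := (elems C).getD (φ ((elems C).idxOf c)) c

theorem sampler [Fintype C] [Nonempty C] {W : Type} [Fintype W] {K : ℕ} (e : Fin K ≃ W)
    (φ : W → ℕ → ℕ) (h1 : ∀ w v, v < (elems C).length → φ w v < (elems C).length) {μ η : ℝ}
    (hη : 0 < η) (hμ : μ ≤ η ^ 3) (h0 : 0 ≤ μ) [Nonempty W]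
    (h2 : ∀ f : ℕ → ℝ, ∑ x ∈ range (elems C).length, f x = 0 →
      ∑ x ∈ range (elems C).length, (𝔼 w, f (φ w x)) ^ 2 ≤
        μ * ∑ x ∈ range (elems C).length, f x ^ 2) :
    Sampler η fun (c : C) i => tr (φ (e i)) c := by
  classical
  intro f hf
  obtain ⟨d⟩ := ‹Nonempty C›
  have hn : (0 : ℝ) < Fintype.card C := by exact_mod_cast Fintype.card_pos
  have m0 : 0 ≤ mean f := div_nonneg (sum_nonneg fun c _ => (hf c).1) hn.le
  have m1 : mean f ≤ 1 := by
    rw [mean, div_le_one hn]
    simpa using sum_le_sum (s := univ) fun c _ => (hf c).2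
  set F : ℕ → ℝ := fun v => f ((elems C).getD v d) - mean f with hF
  have e1 : ∀ c, mean (fun i => f (tr (φ (e i)) c)) - mean f =
      𝔼 w, F (φ w ((elems C).idxOf c)) := fun c => by
    rw [hF, expect_sub_distrib, Fintype.expect_const, mean, ← Fintype.expect_eq_sum_div_card]
    congr 1
    refine Fintype.expect_equiv e _ _ fun i => congrArg f ?_
    rw [tr, List.getD_eq_getElem _ _ (h1 _ _ (idx_lt c)),
      List.getD_eq_getElem _ _ (h1 _ _ (idx_lt c))]
  have h3 := h2 F (by
    rw [← sum_idx]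
    simp only [hF, getD_idx, sum_sub_distrib, sum_const, card_univ, nsmul_eq_mul, mean]
    field_simp
    ring)
  have h4 : ∑ x ∈ range (elems C).length, F x ^ 2 ≤ Fintype.card C := by
    rw [card_eq]
    have := sum_le_sum (s := range (elems C).length) (f := fun x => F x ^ 2) (g := fun _ => 1)
      fun x _ => by
        have := hf ((elems C).getD x d)
        simp only [hF]
        nlinarith [this.1, this.2]
    simpa using this
  rw [← sum_idx (C := C) fun x => (𝔼 w, F (φ w x)) ^ 2] at h3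
  simp only [e1, frac]
  rw [div_le_iff₀ hn]
  have h5 : ((univ.filter fun c : C => η < |𝔼 w, F (φ w ((elems C).idxOf c))|).card : ℝ) * η ^ 2 ≤
      ∑ c : C, (𝔼 w, F (φ w ((elems C).idxOf c))) ^ 2 := by
    rw [← nsmul_eq_mul, ← sum_const]
    refine (sum_le_sum fun c hc => ?_).trans
      (sum_le_sum_of_subset_of_nonneg (filter_subset _ _) fun _ _ _ => sq_nonneg _)
    rw [← sq_abs (𝔼 w, _)]
    exact pow_le_pow_left₀ hη.le (mem_filter.1 hc).2.le 2
  have h6 := h5.trans (h3.trans ((mul_le_mul_of_nonneg_left h4 h0).trans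
    (mul_le_mul_of_nonneg_right hμ hn.le)))
  refine le_of_mul_le_mul_right (a := η ^ 2) ?_ (by positivity)
  convert h6 using 1
  ring

end Transport

end Samp

open Samp in
/-- T3: samplers. -/
theorem sampStmt : SampStmt := by
  intro η hη
  obtain ⟨lam, l0, l1, hs⟩ := spec_of_poinc (ExpIx ⊕ Unit) ExpIx expanders.pos
  obtain ⟨t, ht⟩ := exists_pow_lt_of_lt_one (show 0 < η ^ 3 by positivity)
    (show lam ^ 2 < 1 by nlinarith)
  set nx : ℕ → ExpIx ⊕ Unit → ℕ → ℕ := fun n => Sum.elim (expanders.ex n) fun _ v => v with hnx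
  have sch : ∀ n, Schreier n (nx n) := fun n =>
    ⟨fun i v hv => by
      cases i
      · exact (expanders.sch n).lt _ v hv
      · exact hv,
    fun i v hv => by
      cases i
      · exact (expanders.sch n).inv _ v hv
      · rfl⟩
  have spec : ∀ n, Spec lam n (nx n) := fun n =>
    hs n _ (Sum.inr ()) Sum.inl (sch n) (fun _ _ => rfl) Sum.inl_injective (expanders.poinc n)
  have pt : ∀ i, PT ∅ fun p : ℕ × ℕ => nx p.1 i p.2 := fun i => by
    cases i
    · exact expanders.pt _
    · exact PT.snd'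
  clear_value nx
  obtain ⟨K, ⟨e⟩⟩ := Finite.exists_equiv_fin (Fin t → ExpIx ⊕ Unit)
  replace e := e.symm
  refine ⟨K, Fin.pos (e.symm fun _ => Sum.inr ()), fun α _ C =>
    ⟨fun a c i => tr (wk (nx (elems (C.T a)).length) t (e i)) c, fun i => ?_, fun a =>
      ⟨sampler e _ (fun w v hv => wk_lt (sch _) t w hv) hη ht.le (by positivity)
        (spec_wk (sch _) (spec _) t), fun i => ?_⟩⟩⟩
  · have h1 : DPT fun x : Σ a, C.T a => elems (C.T x.1) := C.pt.comp DPT.id.sfst
    have h2 : PT ∅ fun x : Σ a, C.T a => ((elems (C.T x.1)).length, (elems (C.T x.1)).idxOf x.2) :=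
      (h1.length.pair (dpt_idxOf h1 DPT.ssnd)).toPT
    have h3 : DPT fun x : Σ a, C.T a =>
        wk (nx (elems (C.T x.1)).length) t (e i) ((elems (C.T x.1)).idxOf x.2) :=
      DPT.ofPT (PT.comp (g := fun p : ℕ × ℕ => wk (nx p.1) t (e i) p.2) (pt_wk pt t (e i)) h2)
    exact DPT.getD h1 h3 DPT.ssnd
  · refine Finite.injective_iff_bijective.1 fun c c' h => ?_
    have h1 := congrArg (fun c => (elems (C.T a)).idxOf c) h
    simp only [tr, idx_getD (wk_lt (sch _) t (e i) (idx_lt _))] at h1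
    rw [← getD_idx c c, wk_inj (sch _) t _ (idx_lt c) (idx_lt c') h1, getD_idx]

end Vale.Agent.P330
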