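import Vale.Agent.P330.Stmts

/-!
P330: straight line programs with levels as local Boolean line systems.
-/

namespace Vale.Agent.P330

open Vale.Agent.Lib.PolyTime hiding C P
open Vale.Agent.Lib.Dep

/-- A straight line program: the variables of level `t` are filled at time `t`; `clk t` says
that the time is at least `t`. -/
structure SLP (c ℓ : ℕ) (X ι : Type) where
  /-- the final time -/
  T : ℕ
  /-- the levels -/
  lev : X → ℕ
  /-- the clock -/
  clk : ℕ → X
  /-- the variables which are read -/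
  rd : X → ι → X
  /-- the gates -/
  fn : X → (ι → Bool) → Bool
  /-- the inputs -/
  inp : Fin c → Fin ℓ → X
  /-- the outputs -/
  out : Fin ℓ → X
  /-- the flag of the start state -/
  first : X

namespace SLP

variable {c ℓ : ℕ} {X ι : Type}

/-- the positions which are read by the rules -/
def pos (S : SLP c ℓ X ι) (v : X) : Fin 4 ⊕ ι → X :=
  Sum.elim ![v, S.clk (S.lev v), S.clk (S.lev v - 1), S.clk (S.lev v + 1)] (S.rd v)

/-- the kind of a variable -/
def kind [DecidableEq X] (S : SLP c ℓ X ι) (v : X) : Bool × Bool × Bool × Bool :=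
  (decide (v = S.first), decide (S.lev v = 0), decide (S.lev v = 1), decide (S.lev v < S.T))

/-- the constraint -/
def valF (k : Bool × Bool × Bool × Bool) (g : Bool) (y : Fin 4 → Bool) : Bool :=
  bif k.1 then y 0 == !y 1 else bif k.2.1 then true else
    (y 0 == (y 1 && g)) && (!y 1 || k.2.2.1 || y 2)

/-- the successor -/
def sucF (k : Bool × Bool × Bool × Bool) (g : Bool) (y : Fin 4 → Bool) : Bool :=
  bif k.1 then false else bif k.2.1 then y 0 else (k.2.2.1 || y 2) && g

/-- the predecessor -/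
def preF (k : Bool × Bool × Bool × Bool) (_ : Bool) (y : Fin 4 → Bool) : Bool :=
  bif k.1 then !(k.2.2.2 && y 3) else bif k.2.1 then y 0 else (k.2.2.2 && y 3) && y 0

variable [DecidableEq X] [Fintype ι]

/-- the rule with the function `Φ` -/
noncomputable def rule (S : SLP c ℓ X ι)
    (Φ : Bool × Bool × Bool × Bool → Bool → (Fin 4 → Bool) → Bool) (v : X) :
    Rule 0 (Fintype.card (Fin 4 ⊕ ι)) X Bool Bool where
  rd j := (none, S.pos v ((Fintype.equivFin _).symm j))
  fn y := Φ (S.kind v) (S.fn v fun d => y (Fintype.equivFin _ (Sum.inr d)))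
    fun d => y (Fintype.equivFin _ (Sum.inl d))

theorem eval_rule (S : SLP c ℓ X ι)
    (Φ : Bool × Bool × Bool × Bool → Bool → (Fin 4 → Bool) → Bool) (v : X) (x : X → Bool) :
    (S.rule Φ v).eval noInp x = Φ (S.kind v) (S.fn v fun d => x (S.rd v d))
      ![x v, x (S.clk (S.lev v)), x (S.clk (S.lev v - 1)), x (S.clk (S.lev v + 1))] := by
  simp only [Rule.eval, rule, Option.elim, Equiv.symm_apply_apply, pos, Sum.elim_inr, Sum.elim_inl]
  congr 1
  funext d
  fin_cases d <;> rfl

/-- the line system -/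
noncomputable def lbl (S : SLP c ℓ X ι) : LBL c ℓ (Fintype.card (Fin 4 ⊕ ι)) X where
  val := S.rule valF
  suc := S.rule sucF
  pre := S.rule preF
  inp := S.inp
  out := S.out
  first := S.first
  last := S.clk S.T

/-- the properties which do not depend on the input -/
structure WF (S : SLP c ℓ X ι) : Prop where
  pos : 1 ≤ S.T
  lev_le : ∀ v, S.lev v ≤ S.T
  lev_first : S.lev S.first = 1
  lev_clk : ∀ t, 1 ≤ t → t ≤ S.T → S.lev (S.clk t) = t
  clk_ne : ∀ t, 1 ≤ t → t ≤ S.T → S.clk t ≠ S.first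
  lev_zero : ∀ v, S.lev v = 0 ↔ ∃ j i, S.inp j i = v
  inj : Function.Injective fun p : Fin c × Fin ℓ => S.inp p.1 p.2
  out_ne : ∀ i, S.out i ≠ S.first

/-- `val` are the values of the variables for the input `σ` -/
structure Vals (S : SLP c ℓ X ι) (σ : Fin c → Sym ℓ) (val : X → Bool) : Prop where
  inp : ∀ j i, val (S.inp j i) = σ j i
  clk : ∀ t, 1 ≤ t → t ≤ S.T → val (S.clk t) = true
  fn : ∀ v, v ≠ S.first → S.lev v ≠ 0 → ∀ x : X → Bool,
    (∀ u, u ≠ S.first → S.lev u < S.lev v → x u = val u) → S.fn v (fun d => x (S.rd v d)) = val v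

/-- the state at time `t` -/
def st (S : SLP c ℓ X ι) (val : X → Bool) (t : ℕ) (v : X) : Bool :=
  if v = S.first then decide (t = 0) else decide (S.lev v ≤ t) && val v

variable {S : SLP c ℓ X ι} {σ : Fin c → Sym ℓ} {val : X → Bool}

omit [Fintype ι] [DecidableEq X] in
theorem WF.inp_ne (h : S.WF) (j : Fin c) (i : Fin ℓ) : S.inp j i ≠ S.first := fun e => by
  have h1 := (h.lev_zero _).2 ⟨j, i, e⟩
  rw [h.lev_first] at h1
  cases h1

theorem WF.wf0 (h : S.WF) : S.lbl.WF0 := ⟨h.inj, h.inp_ne⟩

omit [Fintype ι] in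
theorem st_first (t : ℕ) : S.st val t S.first = decide (t = 0) := if_pos rfl

omit [Fintype ι] in
theorem st_ne {v : X} (hv : v ≠ S.first) (t : ℕ) :
    S.st val t v = (decide (S.lev v ≤ t) && val v) := if_neg hv

omit [Fintype ι] in
theorem st_clk (h : S.WF) (hv : S.Vals σ val) (t : ℕ) {s : ℕ} (h1 : 1 ≤ s) (h2 : s ≤ S.T) :
    S.st val t (S.clk s) = decide (s ≤ t) := by
  rw [st_ne (h.clk_ne s h1 h2), h.lev_clk s h1 h2, hv.clk s h1 h2, Bool.and_true]

omit [Fintype ι] in
theorem fn_st (hv : S.Vals σ val) {v : X} (h1 : v ≠ S.first) (h2 : S.lev v ≠ 0) {t : ℕ}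
    (h3 : S.lev v ≤ t + 1) : S.fn v (fun d => S.st val t (S.rd v d)) = val v :=
  hv.fn v h1 h2 _ fun u hu hl => by
    rw [st_ne hu, decide_eq_true (by omega : S.lev u ≤ t), Bool.true_and]

theorem valid_st (h : S.WF) (hv : S.Vals σ val) (t : ℕ) : S.lbl.Valid σ (S.st val t) := by
  refine ⟨fun v => ?_, fun j i => ?_⟩
  · show (S.rule valF v).eval noInp _ = true
    rw [eval_rule]
    by_cases h1 : v = S.first
    · subst h1
      simp only [valF, kind, decide_true, cond_true, Matrix.cons_val_zero, Matrix.cons_val_one,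
        h.lev_first, st_first, st_clk h hv t le_rfl h.pos, beq_iff_eq]
      by_cases ht : t = 0
      · simp [ht]
      · simp [ht, Nat.one_le_iff_ne_zero]
    · by_cases h2 : S.lev v = 0
      · simp [valF, kind, h1, h2]
      · have h3 : 1 ≤ S.lev v := Nat.one_le_iff_ne_zero.2 h2
        simp only [valF, kind, h1, h2, decide_false, cond_false, Matrix.cons_val_zero,
          Matrix.cons_val_one, Matrix.cons_val, st_clk h hv t h3 (h.lev_le v), st_ne h1]
        by_cases h4 : S.lev v ≤ t
        · rw [fn_st hv h1 h2 (by omega)]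
          by_cases h5 : S.lev v = 1
          · simp [h5]
          · rw [st_clk h hv t (by omega) (by have := h.lev_le v; omega)]
            have : S.lev v - 1 ≤ t := by omega
            simp [this]
        · simp [h4]
  · show S.st val t (S.inp j i) = σ j i
    rw [st_ne (h.inp_ne j i), (h.lev_zero _).2 ⟨j, i, rfl⟩, hv.inp]
    simp

theorem step_st (h : S.WF) (hv : S.Vals σ val) {t : ℕ} (ht : t < S.T) :
    S.lbl.Step σ (S.st val t) (S.st val (t + 1)) := by
  refine ⟨valid_st h hv t, valid_st h hv _, ?_, ?_, fun v => ?_, fun v => ?_⟩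
  · show S.st val t (S.clk S.T) = false
    rw [st_clk h hv t h.pos le_rfl]
    simpa using ht
  · show S.st val (t + 1) S.first = false
    rw [st_first]
    simp
  · show (S.rule sucF v).eval noInp _ = _
    rw [eval_rule]
    by_cases h1 : v = S.first
    · subst h1
      simp [sucF, kind, st_first]
    · by_cases h2 : S.lev v = 0
      · simp [sucF, kind, h1, h2, st_ne h1]
      · simp only [sucF, kind, h1, h2, decide_false, cond_false, Matrix.cons_val, st_ne h1]
        by_cases h5 : S.lev v = 1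
        · rw [fn_st hv h1 h2 (by omega)]
          simp [h5]
        · rw [st_clk h hv t (by omega) (by have := h.lev_le v; omega)]
          by_cases h4 : S.lev v ≤ t + 1
          · have : S.lev v - 1 ≤ t := by omega
            rw [fn_st hv h1 h2 h4]
            simp [h4, this]
          · have : ¬ S.lev v - 1 ≤ t := by omega
            simp [h4, h5, this]
  · show (S.rule preF v).eval noInp _ = _
    rw [eval_rule]
    by_cases h1 : v = S.first
    · subst h1
      simp only [preF, kind, decide_true, cond_true, Matrix.cons_val, h.lev_first, st_first]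
      by_cases h2 : 1 < S.T
      · rw [st_clk h hv _ (by omega) (by omega)]
        by_cases h3 : t = 0
        · simp [h3]
        · have : 1 + 1 ≤ t + 1 := by omega
          simp [h2, h3, this]
      · have : t = 0 := by omega
        simp [h2, this]
    · by_cases h2 : S.lev v = 0
      · simp [preF, kind, h1, h2, st_ne h1]
      · simp only [preF, kind, h1, h2, decide_false, cond_false, Matrix.cons_val,
          Matrix.cons_val_zero, st_ne h1]
        by_cases h3 : S.lev v < S.T
        · rw [st_clk h hv _ (by omega) (by omega)]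
          by_cases h4 : S.lev v ≤ t
          · have : S.lev v ≤ t + 1 := by omega
            simp [h3, h4, this]
          · simp [h4]
        · have : ¬ S.lev v ≤ t := by omega
          simp [h3, this]

theorem exists_st (h : S.WF) (hv : S.Vals σ val) {x : X → Bool} (hx : S.lbl.Valid σ x) :
    ∃ t ≤ S.T, x = S.st val t := by
  have key : ∀ v, valF (S.kind v) (S.fn v fun d => x (S.rd v d))
      ![x v, x (S.clk (S.lev v)), x (S.clk (S.lev v - 1)), x (S.clk (S.lev v + 1))] = true :=
    fun v => (eval_rule S valF v x).symm.trans (hx.1 v)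
  have item : ∀ v, v ≠ S.first → S.lev v ≠ 0 →
      x v = (x (S.clk (S.lev v)) && S.fn v fun d => x (S.rd v d)) ∧
        (x (S.clk (S.lev v)) = true → S.lev v = 1 ∨ x (S.clk (S.lev v - 1)) = true) := by
    intro v h1 h2
    have h3 := key v
    simp only [valF, kind, h1, h2, decide_false, cond_false, Matrix.cons_val_zero,
      Matrix.cons_val_one, Matrix.cons_val, Bool.and_eq_true, beq_iff_eq, Bool.or_eq_true,
      Bool.not_eq_true', decide_eq_true_eq] at h3
    refine ⟨h3.1, fun h4 => ?_⟩
    rcases h3.2 with (h5 | h5) | h5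
    · rw [h4] at h5; cases h5
    · exact Or.inl h5
    · exact Or.inr h5
  obtain ⟨t, ht⟩ : ∃ t, t = Nat.findGreatest (fun s => x (S.clk s) = true) S.T := ⟨_, rfl⟩
  have ht1 : t ≤ S.T := ht ▸ Nat.findGreatest_le _
  have hdown : ∀ k s, 1 ≤ s → s + k = t → x (S.clk s) = true := by
    intro k
    induction k with
    | zero =>
      intro s h1 h2
      have h3 : Nat.findGreatest (fun s => x (S.clk s) = true) S.T = s := by omega
      exact Nat.findGreatest_of_ne_zero h3 (by omega)
    | succ k ih =>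
      intro s h1 h2
      have h3 := ih (s + 1) (by omega) (by omega)
      have h4 := h.lev_clk (s + 1) (by omega) (by omega)
      have h5 := (item _ (h.clk_ne (s + 1) (by omega) (by omega)) (by omega)).2
      rw [h4] at h5
      exact (h5 h3).resolve_left (by omega)
  have hclk : ∀ s, 1 ≤ s → s ≤ S.T → x (S.clk s) = decide (s ≤ t) := by
    intro s h1 h2
    by_cases h3 : s ≤ t
    · rw [hdown (t - s) s h1 (by omega), decide_eq_true h3]
    · have h4 := Nat.findGreatest_is_greatest (P := fun s => x (S.clk s) = true)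
        (show Nat.findGreatest _ S.T < s by omega) h2
      rw [decide_eq_false h3]
      simpa using h4
  refine ⟨t, ht1, funext fun v => ?_⟩
  by_cases h1 : v = S.first
  · subst h1
    have h3 := key S.first
    simp only [valF, kind, decide_true, cond_true, Matrix.cons_val_zero, Matrix.cons_val_one,
      h.lev_first, hclk 1 le_rfl h.pos, beq_iff_eq] at h3
    rw [h3, st_first]
    by_cases h4 : t = 0
    · simp [h4]
    · simp [h4, Nat.one_le_iff_ne_zero]
  · induction hn : S.lev v using Nat.strong_induction_on generalizing v with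
    | _ n ih =>
      rw [st_ne h1]
      by_cases h2 : S.lev v = 0
      · obtain ⟨j, i, rfl⟩ := (h.lev_zero v).1 h2
        rw [h2, hv.inp, decide_eq_true (Nat.zero_le t), Bool.true_and]
        exact hx.2 j i
      · rw [(item v h1 h2).1, hclk _ (Nat.one_le_iff_ne_zero.2 h2) (h.lev_le v)]
        by_cases h3 : S.lev v ≤ t
        · rw [hv.fn v h1 h2 x fun u hu hl => ?_]
          rw [ih _ (hn ▸ hl) u hu rfl, st_ne hu, decide_eq_true (by omega : S.lev u ≤ t),
            Bool.true_and]
        · simp [h3]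

theorem start_eq (h : S.WF) (hv : S.Vals σ val) : S.lbl.start σ = S.st val 0 := by
  funext v
  rw [Bool.eq_iff_iff, LBL.start]
  refine (@decide_eq_true_iff _ (_)).trans ?_
  show v = S.first ∨ (∃ j i, S.inp j i = v ∧ σ j i = true) ↔ _
  by_cases h1 : v = S.first
  · subst h1
    simp [st_first]
  · rw [st_ne h1, Bool.and_eq_true, decide_eq_true_eq, Nat.le_zero, h.lev_zero]
    constructor
    · rintro (h2 | ⟨j, i, rfl, h2⟩)
      · exact absurd h2 h1
      · exact ⟨⟨j, i, rfl⟩, (hv.inp j i).trans h2⟩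
    · rintro ⟨⟨j, i, rfl⟩, h2⟩
      exact Or.inr ⟨j, i, rfl, (hv.inp j i).symm.trans h2⟩

theorem wf_lbl (h : S.WF) (hv : S.Vals σ val) : S.lbl.WF σ := by
  refine ⟨start_eq h hv ▸ valid_st h hv 0, fun x hx h1 => ?_⟩
  obtain ⟨t, -, rfl⟩ := exists_st h hv hx
  have h2 : S.st val t S.first = true := h1
  rw [st_first, decide_eq_true_eq] at h2
  rw [start_eq h hv, h2]

theorem evals_lbl (h : S.WF) (hv : S.Vals σ val) {τ : Sym ℓ} (hτ : ∀ i, val (S.out i) = τ i) :
    S.lbl.Evals σ τ := by
  refine ⟨fun x hx h1 => ?_, fun x hx h1 => ?_⟩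
  · obtain ⟨t, ht, rfl⟩ := exists_st h hv hx
    rw [start_eq h hv] at h1
    cases t with
    | zero => exact absurd rfl h1
    | succ t => exact ⟨_, step_st h hv ht⟩
  · obtain ⟨t, ht, rfl⟩ := exists_st h hv hx
    have h2 : t = S.T := by
      by_contra h2
      exact h1 ⟨_, step_st h hv (by omega)⟩
    subst h2
    refine ⟨?_, fun i => ?_⟩
    · show S.st val S.T (S.clk S.T) = true
      rw [st_clk h hv _ h.pos le_rfl]
      simp
    · show S.st val S.T (S.out i) = τ i
      rw [st_ne (h.out_ne i), decide_eq_true (h.lev_le _), Bool.true_and, hτ]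

end SLP

/-- polynomial time families of straight line programs -/
structure SLP.IsPT {α : Type} [Enc α] {c : ℕ} {ℓ : α → ℕ} {X : α → Type} [∀ a, Enc (X a)]
    {ι : Type} [Fintype ι] (S : ∀ a, SLP c (ℓ a) (X a) ι) : Prop where
  T : DPT fun a => (S a).T
  lev : DPT fun x : Σ a, X a => (S x.1).lev x.2
  clk : DPT fun x : α × ℕ => (S x.1).clk x.2
  rd : ∀ d, DPT fun x : Σ a, X a => (S x.1).rd x.2 d
  fn : DPT fun x : Σ a, X a × (ι → Bool) => (S x.1).fn x.2.1 x.2.2
  inp : ∀ j, DPT fun x : Σ a, Fin (ℓ a) => (S x.1).inp j x.2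
  out : DPT fun x : Σ a, Fin (ℓ a) => (S x.1).out x.2
  first : DPT fun a => (S a).first

namespace SLP.IsPT

variable {α : Type} [Enc α] {c : ℕ} {ℓ : α → ℕ} {X : α → Type} [∀ a, Enc (X a)]
  {ι : Type} [Fintype ι] {S : ∀ a, SLP c (ℓ a) (X a) ι}

theorem clk' (h : IsPT S) {κ : Type} [Enc κ] {f : κ → α} {t : κ → ℕ} (hf : DPT f) (ht : DPT t) :
    DPT fun x => (S (f x)).clk (t x) :=
  DPT.comp (f := fun x => (f x, t x)) h.clk (hf.pair ht)

theorem pos (h : IsPT S) (d : Fin 4 ⊕ ι) : DPT fun x : Σ a, X a => (S x.1).pos x.2 d := by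
  have h1 : DPT fun x : Σ a, X a => x.1 := DPT.id.sfst
  rcases d with d | d
  · fin_cases d
    · exact DPT.ssnd
    · exact h.clk' h1 h.lev
    · exact h.clk' h1 (h.lev.natSub (DPT.const 1))
    · exact h.clk' h1 (h.lev.natAdd (DPT.const 1))
  · exact h.rd d

variable [∀ a, EncInj (X a)] [∀ a, DecidableEq (X a)]

theorem kind (h : IsPT S) : DPT fun x : Σ a, X a => (S x.1).kind x.2 := by
  have h1 : DPT fun x : Σ a, X a => x.1 := DPT.id.sfst
  exact (DPT.decide (DPr.eq DPT.ssnd (h.first.comp h1))).pair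
    ((DPT.decide (DPr.eq h.lev (DPT.const 0))).pair
      ((DPT.decide (DPr.eq h.lev (DPT.const 1))).pair (DPT.decide (DPr.lt h.lev (h.T.comp h1)))))

theorem rule (h : IsPT S) (Φ : Bool × Bool × Bool × Bool → Bool → (Fin 4 → Bool) → Bool) :
    RulePT (S := fun _ => Unit) (A := fun _ => Bool) (B := fun _ => Bool)
      fun a v _ => (S a).rule Φ v := by
  refine ⟨fun j => ?_, ?_⟩
  · exact (DPT.const (none : Option (Fin 0))).pair
      (DPT.comp (f := fun x : Σ a, X a × Unit => (⟨x.1, x.2.1⟩ : Σ a, X a)) (h.pos _)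
        (DPT.smk DPT.id.sfst DPT.ssnd.fst))
  · have h1 : DPT fun x : Σ a, (X a × Unit) × (Fin (Fintype.card (Fin 4 ⊕ ι)) → Bool) => x.1 :=
      DPT.id.sfst
    have h2 : DPT fun x : Σ a, (X a × Unit) × (Fin (Fintype.card (Fin 4 ⊕ ι)) → Bool) =>
      x.2.1.1 := DPT.ssnd.fst.fst
    have h3 : DPT fun x : Σ a, (X a × Unit) × (Fin (Fintype.card (Fin 4 ⊕ ι)) → Bool) =>
      x.2.2 := DPT.ssnd.snd
    have h4 := DPT.comp (f := fun x : Σ a, (X a × Unit) × (Fin (Fintype.card (Fin 4 ⊕ ι)) → Bool) =>
      (⟨x.1, x.2.1.1⟩ : Σ a, X a)) h.kind (DPT.smk h1 h2)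
    have h5 := DPT.comp (f := fun x : Σ a, (X a × Unit) × (Fin (Fintype.card (Fin 4 ⊕ ι)) → Bool) =>
      (⟨x.1, x.2.1.1, fun d => x.2.2 (Fintype.equivFin _ (Sum.inr d))⟩ : Σ a, X a × (ι → Bool)))
      h.fn (DPT.smk h1 (h2.pair (dpt_finComp (fun (y : Fin (Fintype.card (Fin 4 ⊕ ι)) → Bool)
        (d : ι) => y (Fintype.equivFin _ (Sum.inr d))) h3)))
    exact dpt_finComp (fun p : (Bool × Bool × Bool × Bool) × Bool ×
      (Fin (Fintype.card (Fin 4 ⊕ ι)) → Bool) => Φ p.1 p.2.1 fun d =>
        p.2.2 (Fintype.equivFin _ (Sum.inl d))) (h4.pair (h5.pair h3))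

theorem lbl (h : IsPT S) : LBL.IsPT fun a => (S a).lbl :=
  ⟨h.rule _, h.rule _, h.rule _, h.inp, h.out, h.first, h.clk' DPT.id h.T⟩

end SLP.IsPT

end Vale.Agent.P330
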