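import Vale.Agent.P330.Final

/-!
P330: the quasi-linear form in which the decoder is right for assignments of every code length.
-/

namespace Vale.Agent.P330

open Vale.Agent.Lib.NP
open Vale.Agent.Lib.PolyTime hiding C P
open Vale.Agent.Lib.Dep

/-- The quasi-linear form, with a decoder which is right for every bound on the code length. -/
def GoalAll : Prop :=
  ∃ (ε δ : ℝ) (p : Polynomial ℕ) (c : ℕ) (R : EOL → GCirc) (D : EOL × List ℚ≥0 → List Bool),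
    0 < ε ∧ ε < 1 ∧ 0 < δ ∧ δ < 1 ∧ Reduces ε δ p R D ∧
      (∀ I : EOL, (R I).code.length ≤ I.code.length * Nat.log 2 I.code.length ^ c) ∧
      ∀ (q : Polynomial ℕ) (I : EOL) (x : List ℚ≥0),
        (R I).Acceptable ε δ q x → I.Solution (D (I, x))

open RS in
theorem reducesAll_of_RS {D : Type} [Fintype D] [DecidableEq D] {L : ℕ} (hL : 0 < L) {δ : ℝ}
    (hδ : 0 < δ) (S : EOL → RS D L) (hS : ∀ I, (S I).WF) (hP : RS.IsPT S)
    (Dec : EOL × List ℕ → List Bool) (hD : DPT Dec)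
    (h : ∀ (I : EOL) (x : ℕ → ℕ), (∀ i, x i ≤ L) → (((S I).bad x).card : ℝ) ≤ δ * (S I).m →
      I.Solution (Dec (I, (List.range (S I).m).map x))) :
    ∃ (ε δ' : ℝ) (p : Polynomial ℕ) (D' : EOL × List ℚ≥0 → List Bool),
      0 < ε ∧ ε < 1 ∧ 0 < δ' ∧ δ' < 1 ∧ Reduces ε δ' p (fun I => (S I).circ (hS I)) D' ∧
        ∀ (q : Polynomial ℕ) (I : EOL) (x : List ℚ≥0),
          ((S I).circ (hS I)).Acceptable ε δ' q x → I.Solution (D' (I, x)) := by
  have hL' : (1 : ℝ) ≤ L := by exact_mod_cast hL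
  have hK : (0 : ℝ) < KK D L := by exact_mod_cast KK_pos
  have hε : (1 : ℝ) / (5 * L) ≤ 1 / 4 := one_div_le_one_div_of_le (by norm_num) (by linarith)
  have hδ' : 0 < min (1 / 2) (δ / KK D L) := lt_min (by norm_num) (by positivity)
  obtain ⟨p, hp⟩ := exists_acceptable (by positivity) hε hδ'.le
  have key : ∀ (q : Polynomial ℕ) (I : EOL) (x : List ℚ≥0),
      ((S I).circ (hS I)).Acceptable (1 / (5 * L)) (min (1 / 2) (δ / KK D L)) q x →
        I.Solution (Dec (I, (List.range (S I).m).map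
          fun j => lev L (x.getD (node j (.top : Loc (kk D L))) 0))) := by
    intro q I x hx
    refine h I _ (fun _ => lev_le _ _) ?_
    have h1 := card_bad_le hL (S I) (hS I) fun v => x.getD v 0
    have h2 := hx.2.2.2
    have h3 : ((S I).circ (hS I)).gates.length = (S I).m * KK D L := by simp [circ]
    rw [h3] at h2
    have h4 := (Nat.cast_le (α := ℝ)).2 h1
    have h5 : min (1 / 2) (δ / KK D L) * ((S I).m * KK D L) ≤ δ / KK D L * ((S I).m * KK D L) :=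
      mul_le_mul_of_nonneg_right (min_le_right _ _) (by positivity)
    have h6 : δ / KK D L * ((S I).m * KK D L) = δ * (S I).m := by field_simp
    push_cast at h2 h4
    linarith
  refine ⟨1 / (5 * L), min (1 / 2) (δ / KK D L), p, fun q => Dec (q.1, (List.range (S q.1).m).map
    fun j => lev L (q.2.getD (node j (.top : Loc (kk D L))) 0)), by positivity, by linarith, hδ',
    (min_le_left _ _).trans_lt (by norm_num), ⟨(dpt_circ hP hS).toPT.exists_tm2, ?_,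
    fun I => ⟨hp _, key p I⟩⟩, key⟩
  · have h1 := hP.m
    have h2 := hP.mb
    have h3 : DPT fun q : EOL × List ℚ≥0 => Dec (q.1, (List.range (S q.1).m).map
        fun j => lev L (q.2.getD (node j (.top : Loc (kk D L))) 0)) := by
      obtain ⟨mm, hm⟩ : ∃ mm : EOL → ℕ, ∀ I, (S I).m = mm I := ⟨_, fun _ => rfl⟩
      simp only [hm, lev, node] at h1 h2 ⊢
      fun_prop
    obtain ⟨g, hg, e⟩ := PT.rawOfList h3.toPT
    exact exists_tm2_of_polyTimeFun _ _ _ g (polyTimeFun_iff.2 hg) fun q => by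
      rw [pairW_eq, ratsW_eq]; exact e q

theorem goalAll_of_RS {D : Type} [Fintype D] [DecidableEq D] {L : ℕ} (hL : 0 < L) {δ : ℝ}
    (hδ : 0 < δ) (S : EOL → RS D L) (hS : ∀ I, (S I).WF) (hP : RS.IsPT S) (hQ : QL fun I => (S I).m)
    (Dec : EOL × List ℕ → List Bool) (hD : DPT Dec)
    (h : ∀ (I : EOL) (x : ℕ → ℕ), (∀ i, x i ≤ L) → (((S I).bad x).card : ℝ) ≤ δ * (S I).m →
      I.Solution (Dec (I, (List.range (S I).m).map x))) : GoalAll := by
  obtain ⟨ε, δ', p, D', h1, h2, h3, h4, h5, h6⟩ := reducesAll_of_RS hL hδ S hS hP Dec hD h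
  obtain ⟨c, hc⟩ := RS.esize_circ_le (D := D) (L := L)
  obtain ⟨d, hd⟩ := hQ.mul ((PL.const c).mul
    ((PL.size (hP.mb.mul (PBd.const (RS.KK D L)))).add (PL.const 1)))
  exact ⟨ε, δ', p, d, _, D', h1, h2, h3, h4, h5, fun I => (hc _ _).trans (hd I), h6⟩

theorem tcAll (V : TF EOL) (g : ∀ I, V.T I → Gate (V.T I))
    (dec : ∀ I, Vec (V.T I) Bool → List Bool) (η : ℝ) (h : TCOk V g dec η)
    (hQ : QL fun I => Fintype.card (V.T I)) : GoalAll := by
  obtain ⟨n, hn⟩ := h.gate.len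
  have hn' : ∀ I v, (g I v).src.length ≤ n := fun I v => hn ⟨I, v⟩
  have h0 := h.pos
  have hL : 0 < ⌈1 / η⌉₊ := Nat.ceil_pos.2 (by positivity)
  have hη : 1 / (⌈1 / η⌉₊ : ℝ) ≤ η :=
    (one_div_le (by exact_mod_cast hL) h0).2 (Nat.le_ceil _)
  exact goalAll_of_RS hL h0 _ (TC.sys_wf V g n _) (TC.sys_pt V g n _ h.gate hn')
    (hQ.mono fun I => (TC.length_elems V I).le) _ (TC.dpt_dcd V dec _ h.decPT)
    (TC.sol h hL hη hn')

open Vale.Agent.P330.Comp in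
theorem compAll {G : Prop}
    (hT : ∀ (V : TF EOL) (g : ∀ I, V.T I → Gate (V.T I)) (dec : ∀ I, Vec (V.T I) Bool → List Bool)
      (η : ℝ), TCOk V g dec η → (QL fun I => Fintype.card (V.T I)) → G)
    (hS : SampStmt) (hB : BStmt) (hC : PhysCodeStmt) (hG : GadgetStmt) (hE : ExactStmt)
    (hV : EvalStmt) (hI : BohrStmt) (hO' : OuterStmt) : G := by
  obtain ⟨c, O, K, Δ, θO, hO, dO, ho⟩ := hO'
  obtain ⟨δ, hd, hs, δ0, δ1, hd0, hs0, hk⟩ := exists_kit hS hC hG hE hV hI c ho.pt.F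
  have hM : (0 : ℝ) ≤ c * |K| := by positivity
  have hO0 := ho.posh
  obtain ⟨h1, h10, hB⟩ := hB (Δ * δ) (mul_pos ho.posΔ δ0)
  obtain ⟨h0, θ, h00, h01, h02, θ0, hp⟩ := exists_par hM δ0 δ1 hs0 ho.posθ hO0 hd0 h10
  obtain ⟨h2, ηB, T, h20, ηB0, hB⟩ :=
    hB h0 θ (1 + (1 + c * |K|) / hs + 2 / (hs * hO)) h00 h01 θ0 (by positivity)
  obtain ⟨s, t, s0, p⟩ := hp h2 h20
  obtain ⟨k, e, η', η'0, e1, e2, hk⟩ := hk s T.g s0
  have hR1 : (0 : ℝ) < Fintype.card (LReg k.RP.T k.RA.T) := by exact_mod_cast Fintype.card_pos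
  obtain ⟨η, η0, η1, η2, η3, η4⟩ : ∃ η : ℝ, 0 < η ∧ η ≤ η' ∧ η ≤ ηB ∧ η < 1 / 10 ∧
      Fintype.card (LReg k.RP.T k.RA.T) * (η / η') * (1 + 4 * (c * |K|)) ≤ s := by
    obtain ⟨η, c0, c1⟩ : ∃ η : ℝ, 0 < η ∧ η ≤ min (min η' ηB) (min (1 / 20)
        (s * η' / (Fintype.card (LReg k.RP.T k.RA.T) * (1 + 4 * (c * |K|))))) :=
      ⟨_, by positivity, le_rfl⟩
    simp only [le_min_iff] at c1
    refine ⟨η, c0, c1.1.1, c1.1.2, by linarith [c1.2.1], ?_⟩
    have c2 := c1.2.2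
    rw [le_div_iff₀ (by positivity)] at c2
    rw [mul_right_comm, ← mul_div_assoc, div_le_iff₀ η'0]
    linarith
  obtain ⟨Ks, -, hS⟩ := hS ηB ηB0
  let C : TF EOL := O.Q.prod (k.C.comap (un O) (dpt_un ho.pt))
  obtain ⟨nb, hnb, hnbS⟩ := hS EOL C
  obtain ⟨ex, hex, hE⟩ := hE 0 c EOL O.Q (TF.const EOL CT.unit) (fun I => Sym (O.ℓ I))
    (fun I => (O.sys I).toLCode) (isPT_sys ho.pt)
    ⟨fun I => 3 * O.ℓ I, (PBd.const 3).mul ho.pt.lenb, fun _ y => (esize_sym y).le⟩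
  let R : CT := (CT.finS (T.ρ + 1)).sum (CT.bool.prod
    (((CT.finS t).prod (k.RP.sum ((CT.finS 3).prod k.RA.option))).sum CT.unit))
  let V : TF EOL := C.prod (TF.const EOL R)
  let m : ∀ I, Mod (C.T I) R.T (Fin 0) := fun I =>
    totMod (Sum.inl (Fin.last t, rres k 1)) (Sum.inl (Fin.last t, rres k 2))
      (Sum.inl (Fin.last t, rres k 3)) (Sum.inr ())
      (T.mod (nb I) (fun z => k.th (un O I) z.2) (cat (k.code (un O I)) (O.st I))) (side k O t I)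
  have hm : ModPT m :=
    modPT_tot _ _ _ _ (Glue.modPT_bt T (th := fun I z => k.th (un O I) z.2)
      (st := fun I => cat (k.code (un O I)) (O.st I)) hnb (hk.ptTh.comp (dpt_inner ho.pt))
      (dpt_code hk ho.pt ho.pt.st)) (modPT_side hk ho.pt t (dpt_zsym ho.pt.len ho.pt.lenb))
  let cand : R.T → ∀ I, Vec (V.T I) Bool → List Bool := fun r I w =>
    dO I (ex I fun q => k.dc (un O I) fun z => w ((q, z), r))
  have hc : ∀ r, DPT fun x : Σ I, Vec (V.T I) Bool => cand r x.1 x.2 := by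
    intro r
    have h1 : DPT fun x : Σ I, Vec (V.T I) Bool => x.1 := DPT.id.sfst
    have h2 : DPT fun y : Σ x : (Σ I, Vec (V.T I) Bool), O.Q.T x.1 => y.1.1 := h1.comp DPT.id.sfst
    have h3 : DPT (β := fun y : Σ x : (Σ I, Vec (V.T I) Bool), O.Q.T x.1 =>
        Vec (k.C.T (un O y.1.1)) Bool) fun y z => y.1.2 ((y.2, z), r) :=
      PolyA.dpt_vec k.C ((dpt_un ho.pt).comp h2) (PolyA.dpt_app V (h2.comp DPT.id.sfst)
        (DPT.ssnd.comp DPT.id.sfst.sfst)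
        (((DPT.ssnd.comp DPT.id.sfst).pair DPT.ssnd).pair (DPT.const r)))
    exact DPT.fn dO ho.ptDec h1 (DPT.fn ex hex h1
      (PolyA.dpt_vec O.Q h1 (DPT.fn k.dc hk.ptDc ((dpt_un ho.pt).comp h2) h3)))
  have hR0 : (0 : ℝ) < Fintype.card R.T := by exact_mod_cast Fintype.card_pos
  classical
  refine hT V (fun I v => (m I v.1 v.2).map PolyA.flat)
    (fun I w => if I.Solution (cand (Sum.inl 0) I w) then cand (Sum.inl 0) I w
      else cand (Sum.inl 1) I w)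
    (η / Fintype.card R.T) ⟨by positivity, PolyA.gatePT_flat R hm,
      DPT.ite (PolyA.dpr_solution DPT.id.sfst (hc _)) (hc _) (hc _), fun I x hx hb => ?_⟩ ?_
  swap
  · refine ((ho.card.mul (pl_card k.C ho.len)).mul (PL.const (Fintype.card R.T))).mono
      fun I => le_of_eq ?_
    exact (Fintype.card_prod _ _).trans (congrArg (· * _) (Fintype.card_prod _ _))
  have key : ∀ r Z, (O.sys I).End noInp Z →
      tvd (fun z => x (z, r)) (cat (k.code (un O I)) Z) ≤ h0 → I.Solution (cand r I (rnd x)) := by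
    intro r Z h3 h4
    have h5 := frac_rows (R := fun z => 2 / 5 < |x (z, r) - bv (cat (k.code (un O I)) Z z)|) hd0
      (h4.trans h02)
    rw [mul_div_cancel_left₀ _ hd0.ne'] at h5
    have h6 := hE I noInp Δ θO hO Z (fun q => k.dc (un O I) fun z => rnd x ((q, z), r)) (ho.good I)
      h3.1 ((Glue.frac_mono fun q hq => not_le.1 fun h =>
        hq (hk.dec (un O I) (Z q) (fun z => x ((q, z), r)) h)).trans h5)
    have h7 : cand r I (rnd x) = dO I Z := congrArg (dO I) h6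
    rw [h7]
    exact ho.ends I Z h3
  have hok := PolyA.ok_flat (m I) η0 x hb
  have hx' : Unit01 fun p : C.T I × (R.T ⊕ Fin 0) => x (PolyA.flat p) := fun _ => hx _
  have sd := fun b : Bool => side_ok hk p η'0 e1 e2 η1 η3 η4 (ho.bal I) (ho.good I)
    (Glue.unit01_pull hx') (Glue.ok_pull (ι := fun r => Sum.inr (b, r))
      (κ := fun _ => Sum.inl (Sum.inl (bif b then 1 else 0))) (fun _ _ => rfl) le_rfl hok)
  have inj := fun Z Z' : O.Q.T I → Sym (O.ℓ I) =>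
    cat_inj (Z := Z) (Z' := Z') δ0 (hk.dist (un O I))
  have hst := ho.start I
  have fin := hB (C.T I) Ks (nb I) (fun z => k.th (un O I) z.2) (cat (k.code (un O I)) (O.st I))
    (fun u => ∃ Z, (O.sys I).Valid noInp Z ∧ u = cat (k.code (un O I)) Z)
    (fun u v => ∃ Z Z', (O.sys I).Step noInp Z Z' ∧ u = cat (k.code (un O I)) Z ∧
      v = cat (k.code (un O I)) Z')
    _ (hnbS I).1 (fun j => (Glue.frac_snd fun z => k.th (un O I) z = j).trans (hk.grid _ j))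
    ?_ ?_ ?_ ?_ ⟨_, hst.1, rfl⟩ ?_ ?_ (Glue.unit01_pull hx')
    (Glue.ok_pull (ι := Sum.inl) (κ := kapT T.ρ (Sum.inl (Fin.last t, rres k 1))
      (Sum.inl (Fin.last t, rres k 2)) (Sum.inl (Fin.last t, rres k 3)) (Sum.inr ()))
      (fun _ _ => rfl) η2 hok) (sd false).1 (sd true).1 ?_ ?_
  · rcases fin with ⟨_, ⟨Z, hZ, rfl⟩, h3, h4⟩ | ⟨_, ⟨Z, hZ, rfl⟩, h3, h4, h5⟩
    · have h5 := key (Sum.inl 0) Z ⟨hZ, Or.inl fun ⟨Z', h⟩ => h4 ⟨_, Z, Z', h, rfl, rfl⟩⟩ h3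
      rwa [if_pos h5]
    · have h6 := key (Sum.inl 1) Z ⟨hZ, Or.inr ⟨fun h => h3 (by rw [h]; rfl),
        fun ⟨Z', h⟩ => h5 ⟨_, Z', Z, h, rfl, rfl⟩⟩⟩ h4
      split_ifs with h7
      exacts [h7, h6]
  · rintro _ _ ⟨Z, hZ, rfl⟩ ⟨Z', hZ', rfl⟩ hne j
    refine le_trans ?_ (frac_prod_ge (P := fun q => Z q ≠ Z' q) (R := fun z : Top k O I =>
      k.th (un O I) z.2 = j ∧ cat (k.code (un O I)) Z z ≠ cat (k.code (un O I)) Z' z)
      fun q hq => hk.distG (un O I) _ _ hq j)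
    rw [mul_div_assoc]
    exact mul_le_mul_of_nonneg_right ((ho.good I).dist Z Z' hZ hZ' fun h => hne (by rw [h]))
      (by positivity)
  · rintro _ _ ⟨Z, Z', h, rfl, rfl⟩
    exact ⟨⟨Z, h.1, rfl⟩, Z', h.2.1, rfl⟩
  · rintro _ _ _ ⟨Z, Z', h, rfl, rfl⟩ ⟨Z2, Z2', h', he, rfl⟩
    obtain rfl := inj _ _ he
    exact congrArg _ (funext fun q => (h.2.2.1 q ()).symm.trans (h'.2.2.1 q ()))
  · rintro _ _ _ ⟨Z, Z', h, rfl, rfl⟩ ⟨Z2, Z2', h', rfl, he⟩
    obtain rfl := inj _ _ he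
    exact congrArg _ (funext fun q => (h.2.2.2 q ()).symm.trans (h'.2.2.2 q ()))
  · obtain ⟨Z, h⟩ := hst.2.1
    exact ⟨_, _, Z, h, rfl, rfl⟩
  · rintro ⟨_, Z, Z', h, rfl, he⟩
    obtain rfl := inj _ _ he
    exact hst.2.2 ⟨Z, h⟩
  · rintro _ _ ⟨Z, Z', h, rfl, rfl⟩ hw
    exact (sd false).2 Z h.1 hw 2 Z' fun q => h.2.2.1 q ()
  · rintro _ _ ⟨Z, Z', h, rfl, rfl⟩ hw
    exact (sd true).2 Z' h.2.1 hw 3 Z fun q => h.2.2.2 q ()

open Outer Outer.Phys in
theorem goalAll : GoalAll :=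
  compAll tcAll sampStmt bStmt (physCodeStmt sampStmt) gadget exactStmt evalStmt bohr
    (outer_of_tos (tos_of (gm_of (GMD.absStmt (GMD.opStmt agDistStmt)) GMD.ptStmt)))

end Vale.Agent.P330
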